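import Vale.Agent.P106.U.H465.PfD
import Vale.Agent.P106.U.H449.CapC
import Vale.Agent.P106.U.H339.WordX

/-!
# P106 / U / H824 : regimes of the unit steps, fields `regS`, `reg` of `S3.F2` and their count (helper824)

Blocks.  `F` own slope (with the offset), `Rc`, `Rb` the second path at the first cap of the window and at the cap `b` of the run.

* `Rg Rc Rb F n B W b` : the levels one of whose unit steps `(f, k)` has `b + Rc(v-1) < f + 2 B` and `f < b + W + k`.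
* `count` : `∑_{b0 < N} #Rg (at the caps b0 + c', b0 + c'') ≤ (n + 1) (c'' - c' + 2 B + W + 2) + F n + RI n`, for every path with
  `RC b (a + 1) ≤ RC b a + 2 + ΔRI`.
* `C2.reg_of` : outside `Rg` the alternative `regS`, `reg`; `C2.caps_of` : `loS`, `loV`, `hi`, `room`.
* `Wp` for the second paths of the closure: `wp_rt`.
-/

set_option autoImplicit false

namespace Vale.Agent.P106.U.RegF

open Finset

/-- value at the beginning of the level -/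
def pre (F : ℕ → ℕ) (v : ℕ) : ℕ := if v = 0 then 0 else F (v - 1)

theorem pre_zero (F : ℕ → ℕ) : pre F 0 = 0 := rfl
theorem pre_succ (F : ℕ → ℕ) (v : ℕ) : pre F (v + 1) = F v := by simp [pre]

theorem pre_le {F : ℕ → ℕ} (h : Monotone F) (v : ℕ) : pre F v ≤ F v := by
  unfold pre
  split_ifs
  · exact Nat.zero_le _
  · exact h (Nat.sub_le _ _)

theorem sum_pre {F : ℕ → ℕ} (h : Monotone F) : ∀ n, ∑ v ∈ range (n + 1), (F v - pre F v) = F n
  | 0 => by simp [pre]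
  | n + 1 => by
    rw [Finset.sum_range_succ, sum_pre h n, pre_succ]
    have := h (Nat.le_succ n)
    have h2 : F n ≤ F (n + 1) := this
    omega

/-- the second paths at all caps -/
structure Wp (RC : ℕ → ℕ → ℕ) (RI : ℕ → ℕ) (n : ℕ) : Prop where
  mono : ∀ a ≤ n, Monotone fun b => RC b a
  stp : ∀ b, ∀ v ≤ n, RC b v ≤ pre (RC b) v + 2 + (RI v - pre RI v)

open Classical in
/-- **the levels with a change of the regime** -/
noncomputable def Rg (Rc Rb F : ℕ → ℕ) (n B W b : ℕ) : Finset ℕ :=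
  (range (n + 1)).filter fun v => ∃ f k, pre F v ≤ f ∧ f ≤ F v ∧ pre Rb v ≤ k ∧ k ≤ Rb v ∧ (f = F v ∨ k = pre Rb v) ∧
    b + pre Rc v < f + 2 * B ∧ f < b + W + k

theorem not_Rg {Rc Rb F : ℕ → ℕ} {n B W b v f k : ℕ} (h : v ∉ Rg Rc Rb F n B W b) (hv : v ≤ n) (h1 : pre F v ≤ f)
    (h2 : f ≤ F v) (h3 : pre Rb v ≤ k) (h4 : k ≤ Rb v) (h5 : f = F v ∨ k = pre Rb v) :
    b + W + k ≤ f ∨ f + 2 * B ≤ b + pre Rc v := by
  classical
  by_contra hcon
  push Not at hcon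
  refine h ?_
  unfold Rg
  rw [Finset.mem_filter, Finset.mem_range]
  exact ⟨by omega, f, k, h1, h2, h3, h4, h5, hcon.2, hcon.1⟩

theorem card_of_diam {S : Finset ℕ} {K : ℕ} (h : ∀ x ∈ S, ∀ y ∈ S, x ≤ y → y < x + K) : S.card ≤ K := by
  rcases S.eq_empty_or_nonempty with h0 | h0
  · rw [h0]
    simp
  · have h1 : S ⊆ Ico (S.min' h0) (S.min' h0 + K) := by
      intro y hy
      rw [Finset.mem_Ico]
      exact ⟨S.min'_le y hy, h _ (S.min'_mem h0) y hy (S.min'_le y hy)⟩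
    have h2 := Finset.card_le_card h1
    rw [Nat.card_Ico] at h2
    omega

theorem lin {u : ℕ → ℕ} (hu : ∀ b, u b + 1 ≤ u (b + 1)) {x y : ℕ} (h : x ≤ y) : u x + (y - x) ≤ u y := by
  induction y, h using Nat.le_induction with
  | base => simp
  | succ y hxy ih =>
    have := hu y
    omega

/-- one level -/
theorem one {u : ℕ → ℕ} (hu : ∀ b, u b + 1 ≤ u (b + 1)) {c' c'' X Y Z : ℕ} (hc : c' ≤ c'') (hYX : Y ≤ X) {S : Finset ℕ}
    (hS : ∀ b0 ∈ S, u (b0 + c') < X ∧ Y < u (b0 + c'') + Z) : S.card ≤ (c'' - c') + (X - Y) + Z := by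
  refine card_of_diam fun x hx y hy hxy => ?_
  have h1 := (hS y hy).1
  have h2 := (hS x hx).2
  rcases Nat.lt_or_ge (y + c') (x + c'') with h3 | h3
  · omega
  · have h4 := lin hu h3
    omega

/-- **the count over the places** -/
theorem count {RC : ℕ → ℕ → ℕ} {RI F : ℕ → ℕ} {n : ℕ} (H : Wp RC RI n) (hI : Monotone RI) (hF : Monotone F)
    (N c' c'' B W : ℕ) (hc : c' ≤ c'') :
    ∑ b0 ∈ range N, (Rg (RC (b0 + c')) (RC (b0 + c'')) F n B W (b0 + c'')).card ≤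
      (n + 1) * (c'' - c' + 2 * B + W + 2) + F n + RI n := by
  classical
  have h1 : ∀ b0, (Rg (RC (b0 + c')) (RC (b0 + c'')) F n B W (b0 + c'')).card =
      ∑ v ∈ range (n + 1), if (∃ f k, pre F v ≤ f ∧ f ≤ F v ∧ pre (RC (b0 + c'')) v ≤ k ∧ k ≤ RC (b0 + c'') v ∧
        (f = F v ∨ k = pre (RC (b0 + c'')) v) ∧ b0 + c'' + pre (RC (b0 + c')) v < f + 2 * B ∧ f < b0 + c'' + W + k)
        then 1 else 0 := by
    intro b0
    unfold Rg
    rw [Finset.card_filter]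
  rw [Finset.sum_congr rfl fun b0 _ => h1 b0, Finset.sum_comm]
  have h2 : ∀ v ∈ range (n + 1), ∑ b0 ∈ range N, (if (∃ f k, pre F v ≤ f ∧ f ≤ F v ∧ pre (RC (b0 + c'')) v ≤ k ∧
        k ≤ RC (b0 + c'') v ∧ (f = F v ∨ k = pre (RC (b0 + c'')) v) ∧
        b0 + c'' + pre (RC (b0 + c')) v < f + 2 * B ∧ f < b0 + c'' + W + k) then 1 else 0) ≤
      (c'' - c' + 2 * B + W + 2) + (F v - pre F v) + (RI v - pre RI v) := by
    intro v hv
    have hv' : v ≤ n := by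
      have := Finset.mem_range.1 hv
      omega
    rw [← Finset.card_filter]
    have hp := pre_le hF v
    have hu : ∀ b, (b + pre (RC b) v) + 1 ≤ (b + 1) + pre (RC (b + 1)) v := by
      intro b
      have h3 : pre (RC b) v ≤ pre (RC (b + 1)) v := by
        unfold pre
        split_ifs
        · exact le_rfl
        · exact H.mono (v - 1) (by omega) (Nat.le_succ b)
      omega
    refine (one (u := fun b => b + pre (RC b) v) hu (c' := c') (c'' := c'') (X := F v + 2 * B) (Y := pre F v)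
      (Z := W + 2 + (RI v - pre RI v)) hc (by omega) fun b0 hb0 => ?_).trans (by omega)
    rw [Finset.mem_filter] at hb0
    obtain ⟨_, f, k, q1, q2, q3, q4, q5, q6, q7⟩ := hb0
    have h4 := H.stp (b0 + c'') v hv'
    refine ⟨?_, ?_⟩
    · show b0 + c' + pre (RC (b0 + c')) v < F v + 2 * B
      omega
    · show pre F v < b0 + c'' + pre (RC (b0 + c'')) v + (W + 2 + (RI v - pre RI v))
      rcases q5 with q | q
      · omega
      · omega
  refine (Finset.sum_le_sum h2).trans ?_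
  rw [Finset.sum_add_distrib, Finset.sum_add_distrib, sum_pre hF, sum_pre hI, Finset.sum_const, Finset.card_range,
    smul_eq_mul]

end Vale.Agent.P106.U.RegF

namespace Vale.Agent.P106.U.H565

open Finset Vale.Agent.P127 Vale.Agent.P127.Stk Vale.Agent.P127.U Vale.Agent.P106.W
open Vale.Agent.P106.U Vale.Agent.P106.U.H449 Vale.Agent.P106.U.StripL Vale.Agent.P106.U.StripE
open Vale.Agent.P106.U.H823.NumG Vale.Agent.P106.U.H823.PathNum Vale.Agent.P106.U.RegF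

variable {Ω : Type} [Fintype Ω]

/-- from helper823's `W2` -/
theorem stp_of_W2 {I R : ℕ → ℕ} (hI : Monotone I) (h : W2 I R 0) (v : ℕ) : R v ≤ pre R v + 2 + (I v - pre I v) := by
  cases v with
  | zero =>
    have := h.le 0
    rw [pre_zero, pre_zero]
    omega
  | succ v =>
    rw [pre_succ, pre_succ]
    have h1 := h.le (v + 1)
    have h2 := h.jump v
    have h3 : I v ≤ I (v + 1) := hI (Nat.le_succ v)
    by_cases h4 : R v + 3 ≤ R (v + 1)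
    · have := h2 h4
      omega
    · omega

namespace C0

variable {c : C0 Ω} {hm : 3 ≤ c.I.m} {cc : ℝ} {Q : Law Ω} {E : List (Lt 2)} {x : ℝ}

/-- the second path at the cap `b`, continued -/
noncomputable def RX (c : C0 Ω) (hm : 3 ≤ c.I.m) (cc : ℝ) (E : List (Lt 2)) (Q : Law Ω) (ω : Ω) (b : ℕ) : ℕ → ℕ :=
  ext (Rw c.I.pm.n E 1) (fun a => c.RT hm cc Q b a ω) c.I.ha

/-- **the second paths of the closure** at all caps, levels `≤ ha` -/
theorem wp_rt (cn : Cn c.rule c.P Q c.I.pm.n E x) (in0 : ∀ ω, c.d0.In (c.tW ω) (c.κ ω)) (hc : 0 ≤ cc) (ω : Ω) :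
    Wp (c.RX hm cc E Q ω) (Rw c.I.pm.n E 1) c.I.ha where
  mono := fun a ha b b' hb => by
    show c.RX hm cc E Q ω b a ≤ c.RX hm cc E Q ω b' a
    unfold RX
    rw [ext_eq ha, ext_eq ha]
    exact C0.rt_mono cn hb ω a
  stp := fun b v _ => stp_of_W2 (cn.Rw_mono 1) (C0.w2_rt cn in0 hc b ω) v

end C0

namespace C0

variable {c : C0 Ω} {hm : 3 ≤ c.I.m} {cc : ℝ} {Q : Law Ω} {E : List (Lt 2)} {x : ℝ}

theorem ext_congr {I R R' : ℕ → ℕ} {A : ℕ} (h : ∀ a ≤ A, R a = R' a) : ext I R A = ext I R' A := by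
  funext a
  unfold H823.NumG.ext
  split_ifs with h1
  · exact h a h1
  · rw [h A le_rfl]

/-- the second path read from the value of the word -/
noncomputable def pz (c : C0 Ω) (E : List (Lt 2)) (z : ℕ → ℕ → ℕ) (j : ℕ) : ℕ → ℕ :=
  ext (Rw c.I.pm.n E 1) (fun a => z j a - (c.I.ha - a)) c.I.ha

theorem pz_eq {s b0 kk j : ℕ} (hj : j ≤ kk) (ω : Ω) :
    c.pz E (c.Zr hm cc s Q b0 kk ω) j = c.RX hm cc E Q ω (b0 + j * s) := by
  refine ext_congr fun a ha => ?_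
  show c.Zr hm cc s Q b0 kk ω j a - (c.I.ha - a) = c.RT hm cc Q (b0 + j * s) a ω
  have h1 : c.Zr hm cc s Q b0 kk ω j a = c.wRT hm cc Q (b0 + j * s) ω a := by
    exact H339W.jws_apply ω hj ha
  rw [h1]
  unfold wRT
  omega

/-- number of the levels with a change of the regime, read from the value of the word: window `j1 .. kk` of the caps -/
noncomputable def nRg (c : C0 Ω) (E : List (Lt 2)) (B W s j1 b0 kk : ℕ) (z : ℕ → ℕ → ℕ) : ℕ :=
  (Rg (c.pz E z j1) (c.pz E z kk) (fun a => Rw c.I.pm.n E 0 a + 2) c.I.ha B W (b0 + kk * s)).card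

/-- **the average over the places** -/
theorem sum_nRg (cn : Cn c.rule c.P Q c.I.pm.n E x) (in0 : ∀ ω, c.d0.In (c.tW ω) (c.κ ω)) (hc : 0 ≤ cc)
    (N B W s : ℕ) {j1 kk : ℕ} (hj : j1 ≤ kk) :
    ∑ b0 ∈ range N, Q.ex (fun ω => (c.nRg E B W s j1 b0 kk (c.Zr hm cc s Q b0 kk ω) : ℝ)) ≤
      ((c.I.ha + 1) * ((kk - j1) * s + 2 * B + W + 2) + (Rw c.I.pm.n E 0 c.I.ha + 2) + Rw c.I.pm.n E 1 c.I.ha : ℕ) := by
  have e : ∑ b0 ∈ range N, Q.ex (fun ω => (c.nRg E B W s j1 b0 kk (c.Zr hm cc s Q b0 kk ω) : ℝ)) =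
      Q.ex (fun ω => ∑ b0 ∈ range N, (c.nRg E B W s j1 b0 kk (c.Zr hm cc s Q b0 kk ω) : ℝ)) := by
    unfold Law.ex
    rw [Finset.sum_comm]
    refine Finset.sum_congr rfl fun ω _ => ?_
    rw [Finset.mul_sum]
  rw [e]
  refine (Q.ex_mono (g := fun _ => (((c.I.ha + 1) * ((kk - j1) * s + 2 * B + W + 2) + (Rw c.I.pm.n E 0 c.I.ha + 2) +
    Rw c.I.pm.n E 1 c.I.ha : ℕ) : ℝ)) fun ω _ => ?_).trans (le_of_eq (Q.ex_const _))
  have h1 := count (C0.wp_rt (hm := hm) cn in0 hc ω) (cn.Rw_mono 1)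
    (fun a b h => Nat.add_le_add_right (cn.Rw_mono 0 h) 2) N (j1 * s) (kk * s) B W (Nat.mul_le_mul_right s hj)
  have h2 : kk * s - j1 * s = (kk - j1) * s := by rw [Nat.sub_mul]
  rw [h2] at h1
  have h3 : ∑ b0 ∈ range N, c.nRg E B W s j1 b0 kk (c.Zr hm cc s Q b0 kk ω) =
      ∑ b0 ∈ range N, (Rg (c.RX hm cc E Q ω (b0 + j1 * s)) (c.RX hm cc E Q ω (b0 + kk * s))
        (fun a => Rw c.I.pm.n E 0 a + 2) c.I.ha B W (b0 + kk * s)).card := by
    refine Finset.sum_congr rfl fun b0 _ => ?_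
    unfold nRg
    rw [pz_eq hj, pz_eq le_rfl]
  rw [← h3] at h1
  exact_mod_cast h1

end C0

namespace C2

variable (c : C2 Ω)

/-- **outside `Rg`** : the alternative of the regimes (digits) -/
theorem reg_of {Rc : ℕ → ℕ} {n B W bV : ℕ} (hbV : bV ≤ c.I.m * (c.b1 + W)) {k : ℕ} (hk : k ≤ c.D.N)
    (hn : c.D.li k ≤ n) (hv : c.D.li k ∉ Rg Rc c.RC (fun a => Rw c.I.pm.n c.E1 0 a + 2) n B W c.b1) {x : ℕ}
    (hx : pre Rc (c.D.li k) ≤ x) :
    bV + c.D.lk k ≤ c.D.lf k ∨ c.D.lf k + 2 * (c.I.m * B) ≤ c.I.m * c.b1 + (c.I.rs + c.I.m * x) := by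
  have e0 : c.D.li k = c.D.L.lev k := c.D.li_eq hk
  have e1 : c.D.lk k = c.I.rs + c.I.m * c.D.L.k k := c.D.lk_eq hk
  have e2 : c.D.lf k = c.I.rs + c.I.m * c.D.L.f k := c.D.lf_eq hk
  rw [e0] at hv hn hx
  have h1 : pre (fun a => Rw c.I.pm.n c.E1 0 a + 2) (c.D.L.lev k) ≤ c.D.L.f k := c.D.L.le_f k
  have h2 : c.D.L.f k ≤ Rw c.I.pm.n c.E1 0 (c.D.L.lev k) + 2 := c.D.L.f_le k
  have h3 : pre c.RC (c.D.L.lev k) ≤ c.D.L.k k := c.D.L.le_k k
  have h4 : c.D.L.k k ≤ c.RC (c.D.L.lev k) := c.D.L.k_le k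
  have h5 : c.D.L.f k = Rw c.I.pm.n c.E1 0 (c.D.L.lev k) + 2 ∨ c.D.L.k k = pre c.RC (c.D.L.lev k) := by
    rcases c.D.L.f_or k with h | ⟨_, h⟩
    · exact Or.inl h
    · exact Or.inr h
  rw [e1, e2]
  rcases not_Rg hv hn h1 h2 h3 h4 h5 with h | h
  · left
    have h6 := Nat.mul_le_mul_left c.I.m h
    rw [Nat.mul_add] at h6
    omega
  · right
    have h6 := Nat.mul_le_mul_left c.I.m (h.trans (Nat.add_le_add_left hx c.b1))
    rw [Nat.mul_add, Nat.mul_add] at h6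
    have e3 : 2 * (c.I.m * B) = c.I.m * (2 * B) := by ring
    rw [e3]
    omega

/-- level at a step of the run, inside word 1 -/
theorem li_n {Rm : ℕ} {cc : ℝ} {Ac rc : ℕ} (H : c.Hyp Rm cc Ac rc) (k : ℕ) : c.D.li k ≤ c.I.ha := C2.li_ha H k

/-- **the field `regS`** (every level outside `Rg`) -/
theorem regS_lit {Rm : ℕ} {cc : ℝ} {Ac rc : ℕ} (H : c.Hyp Rm cc Ac rc) (hm : 3 ≤ c.I.m) {Rc : ℕ → ℕ} {B W bS : ℕ}
    (hR : ∀ a ≤ c.I.ha, Rc a ≤ c.RC a) (hb : bS ≤ c.I.m * (c.b1 + W)) {k : ℕ} (hk : k ≤ (c.erun hm).n)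
    (hv : S3.lv (c.erun hm) k ∉ Rg Rc c.RC (fun a => Rw c.I.pm.n c.E1 0 a + 2) c.I.ha B W c.b1) :
    bS + (c.erun hm).C.rk k ≤ (c.erun hm).C.rf k ∨
      (c.erun hm).C.rf k + 2 * ((c.erun hm).m * B) ≤ (c.erun hm).m * (c.erun hm).b1 + (c.erun hm).C.rk k := by
  have hk' : k ≤ c.D.N := by
    have h1 : k ≤ c.D.n := hk
    exact h1.trans c.D.n_le
  have e0 : S3.lv (c.erun hm) k = c.D.li k := C2.lv_eq H k
  rw [e0] at hv
  have hn := C2.li_ha H k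
  have e1 : c.D.lk k = c.I.rs + c.I.m * c.D.L.k k := c.D.lk_eq hk'
  have e2 : c.D.li k = c.D.L.lev k := c.D.li_eq hk'
  have hx : pre Rc (c.D.li k) ≤ c.D.L.k k := by
    rw [e2] at hn ⊢
    refine le_trans ?_ (c.D.L.le_k k)
    show pre Rc (c.D.L.lev k) ≤ pre c.RC (c.D.L.lev k)
    unfold pre
    split_ifs
    · exact le_rfl
    · exact hR _ (by omega)
  have h1 := c.reg_of hb hk' hn hv hx
  rw [← e1] at h1
  exact h1

/-- **the field `reg`** (every level outside `Rg`) -/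
theorem reg_lit {Rm : ℕ} {cc : ℝ} {Ac rc : ℕ} (H : c.Hyp Rm cc Ac rc) (hm : 3 ≤ c.I.m) {Rc : ℕ → ℕ} {B W bV : ℕ}
    {k0 : ℕ → ℕ} (hk0 : Monotone k0) (hl : ∀ i, k0 i ≤ c.D.L.k (c.D.ix i)) (Bb : ℕ)
    (hx : ∀ i, pre Rc (c.D.li i) ≤ k0 i) (hb : bV ≤ c.I.m * (c.b1 + W)) {k : ℕ} (hk : k ≤ (c.erun hm).n)
    (hv : S3.lv (c.erun hm) k ∉ Rg Rc c.RC (fun a => Rw c.I.pm.n c.E1 0 a + 2) c.I.ha B W c.b1) :
    bV + (c.erun hm).C.rk k ≤ (c.erun hm).C.rf k ∨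
      (c.erun hm).C.rf k + 2 * ((c.erun hm).m * B) ≤
        (c.erun hm).m * (c.erun hm).b1 + (c.pfd hm k0 hk0 hl Bb).rk0 k := by
  have hk' : k ≤ c.D.N := by
    have h1 : k ≤ c.D.n := hk
    exact h1.trans c.D.n_le
  have e0 : S3.lv (c.erun hm) k = c.D.li k := C2.lv_eq H k
  rw [e0] at hv
  exact c.reg_of hb hk' (C2.li_ha H k) hv (hx k)

/-- **the later caps** : `bS = m (b1 + WS)`, `bV = m (b1 + WV)` -/
theorem caps_of {B WS WV : ℕ} (h1 : B ≤ WS) (h2 : WS ≤ WV) (hδ : 0 < c.I.δ1) (hδ3 : 3 * c.I.δ1 ≤ 1)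
    (hh : ((c.I.m * (2 * WV + 8 * c.I.B + 2) : ℕ) : ℝ) ≤ c.I.δ1 / 2 * c.I.h)
    (hb : c.b1 < nBl (c.I.δ1 / 2) c.I.h c.I.m) :
    c.I.m * (c.b1 + B) ≤ c.I.m * (c.b1 + WS) ∧ c.I.m * (c.b1 + WS) ≤ c.I.m * (c.b1 + WV) ∧
      c.I.m * (c.b1 + WV) ≤ c.num.B₁ ∧
      c.num.A' + 2 * (c.I.m * (c.b1 + WV)) + 8 * (c.I.m * c.I.B) ≤ c.I.h := by
  have hm := c.good.m1
  have hmr : (0 : ℝ) < c.I.m := by exact_mod_cast hm
  have hh0 : (0 : ℝ) ≤ c.I.h := Nat.cast_nonneg _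
  have b0 : ((c.b1 + 1 : ℕ) : ℝ) ≤ nBl (c.I.δ1 / 2) c.I.h c.I.m := by exact_mod_cast hb
  have b1 : ((c.I.m * nBl (c.I.δ1 / 2) c.I.h c.I.m : ℕ) : ℝ) ≤ c.I.δ1 / 2 * c.I.h := nBl_le (by positivity) hm
  have b2 : (c.I.m : ℝ) * (c.b1 + 1) ≤ c.I.δ1 / 2 * c.I.h := by
    push_cast at b0 b1
    have := mul_le_mul_of_nonneg_left b0 hmr.le
    linarith
  push_cast at hh
  have hB0 : (0 : ℝ) ≤ c.I.m * c.I.B := by positivity
  have hB1 : (0 : ℝ) ≤ c.I.m * WV := by positivity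
  have b3 : (c.I.m : ℝ) * (c.b1 + WV) + c.I.m ≤ c.I.δ1 * c.I.h := by
    nlinarith
  refine ⟨Nat.mul_le_mul_left _ (by omega), Nat.mul_le_mul_left _ (by omega), ?_, ?_⟩
  · show c.I.m * (c.b1 + WV) ≤ c.I.m * c.I.B1b
    refine Nat.mul_le_mul_left _ ?_
    unfold H523.Nums.Inp.B1b
    refine Nat.le_floor ?_
    rw [le_div_iff₀ hmr]
    push_cast
    linarith
  · show c.I.m * c.I.A'b + 2 * (c.I.m * (c.b1 + WV)) + 8 * (c.I.m * c.I.B) ≤ c.I.h
    have a1 : (c.I.A'b : ℝ) ≤ (1 - 3 * c.I.δ1) * c.I.h / c.I.m := by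
      unfold H523.Nums.Inp.A'b
      exact Nat.floor_le (div_nonneg (mul_nonneg (by linarith) hh0) hmr.le)
    rw [le_div_iff₀ hmr] at a1
    have a2 : ((c.I.m * c.I.A'b + 2 * (c.I.m * (c.b1 + WV)) + 8 * (c.I.m * c.I.B) : ℕ) : ℝ) ≤ c.I.h := by
      push_cast
      nlinarith
    exact_mod_cast a2

end C2

end Vale.Agent.P106.U.H565
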