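import Vale.Agent.P127.U.PathU

/-!
# P106 / U / H824 : generic adaptive exploration (helper824)

A rule `ρ` reads a history (a random list of pairs (letter, value)) and produces the next pair.
`hist ρ i` is the history after `i` steps, `word ρ i` its letters.  Nothing is assumed about the
rule : the values may be blocks of digits or indices of heavy sets (see `Gh.lean`).

For a law `Q` with `Q ≤ P / p` and deterministic word:
* `cost_step`, `cost_total` : Gibbs costs of the cheap steps, given any side variable `L`;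
* `kap_le`, `sum_kap` : divergence of the blocks which are revealed within `J + 1` steps;
* `ev_le`, `sum_ev` : an event which is rare for the reference law given `(L, hist)` is rare for `Q`
  at most steps; `coll_two` : one-sided nonatomicity suffices.
* `word_H_le`, `exists_word` : selection of a word.
-/

set_option autoImplicit false

namespace Vale.Agent.P106.U.Gx

open Finset Vale.Agent.P127 Vale.Agent.P127.Stk Vale.Agent.P127.U.Path Vale.Agent.P127.U.PathS

variable {Ω : Type} [Fintype Ω] {α Λ S T T1 T2 : Type*}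

/-- a rule : from a history to the next letter and value -/
abbrev Rule (Ω Λ S : Type*) := (Ω → List (Λ × S)) → Ω → Λ × S

/-- the history after `i` steps, newest entry first -/
def hist (ρ : Rule Ω Λ S) : ℕ → Ω → List (Λ × S)
  | 0 => fun _ => []
  | i + 1 => fun ω => ρ (hist ρ i) ω :: hist ρ i ω

/-- the pair which is revealed at step `i` -/
def stp (ρ : Rule Ω Λ S) (i : ℕ) (ω : Ω) : Λ × S := ρ (hist ρ i) ω

/-- the letters of the first `i` steps, newest letter first -/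
def word (ρ : Rule Ω Λ S) (i : ℕ) (ω : Ω) : List Λ := (hist ρ i ω).map Prod.fst

omit [Fintype Ω] in
@[simp] lemma hist_zero (ρ : Rule Ω Λ S) (ω : Ω) : hist ρ 0 ω = [] := rfl

omit [Fintype Ω] in
lemma hist_succ (ρ : Rule Ω Λ S) (i : ℕ) (ω : Ω) : hist ρ (i + 1) ω = stp ρ i ω :: hist ρ i ω := rfl

omit [Fintype Ω] in
lemma hist_length (ρ : Rule Ω Λ S) (i : ℕ) (ω : Ω) : (hist ρ i ω).length = i := by
  induction i with
  | zero => rfl
  | succ i ih => rw [hist_succ, List.length_cons, ih]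

omit [Fintype Ω] in
lemma hist_drop (ρ : Rule Ω Λ S) (i k : ℕ) (ω : Ω) : (hist ρ (i + k) ω).drop k = hist ρ i ω := by
  induction k with
  | zero => simp
  | succ k ih => rw [← Nat.add_assoc, hist_succ, List.drop_succ_cons, ih]

omit [Fintype Ω] in
lemma word_succ (ρ : Rule Ω Λ S) (i : ℕ) (ω : Ω) :
    word ρ (i + 1) ω = (stp ρ i ω).1 :: word ρ i ω := rfl

omit [Fintype Ω] in
lemma word_length (ρ : Rule Ω Λ S) (i : ℕ) (ω : Ω) : (word ρ i ω).length = i := by
  unfold word
  rw [List.length_map, hist_length]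

omit [Fintype Ω] in
lemma word_drop (ρ : Rule Ω Λ S) (i k : ℕ) (ω : Ω) : (word ρ (i + k) ω).drop k = word ρ i ω := by
  unfold word
  rw [← List.map_drop, hist_drop]

omit [Fintype Ω] in
lemma hist_mono (ρ : Rule Ω Λ S) {i j : ℕ} (h : i ≤ j) {ω ω' : Ω}
    (h' : hist ρ j ω = hist ρ j ω') : hist ρ i ω = hist ρ i ω' := by
  obtain ⟨k, rfl⟩ := Nat.exists_eq_add_of_le h
  rw [← hist_drop ρ i k ω, ← hist_drop ρ i k ω', h']

omit [Fintype Ω] in
lemma stp_mono (ρ : Rule Ω Λ S) {i j : ℕ} (h : i < j) {ω ω' : Ω}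
    (h' : hist ρ j ω = hist ρ j ω') : stp ρ i ω = stp ρ i ω' := by
  have := hist_mono ρ (Nat.succ_le_of_lt h) h'
  rw [hist_succ, hist_succ] at this
  exact (List.cons.inj this).1

/-- what is known after `i` steps, with a side variable -/
def Yi (ρ : Rule Ω Λ S) (L : Ω → α) (i : ℕ) (ω : Ω) : α × List (Λ × S) := (L ω, hist ρ i ω)

omit [Fintype Ω] in
lemma Yi_mono (ρ : Rule Ω Λ S) (L : Ω → α) {i j : ℕ} (h : i ≤ j) {ω ω' : Ω}
    (h' : Yi ρ L j ω = Yi ρ L j ω') : Yi ρ L i ω = Yi ρ L i ω' := by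
  unfold Yi at h' ⊢
  simp only [Prod.mk.injEq] at h' ⊢
  exact ⟨h'.1, hist_mono ρ h h'.2⟩

/-- `Q` is a conditioned law with deterministic word `E` of length `n` -/
structure Cnd (ρ : Rule Ω Λ S) (P Q : Law Ω) (n : ℕ) (E : List Λ) (p : ℝ) : Prop where
  hp : 0 < p
  hw : ∀ ω, Q.w ω ≤ P.w ω / p
  hE : ∀ ω, 0 < Q.w ω → word ρ n ω = E

theorem cnd_of (ρ : Rule Ω Λ S) (P : Law Ω) {δ : Type*} (X : Ω → δ) (n : ℕ) (E : List Λ) (x : δ)
    (h : 0 < P.pr (fun ω => (word ρ n ω, X ω)) (E, x)) :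
    Cnd ρ P (P.cond (fun ω => (word ρ n ω, X ω)) (E, x)) n E
      (P.pr (fun ω => (word ρ n ω, X ω)) (E, x)) := by
  classical
  refine ⟨h, fun ω => ?_, fun ω hω => ?_⟩
  · rw [P.cond_w _ _ h]
    split_ifs
    · exact le_rfl
    · exact div_nonneg (P.nn ω) h.le
  · rw [P.cond_w _ _ h] at hω
    split_ifs at hω with hc
    · exact (Prod.mk.inj hc).1
    · exact absurd hω (lt_irrefl _)

/-! ### Chain rule -/

/-- chain rule along the exploration, any law, any side variable -/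
theorem chain (Q : Law Ω) (ρ : Rule Ω Λ S) (L : Ω → α) (i k : ℕ) :
    ∑ j ∈ Finset.Ico i (i + k), hc Q (stp ρ j) (Yi ρ L j) =
      Q.H (Yi ρ L (i + k)) - Q.H (Yi ρ L i) := by
  induction k with
  | zero => simp
  | succ k ih =>
    rw [← Nat.add_assoc, Finset.sum_Ico_succ_top (by omega), ih]
    have h1 : Q.H (fun ω => (stp ρ (i + k) ω, Yi ρ L (i + k) ω)) = Q.H (Yi ρ L (i + k + 1)) := by
      refine Q.H_congr fun ω ω' => ?_
      simp only [Yi, Prod.mk.injEq, hist_succ, List.cons.injEq]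
      tauto
    unfold hc
    rw [h1]
    ring

theorem chain0 (Q : Law Ω) (ρ : Rule Ω Λ S) (L : Ω → α) (n : ℕ) :
    ∑ j ∈ Finset.range n, hc Q (stp ρ j) (Yi ρ L j) = hc Q (hist ρ n) L := by
  have h1 := chain Q ρ L 0 n
  rw [Nat.Ico_zero_eq_range, Nat.zero_add] at h1
  rw [h1]
  have h2 : Q.H (Yi ρ L 0) = Q.H L := by
    refine Q.H_congr fun ω ω' => ?_
    simp [Yi]
  have h3 : Q.H (Yi ρ L n) = Q.H (fun ω => (hist ρ n ω, L ω)) := by
    refine Q.H_congr fun ω ω' => ?_
    simp only [Yi, Prod.mk.injEq]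
    tauto
  unfold hc
  rw [h2, h3]

/-! ### One-sided nonatomicity -/

lemma coll_key (Q : Law Ω) (X : Ω → S) (C : Ω → T) (Y : Ω → T1) (h1 : Fn Q C Y) {ε : ℝ}
    (hε : 0 ≤ ε) : Q.ex (fun ω => ε * (cp Q X C ω / cp Q X Y ω)) ≤ ε := by
  rw [Q.ex_const_mul]
  have := ex_cp_div Q X h1
  nlinarith

/-- collisions given a variable `C` which is a function of `Y1` and of `Y2` -/
theorem coll_two (Q : Law Ω) (X : Ω → S) (C : Ω → T) (Y1 : Ω → T1) (Y2 : Ω → T2)
    (h1 : Fn Q C Y1) (h2 : Fn Q C Y2) {ε : ℝ} (hε : 0 ≤ ε) :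
    coll Q X C ≤ 2 * ε + prE Q (fun ω => ε ≤ cp Q X Y1 ω ∧ ε ≤ cp Q X Y2 ω) := by
  classical
  have k1 := coll_key Q X C Y1 h1 hε
  have k2 := coll_key Q X C Y2 h2 hε
  have h3 : coll Q X C ≤ Q.ex (fun ω => ε * (cp Q X C ω / cp Q X Y1 ω) +
      ε * (cp Q X C ω / cp Q X Y2 ω) +
      (if ε ≤ cp Q X Y1 ω ∧ ε ≤ cp Q X Y2 ω then (1 : ℝ) else 0)) := by
    unfold coll
    refine Q.ex_mono fun ω hω => ?_
    have hc1 := cp_le_one Q X C ω
    have hc0 := cp_nonneg Q X C ω
    have p1 := cp_pos Q X Y1 hω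
    have p2 := cp_pos Q X Y2 hω
    have n1 : 0 ≤ ε * (cp Q X C ω / cp Q X Y1 ω) := by positivity
    have n2 : 0 ≤ ε * (cp Q X C ω / cp Q X Y2 ω) := by positivity
    by_cases ha : ε ≤ cp Q X Y1 ω
    · by_cases hb : ε ≤ cp Q X Y2 ω
      · rw [if_pos ⟨ha, hb⟩]
        linarith
      · rw [if_neg (fun h => hb h.2)]
        push Not at hb
        have : cp Q X C ω ≤ ε * (cp Q X C ω / cp Q X Y2 ω) := by
          rw [← mul_div_assoc, le_div_iff₀ p2]
          nlinarith
        linarith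
    · rw [if_neg (fun h => ha h.1)]
      push Not at ha
      have : cp Q X C ω ≤ ε * (cp Q X C ω / cp Q X Y1 ω) := by
        rw [← mul_div_assoc, le_div_iff₀ p1]
        nlinarith
      linarith
  rw [Q.ex_add, Q.ex_add] at h3
  rw [prE_eq_ex]
  linarith

/-- probability of an event under `Q` when it is rare for the reference law given `Y` -/
theorem ev_le (Q P : Law Ω) (hac : Ac Q P) (X : Ω → Bool) (Y : Ω → T) {ε θ : ℝ} (hθ : 0 < θ)
    (hε : θ < ε) (hX : ∀ ω, 0 < Q.w ω → X ω = true → cp P X Y ω ≤ θ) :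
    prE Q (fun ω => X ω = true) ≤ ε +
      (Q.ex (fun ω => Real.log (cp Q X Y ω) - Real.log (cp P X Y ω)) + 1) / Real.log (ε / θ) := by
  classical
  have hε0 : 0 < ε := hθ.trans hε
  have hlog : 0 < Real.log (ε / θ) := Real.log_pos (by rwa [lt_div_iff₀ hθ, one_mul])
  have h1 := tilt Q X Y (cp P X Y) (fun ω hω => cp_pos P X Y (hac ω hω)) (ex_cp_div' P Q X Y)
    hθ hε
  rw [← le_div_iff₀ hlog] at h1
  have h2 : prE Q (fun ω => X ω = true) ≤ prE Q (fun ω => ε ≤ cp Q X Y ω ∧ cp P X Y ω ≤ θ) +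
      prE Q (fun ω => X ω = true ∧ cp Q X Y ω < ε) := by
    rw [prE_eq_ex, prE_eq_ex, prE_eq_ex, ← Q.ex_add]
    refine Q.ex_mono fun ω hω => ?_
    by_cases hx : X ω = true
    · rw [if_pos hx]
      by_cases hb : ε ≤ cp Q X Y ω
      · rw [if_pos ⟨hb, hX ω hω hx⟩]
        split_ifs <;> norm_num
      · rw [if_neg (fun h => hb h.1), if_pos ⟨hx, not_le.1 hb⟩]
        norm_num
    · rw [if_neg hx]
      split_ifs <;> norm_num
  have h3 : prE Q (fun ω => X ω = true ∧ cp Q X Y ω < ε) ≤ ε := by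
    have h4 := ex_div_cp Q X Y (fun x _ => if x = true then (1 : ℝ) else 0)
      (fun x y => by split_ifs <;> norm_num)
    have h5 : ∑ x ∈ img X, Q.ex (fun _ => if x = true then (1 : ℝ) else 0) ≤ 1 := by
      have e1 : ∀ x : Bool, Q.ex (fun _ => if x = true then (1 : ℝ) else 0) =
          if x = true then (1 : ℝ) else 0 := fun x => Q.ex_const _
      simp only [e1]
      rw [Finset.sum_ite_eq']
      split_ifs <;> norm_num
    have h6 : prE Q (fun ω => X ω = true ∧ cp Q X Y ω < ε) ≤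
        Q.ex (fun ω => ε * ((if X ω = true then (1 : ℝ) else 0) / cp Q X Y ω)) := by
      rw [prE_eq_ex]
      refine Q.ex_mono fun ω hω => ?_
      have hp := cp_pos Q X Y hω
      by_cases hx : X ω = true
      · rw [if_pos hx]
        by_cases hb : cp Q X Y ω < ε
        · rw [if_pos ⟨hx, hb⟩, ← mul_div_assoc, le_div_iff₀ hp]
          linarith
        · rw [if_neg (fun h => hb h.2)]
          positivity
      · rw [if_neg (fun h => hx h.1), if_neg hx]
        simp
    rw [Q.ex_const_mul] at h6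
    nlinarith
  linarith

/-! ### The conditioned law -/

namespace Cnd

variable {ρ : Rule Ω Λ S} {P Q : Law Ω} {n : ℕ} {E : List Λ} {p : ℝ} (h : Cnd ρ P Q n E p)

include h

lemma ac : Ac Q P := by
  intro ω hω
  have h1 := h.hw ω
  by_contra hcon
  push Not at hcon
  have h2 : P.w ω / p ≤ 0 := div_nonpos_of_nonpos_of_nonneg hcon h.hp.le
  linarith

lemma p_le_one : p ≤ 1 := by
  have h1 : ∑ ω, Q.w ω ≤ ∑ ω, P.w ω / p := Finset.sum_le_sum fun ω _ => h.hw ω
  rw [Q.sum_one, ← Finset.sum_div, P.sum_one, le_div_iff₀ h.hp] at h1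
  linarith

lemma word_eq {ω : Ω} (hω : 0 < Q.w ω) {i : ℕ} (hi : i ≤ n) : word ρ i ω = E.drop (n - i) := by
  have h1 := word_drop ρ i (n - i) ω
  rw [Nat.add_sub_of_le hi, h.hE ω hω] at h1
  exact h1.symm

lemma E_length : E.length = n := by
  obtain ⟨ω, hω⟩ := exists_pos Q
  rw [← h.hE ω hω, word_length]

/-- the letters of the word -/
lemma letters {i : ℕ} (hi : i < n) :
    ∃ x, E.drop (n - (i + 1)) = x :: E.drop (n - i) ∧ ∀ ω, 0 < Q.w ω → (stp ρ i ω).1 = x := by
  obtain ⟨ω0, hω0⟩ := exists_pos Q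
  refine ⟨(stp ρ i ω0).1, ?_, fun ω hω => ?_⟩
  · rw [← h.word_eq hω0 (i := i + 1) hi, ← h.word_eq hω0 hi.le, word_succ]
  · have h1 := h.word_eq hω (i := i + 1) hi
    have h2 := h.word_eq hω0 (i := i + 1) hi
    rw [← h2, word_succ, word_succ] at h1
    exact (List.cons.inj h1).1

/-- **Gibbs cost** of a step -/
theorem cost_step (L : Ω → α) {i : ℕ} {c : ℝ}
    (hc : ∀ ω, 0 < Q.w ω → Real.exp (-c) ≤ cp P (stp ρ i) (Yi ρ L i) ω) :
    Stk.hc Q (stp ρ i) (Yi ρ L i) ≤ c := by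
  refine (hc_le_cross Q P h.ac _ _).trans ?_
  have h1 := Q.ex_mono (f := fun ω => - Real.log (cp P (stp ρ i) (Yi ρ L i) ω)) (g := fun _ => c)
    (fun ω hω => by
      have h2 := Real.log_le_log (Real.exp_pos _) (hc ω hω)
      rw [Real.log_exp] at h2
      linarith)
  rwa [Q.ex_const] at h1

omit h in
/-- **total cost** of the exploration, given any side variable -/
theorem cost_total (L : Ω → α) (c : ℕ → ℝ)
    (hc : ∀ i < n, Stk.hc Q (stp ρ i) (Yi ρ L i) ≤ c i) :
    Stk.hc Q (hist ρ n) L ≤ ∑ i ∈ Finset.range n, c i := by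
  rw [← chain0]
  exact Finset.sum_le_sum fun i hi => hc i (Finset.mem_range.1 hi)

/-! ### Divergence -/

omit h in
/-- divergence of what is known after `i` steps -/
noncomputable def klk (ρ : Rule Ω Λ S) (P Q : Law Ω) (L : Ω → α) (i : ℕ) : ℝ :=
  kl Q P (Yi ρ L i)

omit h in
/-- divergence of the variable `X` given what is known after `i` steps -/
noncomputable def kap (ρ : Rule Ω Λ S) (P Q : Law Ω) (L : Ω → α) (X : Ω → T) (i : ℕ) : ℝ :=
  Q.ex (fun ω => Real.log (cp Q X (Yi ρ L i) ω) - Real.log (cp P X (Yi ρ L i) ω))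

lemma klk_nonneg (L : Ω → α) (i : ℕ) : 0 ≤ klk ρ P Q L i := kl_nonneg Q P h.ac _

lemma klk_le (L : Ω → α) (i : ℕ) : klk ρ P Q L i ≤ Real.log (1 / p) := kl_le_log Q P h.hp h.hw _

lemma klk_mono (L : Ω → α) {i j : ℕ} (hi : i ≤ j) : klk ρ P Q L i ≤ klk ρ P Q L j :=
  kl_mono Q P h.ac fun _ _ _ _ h' => Yi_mono ρ L hi h'

lemma kap_nonneg (L : Ω → α) (X : Ω → T) (i : ℕ) : 0 ≤ kap ρ P Q L X i :=
  ex_log_cp_nonneg Q P h.ac X (Yi ρ L i)

/-- **the divergence of `X` is paid before `X` is known** : it suffices that `X` is a function of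
what is known after `j` steps for the outcomes with the right word -/
theorem kap_le (L : Ω → α) (X : Ω → T) {i j : ℕ} (hi : i ≤ j) (hj : j ≤ n)
    (hX : ∀ ω ω', 0 < P.w ω → 0 < P.w ω' → word ρ j ω = E.drop (n - j) →
      Yi ρ L j ω = Yi ρ L j ω' → X ω = X ω') :
    kap ρ P Q L X i ≤ klk ρ P Q L j - klk ρ P Q L i := by
  classical
  set f : Ω → Option T := fun ω => if word ρ j ω = E.drop (n - j) then some (X ω) else none with hf
  have h1 := kl_pair Q P h.ac f (Yi ρ L i)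
  have h2 : kl Q P (fun ω => (f ω, Yi ρ L i ω)) ≤ klk ρ P Q L j := by
    refine kl_mono Q P h.ac fun ω ω' q q' h' => ?_
    refine Prod.ext ?_ (Yi_mono ρ L hi h')
    have h4 : word ρ j ω = word ρ j ω' := by
      simp only [Yi, Prod.mk.injEq] at h'
      unfold word
      rw [h'.2]
    simp only [hf]
    rw [← h4]
    split_ifs with hc
    · exact congrArg some (hX ω ω' q q' hc h')
    · rfl
  have h3 : kap ρ P Q L X i ≤
      Q.ex (fun ω => Real.log (cp Q f (Yi ρ L i) ω) - Real.log (cp P f (Yi ρ L i) ω)) := by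
    unfold kap
    refine Q.ex_mono fun ω hω => ?_
    have hfω : ∀ ω, 0 < Q.w ω → f ω = some (X ω) := by
      intro ω hω
      simp only [hf]
      rw [if_pos (h.word_eq hω hj)]
    have h4 : cp Q f (Yi ρ L i) ω = cp Q X (Yi ρ L i) ω := by
      refine cp_congr2 _ ?_ ?_ (fun ω ω' _ _ h' => h') (fun ω ω' _ _ h' => h') hω
      · intro ω ω' q q' h'
        simp only [Prod.mk.injEq] at h' ⊢
        rw [hfω ω q, hfω ω' q', h'.1]
        exact ⟨rfl, h'.2⟩
      · intro ω ω' q q' h'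
        simp only [Prod.mk.injEq] at h' ⊢
        rw [hfω ω q, hfω ω' q'] at h'
        exact ⟨Option.some.inj h'.1, h'.2⟩
    have h5 : cp P f (Yi ρ L i) ω ≤ cp P X (Yi ρ L i) ω := by
      unfold cp
      refine div_le_div_of_nonneg_right ?_ (P.pr_nonneg _ _)
      unfold Law.pr
      refine Finset.sum_le_sum_of_subset_of_nonneg ?_ fun _ _ _ => P.nn _
      intro ω' hω'
      simp only [Finset.mem_filter, Finset.mem_univ, true_and] at hω' ⊢
      have h6 := hω'
      simp only [Prod.mk.injEq] at h6 ⊢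
      refine ⟨?_, h6.2⟩
      have h7 := h6.1
      rw [hfω ω hω] at h7
      simp only [hf] at h7
      split_ifs at h7 with hc
      exact Option.some.inj h7
    have h6 : 0 < cp P f (Yi ρ L i) ω := cp_pos P _ _ (h.ac ω hω)
    have h7 := Real.log_le_log h6 h5
    rw [h4]
    linarith
  unfold klk at h2 ⊢
  linarith

/-- **total divergence** of variables which are revealed within `J + 1` steps -/
theorem sum_kap (L : Ω → α) (J : ℕ) (A : Finset ℕ) (hA : ∀ i ∈ A, i < n) (X : ℕ → Ω → T)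
    (hX : ∀ i ∈ A, ∀ ω ω', 0 < P.w ω → 0 < P.w ω' →
      word ρ (min (i + (J + 1)) n) ω = E.drop (n - min (i + (J + 1)) n) →
      Yi ρ L (min (i + (J + 1)) n) ω = Yi ρ L (min (i + (J + 1)) n) ω' → X i ω = X i ω') :
    ∑ i ∈ A, kap ρ P Q L (X i) i ≤ (J + 1) * Real.log (1 / p) := by
  classical
  set f : ℕ → ℝ := fun i => klk ρ P Q L (min i n) with hf
  have h0 : ∀ i, 0 ≤ f (i + (J + 1)) - f i := by
    intro i
    have := h.klk_mono L (i := min i n) (j := min (i + (J + 1)) n) (by omega)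
    simp only [hf]
    linarith
  have h1 : ∑ i ∈ A, kap ρ P Q L (X i) i ≤ ∑ i ∈ A, (f (i + (J + 1)) - f i) := by
    refine Finset.sum_le_sum fun i hi => ?_
    have hi' := hA i hi
    have := h.kap_le L (X i) (i := i) (j := min (i + (J + 1)) n) (by omega) (min_le_right _ _)
      (hX i hi)
    simp only [hf]
    rw [min_eq_left hi'.le]
    exact this
  have h2 : ∑ i ∈ A, (f (i + (J + 1)) - f i) ≤ ∑ i ∈ Finset.range n, (f (i + (J + 1)) - f i) :=
    Finset.sum_le_sum_of_subset_of_nonneg (fun i hi => Finset.mem_range.2 (hA i hi))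
      fun i _ _ => h0 i
  exact h1.trans (h2.trans (sum_overlap f _ (fun i => h.klk_nonneg L _)
    (fun i => h.klk_le L _) n J))

/-- **rare events** : the events `X i` are rare for the reference law and revealed within `J + 1`
steps; then they are rare for `Q` at most steps -/
theorem sum_ev (L : Ω → α) (J : ℕ) (A : Finset ℕ) (hA : ∀ i ∈ A, i < n) (X : ℕ → Ω → Bool)
    {ε θ : ℝ} (hθ : 0 < θ) (hε : θ < ε)
    (hr : ∀ i ∈ A, ∀ ω, 0 < Q.w ω → X i ω = true → cp P (X i) (Yi ρ L i) ω ≤ θ)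
    (hX : ∀ i ∈ A, ∀ ω ω', 0 < P.w ω → 0 < P.w ω' →
      word ρ (min (i + (J + 1)) n) ω = E.drop (n - min (i + (J + 1)) n) →
      Yi ρ L (min (i + (J + 1)) n) ω = Yi ρ L (min (i + (J + 1)) n) ω' → X i ω = X i ω') :
    ∑ i ∈ A, prE Q (fun ω => X i ω = true) ≤
      A.card * ε + ((J + 1) * Real.log (1 / p) + A.card) / Real.log (ε / θ) := by
  have hlog : 0 < Real.log (ε / θ) := Real.log_pos (by rwa [lt_div_iff₀ hθ, one_mul])
  have h1 : ∑ i ∈ A, prE Q (fun ω => X i ω = true) ≤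
      ∑ i ∈ A, (ε + (kap ρ P Q L (X i) i + 1) / Real.log (ε / θ)) :=
    Finset.sum_le_sum fun i hi => ev_le Q P h.ac (X i) (Yi ρ L i) hθ hε (hr i hi)
  refine h1.trans ?_
  rw [Finset.sum_add_distrib, ← Finset.sum_div, Finset.sum_add_distrib]
  simp only [Finset.sum_const, nsmul_eq_mul, mul_one]
  have h2 := h.sum_kap L J A hA X hX
  gcongr

/-- **collisions** : a variable `X i` whose values are rare for the reference law and which is
revealed within `J + 1` steps is nonatomic at most steps -/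
theorem sum_coll (L : Ω → α) (J : ℕ) (A : Finset ℕ) (hA : ∀ i ∈ A, i < n) (X : ℕ → Ω → T)
    {ε θ : ℝ} (hθ : 0 < θ) (hε : θ < ε)
    (hr : ∀ i ∈ A, ∀ ω, 0 < Q.w ω → cp P (X i) (Yi ρ L i) ω ≤ θ)
    (hX : ∀ i ∈ A, ∀ ω ω', 0 < P.w ω → 0 < P.w ω' →
      word ρ (min (i + (J + 1)) n) ω = E.drop (n - min (i + (J + 1)) n) →
      Yi ρ L (min (i + (J + 1)) n) ω = Yi ρ L (min (i + (J + 1)) n) ω' → X i ω = X i ω') :
    ∑ i ∈ A, coll Q (X i) (Yi ρ L i) ≤
      A.card * ε + ((J + 1) * Real.log (1 / p) + A.card) / Real.log (ε / θ) := by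
  classical
  have hlog : 0 < Real.log (ε / θ) := Real.log_pos (by rwa [lt_div_iff₀ hθ, one_mul])
  have h1 : ∑ i ∈ A, coll Q (X i) (Yi ρ L i) ≤
      ∑ i ∈ A, (ε + (kap ρ P Q L (X i) i + 1) / Real.log (ε / θ)) := by
    refine Finset.sum_le_sum fun i hi => ?_
    have h3 := coll_le Q (X i) (Yi ρ L i) (cp P (X i) (Yi ρ L i))
      (fun ω hω => cp_pos P _ _ (h.ac ω hω)) (ex_cp_div' P Q _ _) hθ hε
    have h4 : prE Q (fun ω => θ < cp P (X i) (Yi ρ L i) ω) = 0 := by
      have h20 : prE Q (fun ω => θ < cp P (X i) (Yi ρ L i) ω) = Q.ex (fun _ => 0) := by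
        rw [prE_eq_ex]
        refine Q.ex_congr fun ω hω => ?_
        rw [if_neg]
        exact not_lt.2 (hr i hi ω hω)
      rw [h20, Q.ex_const]
    rw [h4] at h3
    unfold kap
    linarith
  refine h1.trans ?_
  rw [Finset.sum_add_distrib, ← Finset.sum_div, Finset.sum_add_distrib]
  simp only [Finset.sum_const, nsmul_eq_mul, mul_one]
  have h2 := h.sum_kap L J A hA X hX
  gcongr

end Cnd

/-! ### Selection of a word -/

/-- the entropy of the word is at most `n log |Λ|` -/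
theorem word_H_le {Λ : Type} [Fintype Λ] [Nonempty Λ] (P : Law Ω) (ρ : Rule Ω Λ S) (n : ℕ) :
    P.H (word ρ n) ≤ n * Real.log (Fintype.card Λ) := by
  classical
  set Z : Ω → List.Vector Λ n := fun ω => ⟨word ρ n ω, word_length ρ n ω⟩ with hZ
  have h1 := P.H_le_log_card Z
  have h2 : P.H Z = P.H (word ρ n) := by
    refine P.H_congr fun ω ω' => ?_
    constructor
    · intro h
      exact congrArg Subtype.val h
    · intro h
      exact Subtype.ext h
  rw [h2] at h1
  have h3 : (Fintype.card (List.Vector Λ n) : ℝ) = (Fintype.card Λ : ℝ) ^ n := by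
    rw [card_vector]
    push_cast
    rfl
  rw [h3, Real.log_pow] at h1
  exact h1

end Vale.Agent.P106.U.Gx
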