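import Vale.Agent.P106.U.H449.Expl
import Vale.Agent.P106.U.H824.Gx

/-!
# P106 / U / H824 : heavy cover (helper824)

`P` law, `V : Ω → S` a point, `Y : Ω → T` what is known, `mem : ι → S → Prop` a family of sets
(lines), `thr > 0`.  Given `Y = y` a greedy list of sets of conditional mass `≥ thr` outside the
previous ones; `idx` = the first set of the list which contains `V`, `none` if there is none.

* `idx_mem`, `idx_fn`, `idx_cp` : `idx = some l` implies `V ∈ l`; `idx` is a function of `(V, Y)`;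
  `thr ≤ cp P idx Y` where `idx ≠ none`.
* `light` : no set (chosen as a function of `Y`) has conditional mass `≥ thr` on `idx = none`.
* `ev_le`, `sum_ev` : the same for a law `Q` dominated by `P` (total over the steps, variables
  revealed `M` steps later, form of `H449.sum_coll`).
-/

set_option autoImplicit false

namespace Vale.Agent.P106.U.Gh

open Finset Vale.Agent.P127 Vale.Agent.P127.Stk Vale.Agent.P127.U.Nonat Vale.Agent.P127.U.YPat

variable {Ω : Type} [Fintype Ω] {S T ι : Type*}

/-! ### The index -/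

open Classical in
/-- first set (the list is in reverse order) which contains the point -/
noncomputable def ix (mem : ι → S → Prop) : List ι → S → Option ι
  | [], _ => none
  | l :: L, v => if ix mem L v = none then (if mem l v then some l else none) else ix mem L v

section ix

variable {mem : ι → S → Prop}

theorem ix_mem {L : List ι} {v : S} {l : ι} (h : ix mem L v = some l) : mem l v := by
  classical
  induction L with
  | nil => simp [ix] at h
  | cons l0 L ih =>
    unfold ix at h
    split_ifs at h with h1 h2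
    · rw [← Option.some.inj h]; exact h2
    · exact ih h

open Classical in
theorem ix_cons (l0 : ι) (L : List ι) (v : S) : ix mem (l0 :: L) v =
    if ix mem L v = none then (if mem l0 v then some l0 else none) else ix mem L v := by
  rw [ix]

theorem ix_none {L : List ι} {v : S} : ix mem L v = none ↔ ∀ l ∈ L, ¬ mem l v := by
  classical
  induction L with
  | nil => simp [ix]
  | cons l0 L ih =>
    rw [List.forall_mem_cons, ← ih, ix_cons]
    by_cases h1 : ix mem L v = none
    · rw [if_pos h1]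
      by_cases h2 : mem l0 v
      · rw [if_pos h2]; simp [h2]
      · rw [if_neg h2]
        exact ⟨fun _ => ⟨h2, h1⟩, fun _ => rfl⟩
    · rw [if_neg h1]
      exact ⟨fun h => absurd h h1, fun h => h.2⟩

theorem ix_cons_of_some {L : List ι} {v : S} {l0 l : ι} (h : ix mem L v = some l) :
    ix mem (l0 :: L) v = some l := by
  classical
  unfold ix
  rw [if_neg (by rw [h]; simp), h]

theorem ix_cons_of_none {L : List ι} {v : S} {l0 : ι} (h : ix mem L v = none) (h2 : mem l0 v) :
    ix mem (l0 :: L) v = some l0 := by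
  classical
  unfold ix
  rw [if_pos h, if_pos h2]

end ix

/-! ### Masses -/

open Classical in
/-- mass of an event together with `Y = y` -/
noncomputable def ms (P : Law Ω) (Y : Ω → T) (y : T) (B : Ω → Prop) : ℝ :=
  ∑ ω with Y ω = y ∧ B ω, P.w ω

theorem ms_nonneg (P : Law Ω) (Y : Ω → T) (y : T) (B : Ω → Prop) : 0 ≤ ms P Y y B :=
  Finset.sum_nonneg fun ω _ => P.nn ω

theorem ms_mono (P : Law Ω) (Y : Ω → T) (y : T) {B B' : Ω → Prop}
    (h : ∀ ω, 0 < P.w ω → Y ω = y → B ω → B' ω) : ms P Y y B ≤ ms P Y y B' := by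
  classical
  unfold ms
  rw [Finset.sum_filter, Finset.sum_filter]
  refine Finset.sum_le_sum fun ω _ => ?_
  rcases (P.nn ω).eq_or_lt with h0 | h0
  · rw [← h0]; simp
  · by_cases hb : Y ω = y ∧ B ω
    · rw [if_pos hb, if_pos ⟨hb.1, h ω h0 hb.1 hb.2⟩]
    · rw [if_neg hb]
      split_ifs
      · exact h0.le
      · exact le_rfl

theorem ms_add (P : Law Ω) (Y : Ω → T) (y : T) (B B' : Ω → Prop) (h : ∀ ω, ¬ (B ω ∧ B' ω)) :
    ms P Y y (fun ω => B ω ∨ B' ω) = ms P Y y B + ms P Y y B' := by
  classical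
  unfold ms
  rw [Finset.sum_filter, Finset.sum_filter, Finset.sum_filter, ← Finset.sum_add_distrib]
  refine Finset.sum_congr rfl fun ω _ => ?_
  have := h ω
  by_cases h1 : Y ω = y
  · by_cases h2 : B ω
    · have h3 : ¬ B' ω := fun h3 => this ⟨h2, h3⟩
      simp [h1, h2, h3]
    · by_cases h3 : B' ω
      · simp [h1, h2, h3]
      · simp [h1, h2, h3]
  · simp [h1]

theorem ms_le_pr (P : Law Ω) (Y : Ω → T) (y : T) (B : Ω → Prop) : ms P Y y B ≤ P.pr Y y := by
  classical
  unfold ms Law.pr
  refine Finset.sum_le_sum_of_subset_of_nonneg ?_ fun ω _ _ => P.nn ω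
  intro ω hω
  simp only [Finset.mem_filter, Finset.mem_univ, true_and] at hω ⊢
  exact hω.1

theorem ms_eq_pr (P : Law Ω) {U : Type*} (X : Ω → U) (Y : Ω → T) (x : U) (y : T) :
    P.pr (fun ω => (X ω, Y ω)) (x, y) = ms P Y y (fun ω => X ω = x) := by
  classical
  unfold ms Law.pr
  refine Finset.sum_congr ?_ fun _ _ => rfl
  ext ω
  simp only [Finset.mem_filter, Finset.mem_univ, true_and, Prod.mk.injEq]
  tauto

/-! ### The greedy list -/

variable (P : Law Ω) (V : Ω → S) (Y : Ω → T) (mem : ι → S → Prop) (thr : ℝ)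

/-- every set of the list has mass `≥ thr` outside the previous ones -/
def Gd (y : T) : List ι → Prop
  | [] => True
  | l :: L => Gd y L ∧ thr * P.pr Y y ≤ ms P Y y (fun ω => ix mem L (V ω) = none ∧ mem l (V ω))

variable {P V Y mem thr}

theorem Gd_mass {y : T} {L : List ι} (hL : Gd P V Y mem thr y L) {v : S} {l : ι}
    (h : ix mem L v = some l) : thr * P.pr Y y ≤ ms P Y y (fun ω => ix mem L (V ω) = some l) := by
  classical
  induction L with
  | nil => simp [ix] at h
  | cons l0 L ih =>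
    by_cases h1 : ix mem L v = none
    · have h2 : mem l0 v ∧ l0 = l := by
        unfold ix at h
        rw [if_pos h1] at h
        split_ifs at h with h2
        exact ⟨h2, Option.some.inj h⟩
      refine hL.2.trans (ms_mono P Y y fun ω _ _ hω => ?_)
      rw [← h2.2]
      exact ix_cons_of_none hω.1 hω.2
    · have h2 : ix mem L v = some l := by
        unfold ix at h
        rwa [if_neg h1] at h
      exact (ih hL.1 h2).trans (ms_mono P Y y fun ω _ _ hω => ix_cons_of_some hω)

theorem Gd_length {y : T} {L : List ι} (hL : Gd P V Y mem thr y L) :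
    L.length * (thr * P.pr Y y) ≤ ms P Y y (fun ω => ix mem L (V ω) ≠ none) := by
  classical
  induction L with
  | nil =>
    simp only [List.length_nil, Nat.cast_zero, zero_mul]
    exact ms_nonneg P Y y _
  | cons l0 L ih =>
    have h1 := ih hL.1
    have h2 := hL.2
    have h3 := ms_add P Y y (fun ω => ix mem L (V ω) ≠ none)
      (fun ω => ix mem L (V ω) = none ∧ mem l0 (V ω)) (fun ω h => h.1 h.2.1)
    have h4 : ms P Y y (fun ω => ix mem L (V ω) ≠ none ∨
        (ix mem L (V ω) = none ∧ mem l0 (V ω))) ≤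
        ms P Y y (fun ω => ix mem (l0 :: L) (V ω) ≠ none) := by
      refine ms_mono P Y y fun ω _ _ hω => ?_
      rcases hω with hω | hω
      · obtain ⟨l, hl⟩ := Option.ne_none_iff_exists'.1 hω
        rw [ix_cons_of_some hl]
        simp
      · rw [ix_cons_of_none hω.1 hω.2]
        simp
    simp only [List.length_cons, Nat.cast_add, Nat.cast_one]
    linarith

theorem exists_max (ht : 0 < thr) {y : T} (hy : 0 < P.pr Y y) :
    ∃ L, Gd P V Y mem thr y L ∧ ∀ l, ms P Y y (fun ω => ix mem L (V ω) = none ∧ mem l (V ω)) <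
      thr * P.pr Y y := by
  classical
  by_contra hcon
  push Not at hcon
  have h1 : ∀ n : ℕ, ∃ L : List ι, Gd P V Y mem thr y L ∧ L.length = n := by
    intro n
    induction n with
    | zero => exact ⟨[], trivial, rfl⟩
    | succ n ih =>
      obtain ⟨L, hL, hn⟩ := ih
      obtain ⟨l, hl⟩ := hcon L hL
      exact ⟨l :: L, ⟨hL, hl⟩, by rw [List.length_cons, hn]⟩
  obtain ⟨n, hn⟩ := exists_nat_gt (1 / thr)
  obtain ⟨L, hL, hl⟩ := h1 n
  have h2 := (Gd_length hL).trans (ms_le_pr P Y y _)
  rw [hl] at h2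
  rw [div_lt_iff₀ ht] at hn
  have h3 : (1 : ℝ) * P.pr Y y < n * thr * P.pr Y y := mul_lt_mul_of_pos_right hn hy
  linarith

variable (P V Y mem thr)

open Classical in
/-- the greedy list -/
noncomputable def gl (y : T) : List ι :=
  if h : ∃ L, Gd P V Y mem thr y L ∧ ∀ l, ms P Y y (fun ω => ix mem L (V ω) = none ∧
    mem l (V ω)) < thr * P.pr Y y then h.choose else []

/-- **the index of the heavy set which contains the point** -/
noncomputable def idx (ω : Ω) : Option ι := ix mem (gl P V Y mem thr (Y ω)) (V ω)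

variable {P V Y mem thr}

theorem gl_spec (ht : 0 < thr) {y : T} (hy : 0 < P.pr Y y) :
    Gd P V Y mem thr y (gl P V Y mem thr y) ∧ ∀ l, ms P Y y (fun ω =>
      ix mem (gl P V Y mem thr y) (V ω) = none ∧ mem l (V ω)) < thr * P.pr Y y := by
  classical
  unfold gl
  rw [dif_pos (exists_max ht hy)]
  exact (exists_max ht hy).choose_spec

/-- the point lies in the set -/
theorem idx_mem {ω : Ω} {l : ι} (h : idx P V Y mem thr ω = some l) : mem l (V ω) := ix_mem h

/-- the index is a function of the point and of what is known -/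
theorem idx_fn {ω ω' : Ω} (h : V ω = V ω') (h' : Y ω = Y ω') :
    idx P V Y mem thr ω = idx P V Y mem thr ω' := by
  unfold idx
  rw [h, h']

/-- **the index is cheap** -/
theorem idx_cp (ht : 0 < thr) {ω : Ω} (hω : 0 < P.w ω) (h : idx P V Y mem thr ω ≠ none) :
    thr ≤ cp P (idx P V Y mem thr) Y ω := by
  classical
  have hy := P.pr_pos Y hω
  obtain ⟨l, hl⟩ := Option.ne_none_iff_exists'.1 h
  have h1 := Gd_mass (gl_spec (mem := mem) (V := V) ht hy).1 (v := V ω) (l := l) hl
  unfold cp
  rw [le_div_iff₀ hy, ms_eq_pr, hl]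
  refine h1.trans (ms_mono P Y (Y ω) fun ω' _ hy' hω' => ?_)
  unfold idx
  rw [hy']
  exact hω'

/-- **no heavy set is left** : `X` any boolean variable which implies that the point lies in the
set `s (Y ω)` and that there is no index -/
theorem light (ht : 0 < thr) (s : T → ι) (X : Ω → Bool)
    (hX : ∀ ω, 0 < P.w ω → X ω = true → mem (s (Y ω)) (V ω) ∧ idx P V Y mem thr ω = none)
    {ω : Ω} (hω : 0 < P.w ω) (h : X ω = true) : cp P X Y ω < thr := by
  classical
  have hy := P.pr_pos Y hω
  have h1 := (gl_spec (mem := mem) (V := V) ht hy).2 (s (Y ω))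
  unfold cp
  rw [div_lt_iff₀ hy, ms_eq_pr, h]
  refine lt_of_le_of_lt (ms_mono P Y (Y ω) fun ω' hp hy' hω' => ?_) h1
  obtain ⟨h2, h3⟩ := hX ω' hp hω'
  rw [hy'] at h2
  unfold idx at h3
  rw [hy'] at h3
  exact ⟨h3, h2⟩

/-! ### The dominated law -/

/-- probability of an event under `Q` when it is rare for `P` given `Y` -/
theorem ev_le {Q : Law Ω} (hQP : ∀ ω, 0 < Q.w ω → 0 < P.w ω) (X : Ω → Bool) (Y : Ω → T)
    {θ ε : ℝ} (hθ : 0 < θ) (hε : θ < ε) (hX : ∀ ω, 0 < Q.w ω → X ω = true → cp P X Y ω ≤ θ) :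
    prE Q (fun ω => X ω = true) ≤ ε + (kap Q P X Y + 1) / Real.log (ε / θ) :=
  Gx.ev_le Q P hQP X Y hθ hε hX

/-- **rare events, total over the steps** -/
theorem sum_ev {Q : Law Ω} {p : ℝ} (hp : 0 < p) (hd : ∀ ω, p * Q.w ω ≤ P.w ω) (F : ℕ → Ω → T)
    (n M : ℕ)
    (hF : ∀ i, ∀ ω ω', 0 < P.w ω → 0 < P.w ω' → F (i + 1) ω = F (i + 1) ω' → F i ω = F i ω')
    (A : Finset ℕ) (hA : A ⊆ range n) (X : ℕ → Ω → Bool)
    (hX : ∀ i ∈ A, ∀ ω ω', 0 < P.w ω → 0 < P.w ω' → F (i + M) ω = F (i + M) ω' → X i ω = X i ω')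
    {θ ε : ℝ} (ht : 0 < θ) (hε : θ < ε)
    (h : ∀ i ∈ A, ∀ ω, 0 < Q.w ω → X i ω = true → cp P (X i) (F i) ω ≤ θ) :
    ∑ i ∈ A, prE Q (fun ω => X i ω = true) ≤
      A.card * ε + (M * Real.log (1 / p) + A.card) / Real.log (ε / θ) := by
  have hQP : ∀ ω, 0 < Q.w ω → 0 < P.w ω := fun ω h => (mul_pos hp h).trans_le (hd ω)
  have hL : 0 < Real.log (ε / θ) := Real.log_pos (by rwa [one_lt_div ht])
  have h1 := H449.sum_kap_ov hp hd F n M hF A hA X hX
  calc ∑ i ∈ A, prE Q (fun ω => X i ω = true)
      ≤ ∑ i ∈ A, (ε + (kap Q P (X i) (F i) + 1) / Real.log (ε / θ)) :=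
        Finset.sum_le_sum fun i hi => ev_le hQP (X i) (F i) ht hε (h i hi)
    _ = A.card * ε + (∑ i ∈ A, kap Q P (X i) (F i) + A.card) / Real.log (ε / θ) := by
        rw [Finset.sum_add_distrib, Finset.sum_const, nsmul_eq_mul, ← Finset.sum_div,
          Finset.sum_add_distrib, Finset.sum_const, nsmul_eq_mul, mul_one]
    _ ≤ _ := by
        gcongr

/-- **heavy sets under `Q`, total over the steps** : at the steps `i ∈ A` there is no heavy set for
`P` given `F i` on the support of `Q`; then for any choice `s i` of sets as functions of `F i` the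
probability under `Q` of `V i ∈ s i (F i)` is small in average.  The point `V i` and the fact
`idx = none` are known `M` steps later. -/
theorem sum_heavy {Q : Law Ω} {p : ℝ} (hp : 0 < p) (hd : ∀ ω, p * Q.w ω ≤ P.w ω) (F : ℕ → Ω → T)
    (n M : ℕ)
    (hF : ∀ i, ∀ ω ω', 0 < P.w ω → 0 < P.w ω' → F (i + 1) ω = F (i + 1) ω' → F i ω = F i ω')
    (A : Finset ℕ) (hA : A ⊆ range n) (V : ℕ → Ω → S)
    (hV : ∀ i ∈ A, ∀ ω ω', 0 < P.w ω → 0 < P.w ω' → F (i + M) ω = F (i + M) ω' → V i ω = V i ω')
    {θ ε : ℝ} (ht : 0 < θ) (hε : θ < ε)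
    (hn : ∀ i ∈ A, ∀ ω, 0 < Q.w ω → idx P (V i) (F i) mem θ ω = none) (s : ℕ → T → ι) :
    ∑ i ∈ A, prE Q (fun ω => mem (s i (F i ω)) (V i ω)) ≤
      A.card * ε + (M * Real.log (1 / p) + A.card) / Real.log (ε / θ) := by
  classical
  have hQP : ∀ ω, 0 < Q.w ω → 0 < P.w ω := fun ω h => (mul_pos hp h).trans_le (hd ω)
  have hm : ∀ i k, ∀ ω ω', 0 < P.w ω → 0 < P.w ω' → F (i + k) ω = F (i + k) ω' →
      F i ω = F i ω' := by
    intro i k
    induction k with
    | zero => exact fun ω ω' _ _ e => e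
    | succ k ih => exact fun ω ω' a b e => ih ω ω' a b (hF (i + k) ω ω' a b e)
  set X : ℕ → Ω → Bool := fun i ω =>
    decide (mem (s i (F i ω)) (V i ω) ∧ idx P (V i) (F i) mem θ ω = none) with hXdef
  have h1 := sum_ev hp hd F n M hF A hA X (fun i hi ω ω' a b e => by
    have e1 := hV i hi ω ω' a b e
    have e2 := hm i M ω ω' a b e
    simp only [hXdef]
    rw [e1, e2, idx_fn e1 e2]) ht hε (fun i hi ω hω hx => by
    refine (light (V := V i) (Y := F i) (mem := mem) ht (s i) (X i) (fun ω' _ hx' => ?_)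
      (hQP ω hω) hx).le
    simpa only [hXdef, decide_eq_true_eq] using hx')
  refine le_trans (Finset.sum_le_sum fun i hi => ?_) h1
  refine Vale.Agent.P127.U.Path.prE_mono Q fun ω hω hm' => ?_
  simp only [hXdef, decide_eq_true_eq]
  exact ⟨hm', hn i hi ω hω⟩

end Vale.Agent.P106.U.Gh
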