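import Mathlib

/-!
# P106 / U / H824 : line data of a state (helper824)

`Ld` : window `[s0, s0 + 2^-a)` of the time, line `k0 + al (t - s0)`, half width `2^-k` : the strips in
the plane (time, kappa).  Normalised coordinates of a point `(t, κ)` of the strip: `sN ∈ [0, 1)`,
`uN ∈ [-1, 1]`; `cl m` its cell (`2m+6` digits of `sN`, `m+4` digits of `uN`).  Net of lines
`u = b.1 / 2^(m+4) + b.2 / 2^(m+4) s`, `|slope| ≤ 2^(m+1)`; `inc m b V` : the line `b` passes through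
the cell `V`.

* `tS`, `lS` : step of the time, step of the line; `in_tS`, `in_lS` : the point stays in the strip.
* `inc_hor` : horizontal line (forced steps).
* `ofL` : the state after a list of steps (newest first); `in_ofL`.
* `al_diff` : `|al' - al| ≤ 2^(a' + m + 2) (2^-k - 2^-k')`.
* `exists_line` : two points with `2^(1-m) ≤ |s1 - s2|`; a third point whose cell is not on the net
  line `b` (function of the first two) has determinant `≥ 2^-(2m+1)`.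
-/

set_option autoImplicit false

namespace Vale.Agent.P106.U.StripL

/-- line data of a state -/
@[ext] structure Ld where
  s0 : ℝ
  k0 : ℝ
  al : ℝ
  a : ℕ
  k : ℕ

namespace Ld

variable (d : Ld)

/-- the line -/
def line (t : ℝ) : ℝ := d.k0 + d.al * (t - d.s0)

/-- the point `(t, κ)` lies in the strip -/
structure In (t κ : ℝ) : Prop where
  t0 : 0 ≤ t - d.s0
  t1 : 2 ^ d.a * (t - d.s0) < 1
  u : 2 ^ d.k * |κ - d.line t| ≤ 1

/-- normalised time -/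
def sN (t : ℝ) : ℝ := 2 ^ d.a * (t - d.s0)

/-- normalised kappa -/
def uN (t κ : ℝ) : ℝ := 2 ^ d.k * (κ - d.line t)

/-- step of the time, block `j` -/
noncomputable def tS (m : ℕ) (j : ℤ) : Ld :=
  ⟨d.s0 + j / 2 ^ (d.a + m), d.k0 + d.al * (j / 2 ^ (d.a + m)), d.al, d.a + m, d.k⟩

/-- the block of the time -/
noncomputable def tB (m : ℕ) (t : ℝ) : ℤ := ⌊2 ^ (d.a + m) * (t - d.s0)⌋

/-- step of the line, index `b` -/
noncomputable def lS (m : ℕ) (b : ℤ × ℤ) : Ld :=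
  ⟨d.s0, d.k0 + (b.1 / 2 ^ (m + 4)) / 2 ^ d.k, d.al + 2 ^ d.a * (b.2 / 2 ^ (m + 4)) / 2 ^ d.k,
    d.a, d.k + m⟩

/-- the cell of a point -/
noncomputable def cl (m : ℕ) (t κ : ℝ) : ℤ × ℤ :=
  (⌊2 ^ (2 * m + 6) * d.sN t⌋, ⌊2 ^ (m + 4) * d.uN t κ⌋)

end Ld

/-- the net line `b` passes through the cell `V` -/
def inc (m : ℕ) (b V : ℤ × ℤ) : Prop :=
  |(b.2 : ℝ)| ≤ 2 ^ (2 * m + 5) ∧
    |(V.2 : ℝ) / 2 ^ (m + 4) - (b.1 / 2 ^ (m + 4) + b.2 / 2 ^ (m + 4) * (V.1 / 2 ^ (2 * m + 6)))| ≤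
      1 / 2 ^ (m + 1)

/-- cell of a point of the unit square -/
noncomputable def cP (m : ℕ) (s u : ℝ) : ℤ × ℤ := (⌊2 ^ (2 * m + 6) * s⌋, ⌊2 ^ (m + 4) * u⌋)

lemma fl_near (n : ℕ) (x : ℝ) : |x - (⌊2 ^ n * x⌋ : ℤ) / 2 ^ n| ≤ 1 / 2 ^ n := by
  have h0 : (0 : ℝ) < 2 ^ n := by positivity
  have h1 := Int.floor_le (2 ^ n * x)
  have h2 := Int.lt_floor_add_one (2 ^ n * x)
  rw [abs_le]
  constructor
  · rw [neg_le_sub_iff_le_add, div_le_iff₀ h0]
    have : (x + 1 / 2 ^ n) * 2 ^ n = 2 ^ n * x + 1 := by field_simp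
    linarith
  · rw [tsub_le_iff_right, ← add_div, le_div_iff₀ h0]
    linarith

/-- a point of a cell through which the line passes -/
theorem near_of_inc {m : ℕ} {b : ℤ × ℤ} {s u : ℝ} (h : inc m b (cP m s u)) :
    |u - (b.1 / 2 ^ (m + 4) + b.2 / 2 ^ (m + 4) * s)| ≤ 1 / 2 ^ m := by
  obtain ⟨h1, h2⟩ := h
  simp only [cP] at h2
  have h3 := fl_near (m + 4) u
  have h4 := fl_near (2 * m + 6) s
  set U : ℝ := (⌊2 ^ (m + 4) * u⌋ : ℤ) / 2 ^ (m + 4) with hU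
  set V : ℝ := (⌊2 ^ (2 * m + 6) * s⌋ : ℤ) / 2 ^ (2 * m + 6) with hV
  have e : u - (b.1 / 2 ^ (m + 4) + b.2 / 2 ^ (m + 4) * s) =
      (u - U) + (U - (b.1 / 2 ^ (m + 4) + b.2 / 2 ^ (m + 4) * V)) -
        b.2 / 2 ^ (m + 4) * (s - V) := by ring
  have h5 : |(b.2 : ℝ) / 2 ^ (m + 4) * (s - V)| ≤ 1 / 2 ^ (m + 5) := by
    rw [abs_mul, abs_div, abs_of_pos (by positivity : (0 : ℝ) < 2 ^ (m + 4))]
    calc |(b.2 : ℝ)| / 2 ^ (m + 4) * |s - V|
        ≤ 2 ^ (2 * m + 5) / 2 ^ (m + 4) * (1 / 2 ^ (2 * m + 6)) := by gcongr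
      _ = 1 / 2 ^ (m + 5) := by
          have e1 : (2 : ℝ) ^ (2 * m + 6) = 2 ^ (2 * m + 5) * 2 := by rw [← pow_succ]
          have e2 : (2 : ℝ) ^ (m + 5) = 2 ^ (m + 4) * 2 := by rw [← pow_succ]
          rw [e1, e2]
          field_simp
  rw [e]
  refine (abs_sub _ _).trans ((add_le_add (abs_add_le _ _) le_rfl).trans ?_)
  have e0 : (0 : ℝ) < 2 ^ m := by positivity
  have e1 : (1 : ℝ) / 2 ^ (m + 1) = (1 / 2 ^ m) / 2 := by rw [pow_succ]; field_simp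
  have e2 : (1 : ℝ) / 2 ^ (m + 4) = (1 / 2 ^ m) / 16 := by rw [pow_add]; field_simp; norm_num
  have e3 : (1 : ℝ) / 2 ^ (m + 5) = (1 / 2 ^ m) / 32 := by rw [pow_add]; field_simp; norm_num
  have e4 : (0 : ℝ) < 1 / 2 ^ m := by positivity
  rw [e2] at h3
  rw [e1] at h2
  rw [e3] at h5
  linarith

/-- the horizontal line through a cell -/
theorem inc_hor (m : ℕ) (V : ℤ × ℤ) : inc m (V.2, 0) V := by
  refine ⟨?_, ?_⟩
  · simp only [Int.cast_zero, abs_zero]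
    positivity
  · simp only [Int.cast_zero, zero_div, zero_mul, add_zero, sub_self, abs_zero]
    positivity

namespace Ld

variable {d : Ld}

lemma line_tS (m : ℕ) (j : ℤ) (t : ℝ) : (d.tS m j).line t = d.line t := by
  unfold line tS
  simp only
  ring

/-- the point stays in the strip at a step of the time -/
theorem in_tS {m : ℕ} {t κ : ℝ} (h : d.In t κ) : (d.tS m (d.tB m t)).In t κ := by
  have h0 : (0 : ℝ) < 2 ^ (d.a + m) := by positivity
  have h1 := Int.floor_le (2 ^ (d.a + m) * (t - d.s0))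
  have h2 := Int.lt_floor_add_one (2 ^ (d.a + m) * (t - d.s0))
  refine ⟨?_, ?_, ?_⟩
  · show 0 ≤ t - (d.s0 + (d.tB m t : ℝ) / 2 ^ (d.a + m))
    have : (d.tB m t : ℝ) / 2 ^ (d.a + m) ≤ t - d.s0 := by
      rw [div_le_iff₀ h0, mul_comm]
      exact h1
    linarith
  · show 2 ^ (d.a + m) * (t - (d.s0 + (d.tB m t : ℝ) / 2 ^ (d.a + m))) < 1
    have : 2 ^ (d.a + m) * (t - (d.s0 + (d.tB m t : ℝ) / 2 ^ (d.a + m))) =
        2 ^ (d.a + m) * (t - d.s0) - (d.tB m t : ℝ) := by field_simp; ring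
    rw [this]
    unfold tB
    linarith
  · rw [line_tS]
    exact h.u

lemma line_lS (m : ℕ) (b : ℤ × ℤ) (t : ℝ) : (d.lS m b).line t =
    d.line t + (b.1 / 2 ^ (m + 4) + b.2 / 2 ^ (m + 4) * d.sN t) / 2 ^ d.k := by
  unfold line lS sN
  simp only
  ring

lemma cl_eq (m : ℕ) (t κ : ℝ) : d.cl m t κ = cP m (d.sN t) (d.uN t κ) := rfl

/-- the point stays in the strip at a step of the line -/
theorem in_lS {m : ℕ} {b : ℤ × ℤ} {t κ : ℝ} (h : d.In t κ) (hb : inc m b (d.cl m t κ)) :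
    (d.lS m b).In t κ := by
  refine ⟨h.t0, h.t1, ?_⟩
  have h1 := near_of_inc (s := d.sN t) (u := d.uN t κ) hb
  have h0 : (0 : ℝ) < 2 ^ d.k := by positivity
  have h2 : d.uN t κ - (b.1 / 2 ^ (m + 4) + b.2 / 2 ^ (m + 4) * d.sN t) =
      2 ^ d.k * (κ - (d.lS m b).line t) := by
    rw [line_lS]
    unfold uN
    field_simp
    ring
  rw [h2, abs_mul, abs_of_pos h0] at h1
  show 2 ^ (d.k + m) * |κ - (d.lS m b).line t| ≤ 1
  have h3 : (0 : ℝ) < 2 ^ m := by positivity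
  rw [le_div_iff₀ h3] at h1
  rw [pow_add]
  linarith

lemma sN_nonneg {t κ : ℝ} (h : d.In t κ) : 0 ≤ d.sN t := mul_nonneg (by positivity) h.t0

lemma sN_lt {t κ : ℝ} (h : d.In t κ) : d.sN t < 1 := h.t1

lemma uN_le {t κ : ℝ} (h : d.In t κ) : |d.uN t κ| ≤ 1 := by
  unfold uN
  rw [abs_mul, abs_of_pos (by positivity : (0 : ℝ) < 2 ^ d.k)]
  exact h.u

end Ld

/-! ### Lists of steps -/

/-- the state after a list of steps (newest first) : `inl j` time, `inr b` line -/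
noncomputable def ofL (m : ℕ) (d0 : Ld) : List (ℤ ⊕ (ℤ × ℤ)) → Ld
  | [] => d0
  | Sum.inl j :: L => (ofL m d0 L).tS m j
  | Sum.inr b :: L => (ofL m d0 L).lS m b

/-- the steps are true for the point `(t, κ)` -/
def Tr (m : ℕ) (d0 : Ld) (t κ : ℝ) : List (ℤ ⊕ (ℤ × ℤ)) → Prop
  | [] => d0.In t κ
  | Sum.inl j :: L => Tr m d0 t κ L ∧ j = (ofL m d0 L).tB m t
  | Sum.inr b :: L => Tr m d0 t κ L ∧ inc m b ((ofL m d0 L).cl m t κ)

/-- **the point lies in the strip of the state** -/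
theorem in_ofL {m : ℕ} {d0 : Ld} {t κ : ℝ} {L : List (ℤ ⊕ (ℤ × ℤ))} (h : Tr m d0 t κ L) :
    (ofL m d0 L).In t κ := by
  induction L with
  | nil => exact h
  | cons x L ih =>
    cases x with
    | inl j =>
      obtain ⟨h1, h2⟩ := h
      rw [ofL, h2]
      exact Ld.in_tS (ih h1)
    | inr b =>
      obtain ⟨h1, h2⟩ := h
      rw [ofL]
      exact Ld.in_lS (ih h1) h2

/-- all slopes are in the range of the net -/
def Sl (m : ℕ) (L : List (ℤ ⊕ (ℤ × ℤ))) : Prop := ∀ b, Sum.inr b ∈ L → |(b.2 : ℝ)| ≤ 2 ^ (2 * m + 5)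

lemma Sl_of_Tr {m : ℕ} {d0 : Ld} {t κ : ℝ} {L : List (ℤ ⊕ (ℤ × ℤ))} (h : Tr m d0 t κ L) :
    Sl m L := by
  induction L with
  | nil => intro b hb; simp at hb
  | cons x L ih =>
    intro b hb
    cases x with
    | inl j =>
      obtain ⟨h1, h2⟩ := h
      simp only [List.mem_cons, reduceCtorEq, false_or] at hb
      exact ih h1 b hb
    | inr b' =>
      obtain ⟨h1, h2⟩ := h
      rw [List.mem_cons] at hb
      rcases hb with hb | hb
      · rw [Sum.inr.inj hb]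
        exact h2.1
      · exact ih h1 b hb

lemma ofL_mono (m : ℕ) (d0 : Ld) (L' L : List (ℤ ⊕ (ℤ × ℤ))) :
    (ofL m d0 L).a ≤ (ofL m d0 (L' ++ L)).a ∧ (ofL m d0 L).k ≤ (ofL m d0 (L' ++ L)).k := by
  induction L' with
  | nil => exact ⟨le_rfl, le_rfl⟩
  | cons x L' ih =>
    cases x with
    | inl j => exact ⟨ih.1.trans (Nat.le_add_right _ _), ih.2⟩
    | inr b => exact ⟨ih.1, ih.2.trans (Nat.le_add_right _ _)⟩

/-- **change of the slope of the line** along a list of steps -/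
theorem al_diff {m : ℕ} (hm : 1 ≤ m) (d0 : Ld) (L' L : List (ℤ ⊕ (ℤ × ℤ))) (hS : Sl m L') :
    |(ofL m d0 (L' ++ L)).al - (ofL m d0 L).al| ≤
      2 ^ ((ofL m d0 (L' ++ L)).a + m + 2) *
        (1 / 2 ^ (ofL m d0 L).k - 1 / 2 ^ (ofL m d0 (L' ++ L)).k) := by
  induction L' with
  | nil => simp
  | cons x L' ih =>
    have hS' : Sl m L' := fun b hb => hS b (List.mem_cons_of_mem _ hb)
    have ih' := ih hS'
    have hk := (ofL_mono m d0 L' L).2
    have hnn : (0 : ℝ) ≤ 1 / 2 ^ (ofL m d0 L).k - 1 / 2 ^ (ofL m d0 (L' ++ L)).k := by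
      rw [sub_nonneg]
      exact one_div_le_one_div_of_le (by positivity) (pow_le_pow_right₀ (by norm_num) hk)
    cases x with
    | inl j =>
      refine ih'.trans ?_
      show 2 ^ ((ofL m d0 (L' ++ L)).a + m + 2) * _ ≤
        2 ^ ((ofL m d0 (L' ++ L)).a + m + m + 2) * _
      refine mul_le_mul_of_nonneg_right ?_ hnn
      exact pow_le_pow_right₀ (by norm_num) (by omega)
    | inr b =>
      set D := ofL m d0 (L' ++ L) with hD
      have e1 : (ofL m d0 (Sum.inr b :: L' ++ L)) = D.lS m b := rfl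
      rw [e1]
      have hb := hS b (List.mem_cons_self)
      have e2 : (D.lS m b).al - (ofL m d0 L).al = (D.al - (ofL m d0 L).al) +
          2 ^ D.a * (b.2 / 2 ^ (m + 4)) / 2 ^ D.k := by
        show D.al + 2 ^ D.a * (b.2 / 2 ^ (m + 4)) / 2 ^ D.k - _ = _
        ring
      have h3 : |(2 : ℝ) ^ D.a * (b.2 / 2 ^ (m + 4)) / 2 ^ D.k| ≤
          2 ^ (D.a + m + 1) * (1 / 2 ^ D.k) := by
        rw [abs_div, abs_mul, abs_div, abs_of_pos (by positivity : (0 : ℝ) < 2 ^ D.a),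
          abs_of_pos (by positivity : (0 : ℝ) < 2 ^ (m + 4)),
          abs_of_pos (by positivity : (0 : ℝ) < 2 ^ D.k)]
        have e3 : (2 : ℝ) ^ (2 * m + 5) / 2 ^ (m + 4) = 2 ^ (m + 1) := by
          rw [show 2 * m + 5 = (m + 1) + (m + 4) by ring, pow_add]
          field_simp
        calc 2 ^ D.a * (|(b.2 : ℝ)| / 2 ^ (m + 4)) / 2 ^ D.k
            ≤ 2 ^ D.a * (2 ^ (2 * m + 5) / 2 ^ (m + 4)) / 2 ^ D.k := by gcongr
          _ = 2 ^ (D.a + m + 1) * (1 / 2 ^ D.k) := by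
              rw [e3, show D.a + m + 1 = D.a + (m + 1) by ring, pow_add]
              ring
      have h4 : (2 : ℝ) ^ (D.a + m + 1) * (1 / 2 ^ D.k) ≤
          2 ^ (D.a + m + 2) * (1 / 2 ^ D.k - 1 / 2 ^ (D.k + m)) := by
        have h5 : (1 : ℝ) / 2 ^ (D.k + m) ≤ (1 / 2 ^ D.k) / 2 := by
          rw [pow_add, ← div_div]
          refine div_le_div_of_nonneg_left (by positivity) (by norm_num) ?_
          calc (2 : ℝ) = 2 ^ 1 := by norm_num
            _ ≤ 2 ^ m := pow_le_pow_right₀ (by norm_num) hm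
        have h6 : (2 : ℝ) ^ (D.a + m + 2) = 2 ^ (D.a + m + 1) * 2 := by rw [← pow_succ]
        rw [h6]
        have h7 : (0 : ℝ) < 2 ^ (D.a + m + 1) := by positivity
        nlinarith
      rw [e2]
      refine (abs_add_le _ _).trans ?_
      show _ ≤ 2 ^ (D.a + m + 2) * (1 / 2 ^ (ofL m d0 L).k - 1 / 2 ^ (D.k + m))
      have h8 : (2 : ℝ) ^ (D.a + m + 2) * (1 / 2 ^ (ofL m d0 L).k - 1 / 2 ^ (D.k + m)) =
          2 ^ (D.a + m + 2) * (1 / 2 ^ (ofL m d0 L).k - 1 / 2 ^ D.k) +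
          2 ^ (D.a + m + 2) * (1 / 2 ^ D.k - 1 / 2 ^ (D.k + m)) := by ring
      rw [h8]
      linarith

/-! ### Noncollinear points -/

/-- a real line near a point; the net line of its rounded coefficients passes through the cell -/
theorem inc_of_near {m : ℕ} {c0 c1 s u : ℝ} (hs0 : 0 ≤ s) (hs1 : s ≤ 1)
    (hc1 : |c1| ≤ 2 ^ m) (h : |u - (c0 + c1 * s)| ≤ 1 / 2 ^ (m + 2)) :
    inc m (⌊2 ^ (m + 4) * c0⌋, ⌊2 ^ (m + 4) * c1⌋) (cP m s u) := by
  have g0 := fl_near (m + 4) c0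
  have g1 := fl_near (m + 4) c1
  have g2 := fl_near (m + 4) u
  have g3 := fl_near (2 * m + 6) s
  set C0 : ℝ := (⌊2 ^ (m + 4) * c0⌋ : ℤ) / 2 ^ (m + 4) with hC0
  set C1 : ℝ := (⌊2 ^ (m + 4) * c1⌋ : ℤ) / 2 ^ (m + 4) with hC1
  set U : ℝ := (⌊2 ^ (m + 4) * u⌋ : ℤ) / 2 ^ (m + 4) with hU
  set V : ℝ := (⌊2 ^ (2 * m + 6) * s⌋ : ℤ) / 2 ^ (2 * m + 6) with hV
  have p0 : (0 : ℝ) < 1 / 2 ^ m := by positivity
  have e2 : (1 : ℝ) / 2 ^ (m + 4) = (1 / 2 ^ m) / 16 := by rw [pow_add]; field_simp; norm_num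
  have e1 : (1 : ℝ) / 2 ^ (m + 1) = (1 / 2 ^ m) / 2 := by rw [pow_succ]; field_simp
  have e3 : (1 : ℝ) / 2 ^ (m + 2) = (1 / 2 ^ m) / 4 := by rw [pow_add]; field_simp; norm_num
  have q1 : (1 : ℝ) ≤ 2 ^ m := one_le_pow₀ (by norm_num)
  have hC1b : |C1| ≤ 2 ^ (m + 1) := by
    have h1 : |C1| ≤ |c1| + |c1 - C1| := by
      have := abs_sub_abs_le_abs_sub C1 c1
      rw [abs_sub_comm] at this
      linarith
    have h2 : (1 : ℝ) / 2 ^ (m + 4) ≤ 1 := by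
      rw [div_le_one (by positivity)]
      exact one_le_pow₀ (by norm_num)
    have h3 : (2 : ℝ) ^ (m + 1) = 2 ^ m * 2 := pow_succ _ _
    rw [h3]
    linarith
  refine ⟨?_, ?_⟩
  · have h1 : ((⌊2 ^ (m + 4) * c1⌋ : ℤ) : ℝ) = C1 * 2 ^ (m + 4) := by
      rw [hC1]; field_simp
    show |((⌊2 ^ (m + 4) * c1⌋ : ℤ) : ℝ)| ≤ 2 ^ (2 * m + 5)
    rw [h1, abs_mul, abs_of_pos (by positivity : (0 : ℝ) < 2 ^ (m + 4)),
      show 2 * m + 5 = (m + 1) + (m + 4) by ring, pow_add (2 : ℝ) (m + 1) (m + 4)]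
    gcongr
  · show |U - (C0 + C1 * V)| ≤ 1 / 2 ^ (m + 1)
    have e : U - (C0 + C1 * V) = (u - (c0 + c1 * s)) - (u - U) + (c0 - C0) + (c1 - C1) * s +
        C1 * (s - V) := by ring
    have h5 : |C1 * (s - V)| ≤ (1 / 2 ^ m) / 32 := by
      rw [abs_mul]
      calc |C1| * |s - V| ≤ 2 ^ (m + 1) * (1 / 2 ^ (2 * m + 6)) := by gcongr
        _ = (1 / 2 ^ m) / 32 := by
          rw [show 2 * m + 6 = (m + 1) + (m + 5) by ring, pow_add (2 : ℝ) (m + 1) (m + 5),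
            pow_add (2 : ℝ) m 5]
          field_simp
          norm_num
    have h6 : |(c1 - C1) * s| ≤ (1 / 2 ^ m) / 16 := by
      rw [abs_mul, abs_of_nonneg hs0, ← e2]
      calc |c1 - C1| * s ≤ 1 / 2 ^ (m + 4) * 1 := by gcongr
        _ = _ := mul_one _
    rw [e]
    rw [e2] at g0 g2
    rw [e3] at h
    rw [e1]
    have t1 := abs_add_le (u - (c0 + c1 * s) - (u - U) + (c0 - C0) + (c1 - C1) * s) (C1 * (s - V))
    have t2 := abs_add_le (u - (c0 + c1 * s) - (u - U) + (c0 - C0)) ((c1 - C1) * s)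
    have t3 := abs_add_le (u - (c0 + c1 * s) - (u - U)) (c0 - C0)
    have t4 := abs_sub (u - (c0 + c1 * s)) (u - U)
    linarith

/-- the net line through two points -/
noncomputable def thr2 (m : ℕ) (s1 u1 s2 u2 : ℝ) : ℤ × ℤ :=
  (⌊2 ^ (m + 4) * (u1 - (u1 - u2) / (s1 - s2) * s1)⌋, ⌊2 ^ (m + 4) * ((u1 - u2) / (s1 - s2))⌋)

/-- **noncollinear points** : if the cell of the third point is not on the net line through the first
two points, the determinant is large -/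
theorem det_of_not_inc {m : ℕ} {s1 u1 s2 u2 s3 u3 : ℝ} (hu1 : |u1| ≤ 1) (hu2 : |u2| ≤ 1)
    (hs0 : 0 ≤ s3) (hs1 : s3 ≤ 1) (h12 : 2 / 2 ^ m ≤ |s1 - s2|)
    (hn : ¬ inc m (thr2 m s1 u1 s2 u2) (cP m s3 u3)) :
    1 / 2 ^ (2 * m + 1) ≤ |(s1 - s2) * (u3 - u1) - (u1 - u2) * (s3 - s1)| := by
  have hp : (0 : ℝ) < 2 / 2 ^ m := by positivity
  have hne : s1 - s2 ≠ 0 := by
    intro h0
    rw [h0, abs_zero] at h12
    linarith
  have habs : 0 < |s1 - s2| := abs_pos.2 hne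
  have hc : |(u1 - u2) / (s1 - s2)| ≤ 2 ^ m := by
    rw [abs_div, div_le_iff₀ habs]
    have h1 : |u1 - u2| ≤ 2 := by
      have := abs_sub u1 u2
      linarith
    have h2 : (2 : ℝ) ^ m * (2 / 2 ^ m) ≤ 2 ^ m * |s1 - s2| := by gcongr
    have h3 : (2 : ℝ) ^ m * (2 / 2 ^ m) = 2 := by field_simp
    linarith
  have h4 : 1 / 2 ^ (m + 2) < |u3 - (u1 - (u1 - u2) / (s1 - s2) * s1 +
      (u1 - u2) / (s1 - s2) * s3)| := by
    by_contra hcon
    push Not at hcon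
    exact hn (inc_of_near hs0 hs1 hc hcon)
  have h5 : (s1 - s2) * (u3 - u1) - (u1 - u2) * (s3 - s1) = (s1 - s2) *
      (u3 - (u1 - (u1 - u2) / (s1 - s2) * s1 + (u1 - u2) / (s1 - s2) * s3)) := by
    field_simp
    ring
  rw [h5, abs_mul]
  calc (1 : ℝ) / 2 ^ (2 * m + 1) = (2 / 2 ^ m) * (1 / 2 ^ (m + 2)) := by
        rw [show 2 * m + 1 = m + (m + 1) by ring, pow_add, pow_add, pow_add]
        field_simp
    _ ≤ |s1 - s2| * |u3 - (u1 - (u1 - u2) / (s1 - s2) * s1 + (u1 - u2) / (s1 - s2) * s3)| := by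
        gcongr

end Vale.Agent.P106.U.StripL
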