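import Vale.Agent.P106.U.H449.Wrd1
import Vale.Agent.P106.U.H824.StripL
import Vale.Agent.P106.U.H824.Gh

/-!
# P106 / U / H824 : line data of the states of word 1 (helper824)

Over `H449.Rl Ω 2 (ℤ × ℤ) γ ..` (kinds `none` = time, `0` = own slope, `1` = line).

* `toL` : the steps of the time and of the line of a state; `ld` : its line data; `ld_a`, `ld_k` levels.
* `tru` : the true cell of `(t, κ)` in the strip of a state.
* `IsL` : the rule reveals true blocks of the time and lines through the true cell.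
* `truth`, `in_T` : `(t, κ)` lies in the strip of every state; `s0_of_Tr`, `s0_T` : the rounded time.
* `X_of_idx`, `F_of_hor` : the greedy candidate of `Gh` and the horizontal forced line.
* `al_T` : change of the slope between two states.
-/

set_option autoImplicit false

namespace Vale.Agent.P106.U.StripE

open Finset Vale.Agent.P127 Vale.Agent.P127.Stk Vale.Agent.P106.U.H449 Vale.Agent.P106.U.StripL

variable {γ : Type}

/-- steps of the time and of the line of a state -/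
def toL : Stt 2 (ℤ × ℤ) γ → List (ℤ ⊕ (ℤ × ℤ))
  | [] => []
  | r :: s => if r.1.2 = none then Sum.inl r.2.1.1 :: toL s
      else if r.1.2 = some 1 then Sum.inr r.2.1 :: toL s else toL s

theorem toL_none {r : Lt 2 × (ℤ × ℤ) × γ} (h : r.1.2 = none) (s : Stt 2 (ℤ × ℤ) γ) :
    toL (r :: s) = Sum.inl r.2.1.1 :: toL s := by
  rw [toL, if_pos h]

theorem toL_one {r : Lt 2 × (ℤ × ℤ) × γ} (h : r.1.2 = some 1) (s : Stt 2 (ℤ × ℤ) γ) :
    toL (r :: s) = Sum.inr r.2.1 :: toL s := by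
  rw [toL, if_neg (by rw [h]; simp), if_pos h]

theorem toL_zero {r : Lt 2 × (ℤ × ℤ) × γ} (h : r.1.2 = some 0) (s : Stt 2 (ℤ × ℤ) γ) :
    toL (r :: s) = toL s := by
  rw [toL, if_neg (by rw [h]; simp), if_neg (by rw [h]; decide)]

theorem kind_cases (k : Option (Fin 2)) : k = none ∨ k = some 0 ∨ k = some 1 := by
  rcases k with _ | κ
  · exact Or.inl rfl
  · right
    fin_cases κ
    · exact Or.inl rfl
    · exact Or.inr rfl

theorem toL_append (s' s : Stt 2 (ℤ × ℤ) γ) : toL (s' ++ s) = toL s' ++ toL s := by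
  induction s' with
  | nil => rfl
  | cons r s' ih =>
    rw [List.cons_append]
    rcases kind_cases r.1.2 with h | h | h
    · rw [toL_none h, toL_none h, ih, List.cons_append]
    · rw [toL_zero h, toL_zero h, ih]
    · rw [toL_one h, toL_one h, ih, List.cons_append]

/-- line data of a state -/
noncomputable def ld (m : ℕ) (d0 : Ld) (s : Stt 2 (ℤ × ℤ) γ) : Ld := ofL m d0 (toL s)

theorem ld_a (m : ℕ) (d0 : Ld) (s : Stt 2 (ℤ × ℤ) γ) : (ld m d0 s).a = d0.a + m * cnt none s := by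
  induction s with
  | nil => simp [ld, toL, ofL]
  | cons r s ih =>
    unfold ld at ih ⊢
    rw [cnt_cons]
    rcases kind_cases r.1.2 with h | h | h
    · rw [toL_none h, ofL, if_pos h]
      show (ofL m d0 (toL s)).a + m = _
      rw [ih]
      ring
    · rw [toL_zero h, ih, if_neg (by rw [h]; simp)]
      ring
    · rw [toL_one h, ofL, if_neg (by rw [h]; simp)]
      show (ofL m d0 (toL s)).a = _
      rw [ih]
      ring

theorem ld_k (m : ℕ) (d0 : Ld) (s : Stt 2 (ℤ × ℤ) γ) :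
    (ld m d0 s).k = d0.k + m * cnt (some 1) s := by
  induction s with
  | nil => simp [ld, toL, ofL]
  | cons r s ih =>
    unfold ld at ih ⊢
    rw [cnt_cons]
    rcases kind_cases r.1.2 with h | h | h
    · rw [toL_none h, ofL, if_neg (by rw [h]; simp)]
      show (ofL m d0 (toL s)).k = _
      rw [ih]
      ring
    · rw [toL_zero h, ih, if_neg (by rw [h]; decide)]
      ring
    · rw [toL_one h, ofL, if_pos h]
      show (ofL m d0 (toL s)).k + m = _
      rw [ih]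
      ring

/-- the rounded time after `j` blocks -/
noncomputable def tR (m : ℕ) (d0 : Ld) (j : ℕ) (t : ℝ) : ℝ :=
  d0.s0 + (⌊2 ^ (d0.a + m * j) * (t - d0.s0)⌋ : ℤ) / 2 ^ (d0.a + m * j)

/-- the block `j` of the time -/
noncomputable def tbk (m : ℕ) (d0 : Ld) (j : ℕ) (t : ℝ) : ℤ :=
  ⌊2 ^ (d0.a + m * j + m) * (t - tR m d0 j t)⌋

theorem tR_succ (m : ℕ) (d0 : Ld) (j : ℕ) (t : ℝ) :
    tR m d0 (j + 1) t = tR m d0 j t + tbk m d0 j t / 2 ^ (d0.a + m * j + m) := by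
  have e1 : d0.a + m * (j + 1) = d0.a + m * j + m := by ring
  unfold tbk tR
  rw [e1]
  set F := ⌊(2 : ℝ) ^ (d0.a + m * j) * (t - d0.s0)⌋ with hF
  have e2 : (2 : ℝ) ^ (d0.a + m * j + m) * (t - (d0.s0 + (F : ℝ) / 2 ^ (d0.a + m * j))) =
      2 ^ (d0.a + m * j + m) * (t - d0.s0) - ((2 ^ m * F : ℤ) : ℝ) := by
    rw [pow_add]
    push_cast
    field_simp
    ring
  rw [e2, Int.floor_sub_intCast]
  push_cast
  rw [pow_add]
  field_simp
  ring

/-- **the rounded time of a true state** -/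
theorem s0_of_Tr {m : ℕ} {d0 : Ld} {t κ : ℝ} {s : Stt 2 (ℤ × ℤ) γ} (h : Tr m d0 t κ (toL s)) :
    (ld m d0 s).s0 = tR m d0 (cnt none s) t := by
  induction s with
  | nil =>
    have h0 : d0.In t κ := h
    have h1 : ⌊(2 : ℝ) ^ (d0.a + m * 0) * (t - d0.s0)⌋ = 0 := by
      rw [Int.floor_eq_zero_iff, Nat.mul_zero, Nat.add_zero]
      exact ⟨mul_nonneg (by positivity) h0.t0, h0.t1⟩
    show d0.s0 = _
    rw [cnt_nil]
    unfold tR
    rw [h1]
    simp
  | cons r s ih =>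
    rw [cnt_cons]
    rcases kind_cases r.1.2 with hk | hk | hk
    · rw [toL_none hk] at h
      obtain ⟨h1, h2⟩ := h
      have ih' := ih h1
      have ha := ld_a m d0 s
      rw [if_pos hk, tR_succ, ← ih']
      unfold ld at ih' ha ⊢
      rw [toL_none hk, ofL]
      show (ofL m d0 (toL s)).s0 + (r.2.1.1 : ℝ) / 2 ^ ((ofL m d0 (toL s)).a + m) = _
      rw [h2]
      unfold Ld.tB tbk
      rw [← ih', ha]
    · rw [toL_zero hk] at h
      rw [if_neg (by rw [hk]; simp), Nat.add_zero, ← ih h]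
      unfold ld
      rw [toL_zero hk]
    · rw [toL_one hk] at h
      rw [if_neg (by rw [hk]; simp), Nat.add_zero, ← ih h.1]
      unfold ld
      rw [toL_one hk]
      rfl

/-- the block of the time of a true state -/
theorem tB_of_Tr {m : ℕ} {d0 : Ld} {t κ : ℝ} {s : Stt 2 (ℤ × ℤ) γ} (h : Tr m d0 t κ (toL s)) :
    (ld m d0 s).tB m t = tbk m d0 (cnt none s) t := by
  unfold Ld.tB tbk
  rw [s0_of_Tr h, ld_a]

variable {Ω : Type} [Fintype Ω] {ζ₁ ζ₂ : Type}

/-- the true cell -/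
noncomputable def tru (m : ℕ) (d0 : Ld) (t κ : Ω → ℝ) (s : Stt 2 (ℤ × ℤ) γ) (ω : Ω) : ℤ × ℤ :=
  (ld m d0 s).cl m (t ω) (κ ω)

/-- the rule reveals true blocks of the time and lines through the true cell -/
structure IsL (m : ℕ) (d0 : Ld) (t κ : Ω → ℝ) (e : Rl Ω 2 (ℤ × ℤ) γ ζ₁ ζ₂) : Prop where
  in0 : ∀ ω, d0.In (t ω) (κ ω)
  Y : ∀ T ω, Tr m d0 (t ω) (κ ω) (toL (T ω)) → (e.Y T ω).1 = (ld m d0 (T ω)).tB m (t ω)
  X : ∀ T ω b, e.X 1 T ω = some b → inc m b (tru m d0 t κ (T ω) ω)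
  F : ∀ T ω, inc m (e.F 1 T ω) (tru m d0 t κ (T ω) ω)

/-- the greedy candidate -/
theorem X_of_idx {m : ℕ} {d0 : Ld} {t κ : Ω → ℝ} {e : Rl Ω 2 (ℤ × ℤ) γ ζ₁ ζ₂} {P : Law Ω} {thr : ℝ}
    (h : ∀ T, e.X 1 T = Gh.idx P (fun ω => tru m d0 t κ (T ω) ω) (e.K₁ T) (inc m) thr) :
    ∀ T ω b, e.X 1 T ω = some b → inc m b (tru m d0 t κ (T ω) ω) := by
  intro T ω b hb
  rw [h] at hb
  exact Gh.idx_mem (V := fun ω => tru m d0 t κ (T ω) ω) hb

omit [Fintype Ω] in
/-- the horizontal forced line -/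
theorem F_of_hor {m : ℕ} {d0 : Ld} {t κ : Ω → ℝ} {e : Rl Ω 2 (ℤ × ℤ) γ ζ₁ ζ₂}
    (h : ∀ T ω, e.F 1 T ω = ((tru m d0 t κ (T ω) ω).2, 0)) :
    ∀ T ω, inc m (e.F 1 T ω) (tru m d0 t κ (T ω) ω) := by
  intro T ω
  rw [h]
  exact inc_hor m _

section truth

variable {m : ℕ} {d0 : Ld} {t κ : Ω → ℝ} {e : Rl Ω 2 (ℤ × ℤ) γ ζ₁ ζ₂} {P : Law Ω}

/-- **the steps are true** -/
theorem truth (h : IsL m d0 t κ e) (i : ℕ) (ω : Ω) : Tr m d0 (t ω) (κ ω) (toL (e.T P i ω)) := by
  classical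
  induction i with
  | zero => exact h.in0 ω
  | succ i ih =>
    rw [Rl.T_succ]
    rcases kind_cases (e.kd P i ω) with hk | hk | hk
    · rw [toL_none (show ((e.lt P i ω, e.val P i ω, e.D (e.T P i) ω) :
        Lt 2 × (ℤ × ℤ) × γ).1.2 = none from hk)]
      refine ⟨ih, ?_⟩
      show (e.val P i ω).1 = _
      rw [Rl.val_none hk, h.Y _ _ ih]
      rfl
    · rw [toL_zero (show ((e.lt P i ω, e.val P i ω, e.D (e.T P i) ω) :
        Lt 2 × (ℤ × ℤ) × γ).1.2 = some 0 from hk)]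
      exact ih
    · rw [toL_one (show ((e.lt P i ω, e.val P i ω, e.D (e.T P i) ω) :
        Lt 2 × (ℤ × ℤ) × γ).1.2 = some 1 from hk)]
      refine ⟨ih, ?_⟩
      show inc m (e.val P i ω) ((ld m d0 (e.T P i ω)).cl m (t ω) (κ ω))
      by_cases h4 : e.st P i 1 ω = 4
      · exact h.X (e.T P i) ω _ (Rl.val_some hk h4)
      · rw [Rl.val_forced hk h4]
        exact h.F (e.T P i) ω

/-- **the point lies in the strip of every state** -/
theorem in_T (h : IsL m d0 t κ e) (i : ℕ) (ω : Ω) :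
    (ld m d0 (e.T P i ω)).In (t ω) (κ ω) := in_ofL (truth h i ω)

/-- the rounded time of a state -/
theorem s0_T (h : IsL m d0 t κ e) (i : ℕ) (ω : Ω) :
    (ld m d0 (e.T P i ω)).s0 = tR m d0 (cnt none (e.T P i ω)) (t ω) := s0_of_Tr (truth h i ω)

/-- **change of the slope between two states** -/
theorem al_T (h : IsL m d0 t κ e) (hm : 1 ≤ m) {i j : ℕ} (hij : i ≤ j) (ω : Ω) :
    |(ld m d0 (e.T P j ω)).al - (ld m d0 (e.T P i ω)).al| ≤
      2 ^ (d0.a + m * cnt none (e.T P j ω) + m + 2) *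
        (1 / 2 ^ (d0.k + m * cnt (some 1) (e.T P i ω)) -
          1 / 2 ^ (d0.k + m * cnt (some 1) (e.T P j ω))) := by
  obtain ⟨k, rfl⟩ := Nat.exists_eq_add_of_le hij
  have h1 : e.T P (i + k) ω = (e.T P (i + k) ω).take k ++ e.T P i ω := by
    rw [← Rl.T_drop (e := e) (P := P) i k ω, List.take_append_drop]
  have h2 : toL (e.T P (i + k) ω) = toL ((e.T P (i + k) ω).take k) ++ toL (e.T P i ω) := by
    rw [← toL_append, ← h1]
  have h3 := Sl_of_Tr (truth (P := P) h (i + k) ω)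
  have h4 : Sl m (toL ((e.T P (i + k) ω).take k)) := by
    intro b hb
    refine h3 b ?_
    rw [h2, List.mem_append]
    exact Or.inl hb
  have h5 := al_diff hm d0 (toL ((e.T P (i + k) ω).take k)) (toL (e.T P i ω)) h4
  rw [← h2] at h5
  have e1 := ld_a m d0 (e.T P (i + k) ω)
  have e2 := ld_k m d0 (e.T P (i + k) ω)
  have e3 := ld_k m d0 (e.T P i ω)
  unfold ld at e1 e2 e3 ⊢
  rw [e1, e2, e3] at h5
  exact h5

/-- slope of a state -/
theorem al_le (h : IsL m d0 t κ e) (hm : 1 ≤ m) (i : ℕ) (ω : Ω) :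
    |(ld m d0 (e.T P i ω)).al| ≤ |d0.al| +
      2 ^ (d0.a + m * cnt none (e.T P i ω) + m + 2) / 2 ^ d0.k := by
  have h1 := al_T (P := P) h hm (Nat.zero_le i) ω
  have h2 : (ld m d0 (e.T P 0 ω)).al = d0.al := rfl
  have h3 : cnt (some 1) (e.T P 0 ω) = 0 := rfl
  have e0 : d0.k + m * 0 = d0.k := by simp
  rw [h2, h3, e0] at h1
  have h4 := abs_sub_abs_le_abs_sub (ld m d0 (e.T P i ω)).al d0.al
  have h5 : (0 : ℝ) < 1 / 2 ^ (d0.k + m * cnt (some 1) (e.T P i ω)) := by positivity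
  have h6 : (0 : ℝ) < 2 ^ (d0.a + m * cnt none (e.T P i ω) + m + 2) := by positivity
  have h7 : (2 : ℝ) ^ (d0.a + m * cnt none (e.T P i ω) + m + 2) *
      (1 / 2 ^ d0.k - 1 / 2 ^ (d0.k + m * cnt (some 1) (e.T P i ω))) ≤
      2 ^ (d0.a + m * cnt none (e.T P i ω) + m + 2) / 2 ^ d0.k := by
    rw [div_eq_mul_one_div ((2 : ℝ) ^ (d0.a + m * cnt none (e.T P i ω) + m + 2))]
    refine mul_le_mul_of_nonneg_left ?_ h6.le
    linarith
  linarith

end truth

end Vale.Agent.P106.U.StripE
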