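import Vale.Agent.P106.U.H449.Ins
import Vale.Agent.P106.U.H824.StripE

/-!
# P106 / U / H824 : the rule of word 1 with strips (helper824)

`dtL m d0 t κ Z ph Md` : the data `H449.Dt` with the blocks of the real time `t`, the true cells of
`(t, κ)` in the strips of the states, the net of lines `inc m` and horizontal forced lines.
`isL` : the steps are true (`IsL`), hence `truth`, `in_T`, `s0_T`, `al_T` for the rule.
-/

set_option autoImplicit false

namespace Vale.Agent.P106.U.InsL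

open Finset Vale.Agent.P127 Vale.Agent.P127.Stk Vale.Agent.P106.U.H449 Vale.Agent.P106.U.StripL
open Vale.Agent.P106.U.StripE

variable {Ω : Type} [Fintype Ω] {ζ : Type}

omit [Fintype Ω] in
/-- data of word 1 -/
noncomputable def dtL (m : ℕ) (d0 : Ld) (t κ : Ω → ℝ) (Z : Ω → ζ) (ph : ℕ → Ω → ℤ) (Md : ℕ) :
    Dt Ω ζ (ℤ × ℤ) where
  Z := Z
  tb := fun j ω => tbk m d0 (j - 1) (t ω)
  ph := ph
  V := fun s ω => tru m d0 t κ s ω
  mem := inc m
  enc := id
  fl := fun s ω => ((tru m d0 t κ s ω).2, 0)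
  Md := Md

/-- **the steps of the rule are true** -/
theorem isL {m : ℕ} {d0 : Ld} {t κ : Ω → ℝ} (h0 : ∀ ω, d0.In (t ω) (κ ω)) (Z : Ω → ζ)
    (ph : ℕ → Ω → ℤ) (Md : ℕ) (P : Law Ω) (p : Pm) (thr : ℝ) :
    IsL m d0 t κ ((dtL m d0 t κ Z ph Md).rule P p thr) where
  in0 := h0
  Y := by
    intro T ω h
    rw [tB_of_Tr h]
    rfl
  X := by
    intro T ω b hb
    rw [Dt.X1] at hb
    simp only [dtL, Option.map_id, id_eq] at hb
    exact Gh.idx_mem (V := fun ω => tru m d0 t κ (T ω) ω) hb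
  F := by
    intro T ω
    rw [Dt.F1]
    exact inc_hor m _

end Vale.Agent.P106.U.InsL
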