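import Vale.Agent.P106.U.H824.InpC
import Vale.Agent.P106.U.H428.Cls
import Vale.Agent.P106.U.H823.NumG

/-!
# P106 / U / H824 : the closure of helper428 / helper465 gives `GC` (helper824)

* `dtR` : the classes of the relative slopes `LinkR.alR` (`RI = rR`, `s = 0`, `B = 2^m`), levels up to `N`; `su_dtR` : the bounds,
  for every law with `Cn`.
* `gc_of_kw` : `Kw` for the law `Q1` (closure at one base), `Q2 = Q1.cond w x` with `w` a function of `G` which determines the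
  second path: `GC` for `Q2` with `g = gT`, margin `s = 0`.
* `w2_of_kw` : 823's `W2` for the second path, margin `0`.
* `gc_gb`, `w2_gb` : the same for 465's closure `Gb` at the base `b`.
-/

set_option autoImplicit false

namespace Vale.Agent.P106.U.GCof

open Finset Vale.Agent.P127 Vale.Agent.P127.Stk Vale.Agent.P106.U.H449 Vale.Agent.P106.U.StripL
open Vale.Agent.P106.U.StripE Vale.Agent.P106.U.LinkW2 Vale.Agent.P106.U.LSide Vale.Agent.P106.U.LinkR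
open Vale.Agent.P106.U.InpC Vale.Agent.P106.U.H428.Cls Vale.Agent.P106.U.H823.NumG

variable {Ω : Type} [Fintype Ω] {γ ζ₁ ζ₂ : Type} {e : Rl Ω 2 (ℤ × ℤ) γ ζ₁ ζ₂} {P Q : Law Ω} {n : ℕ}
  {E : List (Lt 2)} {q' : ℝ} {m : ℕ} {d0 : Ld} {tW κ : Ω → ℝ}

theorem pow8 (hm : 3 ≤ m) : (8 : ℝ) ≤ 2 ^ m := by
  calc (8 : ℝ) = 2 ^ 3 := by norm_num
    _ ≤ 2 ^ m := pow_le_pow_right₀ (by norm_num) hm

/-- **the classes of the relative slopes** -/
noncomputable def dtR (h : Cn e P Q n E q') (hm : 3 ≤ m) (d0 : Ld) (N : ℕ) : Dt Ω where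
  al := alR m d0 e P n E
  RI := rR n E
  s := 0
  B := 2 ^ m
  N := N
  hB8 := pow8 hm
  hRI := rR_mono h

/-- the bounds, for any law with `Cn` -/
theorem su_dtR (h : Cn e P Q n E q') (hm : 3 ≤ m) (hL : IsL m d0 tW κ e) (N : ℕ) {Q1 : Law Ω} {q1 : ℝ}
    (h1 : Cn e P Q1 n E q1) : (dtR h hm d0 N).Su Q1 where
  bd := fun a ω _ => alR_bd h hL hm a ω
  ag := fun a ω hω => alR_ag h1 hL hm a ω hω

section
variable {S T : Type*} {Q1 : Law Ω} {G : Ω → S} {w : Ω → T} {x : T} {N A : ℕ} {c : ℝ} {RC : ℕ → ℕ}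
  (h : Cn e P Q n E q') (hm : 3 ≤ m) {Kn : Ω → (dtR h hm d0 N).Ix → Prop}

/-- the value of the closure -/
noncomputable def gK (h : Cn e P Q n E q') (hm : 3 ≤ m) (d0 : Ld) (N : ℕ) (Kn : Ω → (dtR h hm d0 N).Ix → Prop)
    (a : ℕ) (ω : Ω) : ℝ := (dtR h hm d0 N).gT (Kn ω) a ω

/-- **`GC` from the closure** -/
theorem gc_of_kw (K : (dtR h hm d0 N).Kw Q1 c G Kn) (hz : 0 < Q1.pr w x) (hw : Fn Q1 w G) (hA : A ≤ N)
    (hR : ∀ a ≤ A, ∀ ω, 0 < Q1.w ω → w ω = x → (dtR h hm d0 N).RT (Kn ω) a = RC a) :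
    GC m d0 e P n E (Q1.cond w x) A G RC (gK h hm d0 N Kn) c 0 := by
  refine gc_of_cond hz hw (fun a ω => (dtR h hm d0 N).RT (Kn ω) a) hR (fun a _ ω _ => Dt.RT_le' (Kn ω) a)
    (fun a _ ω hω => ?_) (fun a _ ω ω' hω hω' hG => (K.congr hG.symm a).2.symm)
    (fun a ha ω _ hRa y => ?_)
  · have h1 := K.su.gT_spec (Kn ω) a hω
    have h2 : (0 : ℝ) < ((2 : ℝ) ^ m) ^ ((a : ℤ) - ((dtR h hm d0 N).RT (Kn ω) a : ℕ)) := by positivity
    have h3 : |alR m d0 e P n E a ω - gK h hm d0 N Kn a ω| ≤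
        ((2 : ℝ) ^ m) ^ ((a : ℤ) - ((dtR h hm d0 N).RT (Kn ω) a : ℕ)) := h1
    linarith
  · have h1 := K.unk (ω := ω) (ha.trans hA) (by
      show (dtR h hm d0 N).RT (Kn ω) a + 0 < rR n E a
      omega) y
    have e1 : (a : ℤ) - ((dtR h hm d0 N).RT (Kn ω) a : ℕ) - 1 = (a : ℤ) - (((dtR h hm d0 N).RT (Kn ω) a : ℕ) + 1) := by
      ring
    rw [e1]
    exact h1

/-- **the second path** -/
theorem w2_of_kw (K : (dtR h hm d0 N).Kw Q1 c G Kn) (ω : Ω) :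
    W2 (rR n E) (ext (rR n E) (fun a => (dtR h hm d0 N).RT (Kn ω) a) N) 0 := by
  refine W2.extend (rR_mono h) (fun a ha => K.RT_mono (Nat.le_succ a) ha) (fun a _ => Dt.RT_le' (Kn ω) a)
    (fun a k hk hR => ?_) (fun a ha hR => ?_)
  · exact K.RT_diag k hk hR
  · have h1 := K.RT_jump (ω := ω) (a := a) ha (by
      have : (dtR h hm d0 N).RT (Kn ω) a + 3 ≤ (dtR h hm d0 N).RT (Kn ω) (a + 1) := hR
      omega)
    exact h1

end

section gb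
variable {T V : Type*} {Q1 : Law Ω} {q1 : ℝ} {w : Ω → V} {x : V} {N A : ℕ} {c : ℝ} {RC : ℕ → ℕ}
  (h : Cn e P Q n E q') (hm : 3 ≤ m) (hL : IsL m d0 tW κ e)

include hL

/-- **`GC` from 465's closure at the base `b`** -/
theorem gc_gb (h1 : Cn e P Q1 n E q1) (hc : 0 ≤ c) (Y : ℕ → Ω → T) (b : ℕ) (hz : 0 < Q1.pr w x)
    (hw : Fn Q1 w (((dtR h hm d0 N).clD c).Gb Q1 Y b)) (hA : A ≤ N)
    (hR : ∀ a ≤ A, ∀ ω, 0 < Q1.w ω → w ω = x →
      (dtR h hm d0 N).RT (((dtR h hm d0 N).clD c).Rd Q1 Y b ω) a = RC a) :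
    GC m d0 e P n E (Q1.cond w x) A (((dtR h hm d0 N).clD c).Gb Q1 Y b) RC
      (gK h hm d0 N (((dtR h hm d0 N).clD c).Rd Q1 Y b)) c 0 :=
  gc_of_kw h hm (Dt.kw_gb (su_dtR h hm hL N h1) hc Y b) hz hw hA hR

theorem w2_gb (h1 : Cn e P Q1 n E q1) (hc : 0 ≤ c) (Y : ℕ → Ω → T) (b : ℕ) (ω : Ω) :
    W2 (rR n E) (ext (rR n E) (fun a => (dtR h hm d0 N).RT (((dtR h hm d0 N).clD c).Rd Q1 Y b ω) a) N) 0 :=
  w2_of_kw h hm (Dt.kw_gb (su_dtR h hm hL N h1) hc Y b) ω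

end gb

end Vale.Agent.P106.U.GCof
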