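import Vale.Agent.P106.U.H465.GcR

/-!
# P106 / U / H824 : the hypotheses at the cap for the data of the closure (helper824)

* for every `C2` : `li_le` (`li i ≤ Ab + J`), `lkq` (`lk i ≤ q`), `lkK` (`lk i ≤ QK + m (J + 1)`), `lkR` (`lk i ≤ m (kb - 2 + RC Ac)` if all
  levels are at most `Ac`), `crc_of` (`lk i ≤ min (m (kb - 2 + RC Ac)) r1`).
* `hyp` : **`C2.Hyp`** for helper465's `C1.mk2`, from `cmp` and `crc`; `hyp'` : the same with the precision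
  `min (m (kb - 2 + RC Ac)) r1` and the level `Ac` (helper205), `Ab + J ≤ Ac ≤ A'b`.
-/

set_option autoImplicit false

namespace Vale.Agent.P106.U.MkC2

open Finset Vale.Agent.P127 Vale.Agent.P127.Stk Vale.Agent.P127.U Vale.Agent.P106.W
open Vale.Agent.P106.K (Ry RyOk bl Bin)
open Vale.Agent.P127.U.CellD (q2 rd)
open Vale.Agent.P106.U Vale.Agent.P106.U.H449 Vale.Agent.P106.U.StripL Vale.Agent.P106.U.StripE
open Vale.Agent.P106.U.LinkR Vale.Agent.P106.U.InsL Vale.Agent.P106.U.InpC Vale.Agent.P106.U.H565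
open Vale.Agent.P106.U.H823.NumW Vale.Agent.P106.U.H823.PathNum Vale.Agent.P106.U.H823.NumG

variable {Ω : Type} [Fintype Ω]

/-! ### levels of the data -/

section lev

variable (c : C2 Ω)

theorem li_le (i : ℕ) : c.D.li i ≤ c.I.Ab + c.I.J := by
  have h1 := c.D.lev_N i
  have h2 : c.D.la i = c.I.m * c.D.li i := rfl
  have h3 : c.D.Ad = c.I.m * c.I.Ab := rfl
  have h4 : c.D.m = c.I.m := rfl
  have h5 : c.D.J = c.I.J := rfl
  rw [h2, h3, h4, h5, ← Nat.mul_add] at h1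
  have h6 := Nat.lt_of_mul_lt_mul_left h1
  omega

theorem lkq (i : ℕ) : c.D.lk i ≤ c.I.q := by
  refine (c.D.lkf i).trans ?_
  have h1 : c.D.lf i = c.I.rs + c.I.m * c.D.L.f (c.D.ix i) := rfl
  have h2 : c.D.L.f (c.D.ix i) ≤ c.I.QFb + 2 := c.D.f_le _
  have h3 : c.I.num.QF = c.I.rs + c.I.m * (c.I.QFb + 2) := by
    show c.I.m * (c.I.q / c.I.m) = _
    have h4 := c.good.rs2
    have h5 := c.good.QFb1
    rw [← h5, Nat.mul_add, Nat.mul_add]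
    omega
  have h6 := c.good.QFq
  rw [h3] at h6
  rw [h1]
  exact (Nat.add_le_add_left (Nat.mul_le_mul_left _ h2) _).trans h6

/-- the precision of the line at all levels of the data -/
theorem lkK (i : ℕ) : c.D.lk i ≤ c.I.num.QK + c.I.m * (c.I.J + 1) := by
  have add : ∀ j k : ℕ, c.D.L.k (j + k) ≤ c.D.L.k j + k := by
    intro j k
    induction k with
    | zero => exact le_rfl
    | succ k ih =>
      have := (c.D.L.k_succ_le (j + k)).2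
      rw [← Nat.add_assoc, ← Nat.add_assoc]
      omega
  have h0 : c.D.lk i = c.I.rs + c.I.m * c.D.L.k (c.D.ix i) := rfl
  have hN : c.D.N = c.D.n + c.I.J := rfl
  have h1 : c.D.L.k (c.D.ix i) ≤ c.D.L.k c.D.N := c.D.L.k_mono (min_le_right _ _)
  rcases Nat.eq_zero_or_pos c.D.n with h | h
  · have h2 := add 0 c.I.J
    rw [Nat.zero_add] at h2
    have h3 : c.D.L.k 0 = 0 := by simp
    rw [hN, h, Nat.zero_add] at h1
    have h4 := Nat.mul_le_mul_left c.I.m (h1.trans h2)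
    rw [h3, Nat.zero_add] at h4
    have h5 := c.good.rsK
    rw [h0, Nat.mul_add]
    omega
  · have h2 := (c.D.n_stop (i := c.D.n - 1) (by omega)).2
    have h3 : c.D.QK = c.I.num.QK := rfl
    have h4 : c.D.r0 = c.I.rs := rfl
    have h5 : c.D.m = c.I.m := rfl
    rw [h3, h4, h5] at h2
    have h6 := add (c.D.n - 1) (c.I.J + 1)
    have h7 : c.D.n - 1 + (c.I.J + 1) = c.D.N := by rw [hN]; omega
    rw [h7] at h6
    have h8 := Nat.mul_le_mul_left c.I.m (h1.trans h6)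
    rw [Nat.mul_add] at h8
    rw [h0]
    omega

/-- precision of the line: at most the precision of the second word at the level `Ac` -/
theorem lkR {Ac : ℕ} (hA : ∀ i, c.D.li i ≤ Ac) (i : ℕ) : c.D.lk i ≤ c.I.m * (c.I.kb - 2 + c.RC Ac) := by
  have h1 : c.D.lk i = c.I.m * (c.I.kb - 2) + c.I.m * c.D.L.k (c.D.ix i) := rfl
  have h2 : c.D.L.k (c.D.ix i) ≤ c.RC (c.D.li i) := c.D.L.k_le _
  have h3 : c.RC (c.D.li i) ≤ c.RC Ac := c.w2.mono (hA i)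
  rw [h1, ← Nat.mul_add]
  exact Nat.mul_le_mul_left _ (Nat.add_le_add_left (h2.trans h3) _)

theorem crc_of {Ac r1 : ℕ} (hA : ∀ i, c.D.li i ≤ Ac) (h : ∀ i, c.D.lk i ≤ r1) (i : ℕ) :
    c.D.lk i ≤ min (c.I.m * (c.I.kb - 2 + c.RC Ac)) r1 := le_min (lkR c hA i) (h i)

end lev

section hyp

variable {c : C1 Ω} {hm : 3 ≤ c.I.m} {cc : ℝ} {in0 : ∀ ω, c.d0.In (c.tW ω) (c.κ ω)} {hc : 0 ≤ cc} {b : ℕ} {V : Type}
  {w : Ω → V} {z : V} {hz : 0 < c.Q1.pr w z} {ps : ℕ} {o : Fin 7 → ℝ} {oK oG oN : ℝ} {Rm Ac : ℕ}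

/-- **the hypotheses at the cap** -/
theorem hyp (st : c.toC0.St Rm) (N0s : 4 ≤ c.N0) (J1 : A1 c.I.M + 1 ≤ c.I.J) (J3 : A3 0 c.I.M 0 + 1 ≤ c.I.J)
    (JM : 3 * (c.Md + 1) ≤ c.I.J) (hps : 2 ≤ ps) (hf : Fn c.Q1 w (c.Gb hm cc c.Q1 b))
    (hw : ∀ ω ω', 0 < c.Q1.w ω → 0 < c.Q1.w ω' → w ω = w ω' → ∀ a ≤ c.I.ha,
      c.RT hm cc c.Q1 b a ω = c.RT hm cc c.Q1 b a ω')
    {rc : ℕ} (hA : c.I.Ab + c.I.J ≤ Ac) (Aca : Ac ≤ c.I.A'b)
    (cmp : ∀ ω, 0 < c.Q1.w ω → w ω = z →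
      |(- gAc c.I.m c.d0 (c.gT hm cc c.Q1 b) Ac ω) - (c.FW ω).al| * q2 c.I.num.A' ≤ q2 rc)
    (crc : ∀ i, (c.mk2 hm cc in0 hc b w z hz ps o oK oG oN).D.lk i ≤ rc) :
    (c.mk2 hm cc in0 hc b w z hz ps o oK oG oN).Hyp Rm cc Ac rc where
  st := st
  x1 := c.cn.hq
  x2 := hz
  N0s := N0s
  J1 := J1
  J3 := J3
  JM := JM
  ps := hps
  gc := C1.mk2_gc hf hw
  li := fun i => (li_le _ i).trans hA
  Aca := Aca
  cmp := fun ω hω => cmp ω (supp_cond hz hω).1 (supp_cond hz hω).2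
  crc := crc
  rq := lkq _

/-- **the hypotheses at the cap**, precision `min (m (kb - 2 + RC Ac)) r1` -/
theorem hyp' (st : c.toC0.St Rm) (N0s : 4 ≤ c.N0) (J1 : A1 c.I.M + 1 ≤ c.I.J) (J3 : A3 0 c.I.M 0 + 1 ≤ c.I.J)
    (JM : 3 * (c.Md + 1) ≤ c.I.J) (hps : 2 ≤ ps) (hf : Fn c.Q1 w (c.Gb hm cc c.Q1 b))
    (hw : ∀ ω ω', 0 < c.Q1.w ω → 0 < c.Q1.w ω' → w ω = w ω' → ∀ a ≤ c.I.ha,
      c.RT hm cc c.Q1 b a ω = c.RT hm cc c.Q1 b a ω')
    {r1 : ℕ} (hA : c.I.Ab + c.I.J ≤ Ac) (Aca : Ac ≤ c.I.A'b)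
    (cmp : ∀ ω, 0 < c.Q1.w ω → w ω = z →
      |(- gAc c.I.m c.d0 (c.gT hm cc c.Q1 b) Ac ω) - (c.FW ω).al| * q2 c.I.num.A' ≤
        q2 (min (c.I.m * (c.I.kb - 2 + c.RT hm cc c.Q1 b Ac ω)) r1))
    (hr : c.I.num.QK + c.I.m * (c.I.J + 1) ≤ r1) :
    (c.mk2 hm cc in0 hc b w z hz ps o oK oG oN).Hyp Rm cc Ac
      (min (c.I.m * (c.I.kb - 2 + (c.mk2 hm cc in0 hc b w z hz ps o oK oG oN).RC Ac)) r1) := by
  refine hyp st N0s J1 J3 JM hps hf hw hA Aca (fun ω hω hz' => ?_)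
    (crc_of _ (fun i => (li_le _ i).trans hA) fun i => (lkK _ i).trans hr)
  have h1 := cmp ω hω hz'
  have hAa : Ac ≤ c.I.ha := by
    have := c.good.Ab2
    omega
  have h2 : c.RT hm cc c.Q1 b Ac ω = (c.mk2 hm cc in0 hc b w z hz ps o oK oG oN).RC Ac :=
    C1.rcx_eq hw hz hAa hω hz'
  rw [h2] at h1
  exact h1

end hyp

end Vale.Agent.P106.U.MkC2
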