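import Vale.Agent.P106.U.H824.LSide

/-!
# P106 / U / H824 : the second word relative to the start strip (helper824)

`q` and `r0` are not bounded by the number of levels: slopes are measured from the slope `d0.al` of the start strip.

* `alR a = (al_a - d0.al) 2^(d0.k) / 2^(d0.a + 2 m)`, `rR a` = number of line blocks revealed at the last state of
  level `a` (starts at `0`); `datR` : `H785.Dat` with `B = 2^m`, `s = 0`, all numbers relative.
* `gAb a w = d0.al + 2^(d0.a + 2 m) / 2^(d0.k) gC a w` : the slope of the letter; `lvA a = d0.a + m a`,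
  `rkP a R = d0.k + m R - 2 m` its precision.
* `lside_al`, `lside_ka` : outside of `bad2`, the slope and the value of the letter agree with the line of the state.
* `gAb_close`, `gAb_bd` : agreement of two levels, size.
-/

set_option autoImplicit false

namespace Vale.Agent.P106.U.LinkR

open Finset Vale.Agent.P127 Vale.Agent.P127.Stk Vale.Agent.P106.U.H449 Vale.Agent.P106.U.StripL
open Vale.Agent.P106.U.StripE Vale.Agent.P106.U.LinkW2 Vale.Agent.P106.U.LSide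

variable {Ω : Type} [Fintype Ω] {γ ζ₁ ζ₂ : Type}

/-- relative slope of the line of the last state of level `a` -/
noncomputable def alR (m : ℕ) (d0 : Ld) (e : Rl Ω 2 (ℤ × ℤ) γ ζ₁ ζ₂) (P : Law Ω) (n : ℕ)
    (E : List (Lt 2)) (a : ℕ) (ω : Ω) : ℝ :=
  open Classical in
  if e.wd P n ω = E then (aI m d0 (e.T P (ia n E a) ω) - d0.al) * 2 ^ d0.k / 2 ^ (d0.a + 2 * m) else 0

/-- number of revealed blocks of the line at the last state of level `a` -/
noncomputable def rR (n : ℕ) (E : List (Lt 2)) (a : ℕ) : ℕ := lv n E (some 1) (ia n E a)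

section dat

variable {e : Rl Ω 2 (ℤ × ℤ) γ ζ₁ ζ₂} {P Q : Law Ω} {n : ℕ} {E : List (Lt 2)} {q : ℝ}
  {m : ℕ} {d0 : Ld} {t κ : Ω → ℝ}

theorem rR_mono (h : Cn e P Q n E q) : Monotone (rR n E) := by
  intro a b hab
  exact h.lv_mono (some 1) (ia_mono h hab) (ia_le n E b)

theorem alR_bd (h : Cn e P Q n E q) (hL : IsL m d0 t κ e) (hm : 3 ≤ m) (a : ℕ) (ω : Ω) :
    |alR m d0 e P n E a ω| ≤ ((2 : ℝ) ^ m) ^ (a : ℤ) := by
  classical
  unfold alR
  split_ifs with hE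
  · have h1 := al_T (P := P) hL (by omega) (Nat.zero_le (ia n E a)) ω
    have h2 : (ld m d0 (e.T P 0 ω)).al = d0.al := rfl
    have h0 : cnt (some 1) (e.T P 0 ω) = 0 := rfl
    rw [h2, h0, Nat.mul_zero, Nat.add_zero, cnt_of_wd hE (ia_le n E a) none] at h1
    have h3 := lv_ia_le h a
    have e7 : ((2 : ℝ) ^ m) ^ (a : ℤ) = 2 ^ (m * a) := by rw [zpow_natCast, ← pow_mul]
    rw [abs_div, abs_mul, abs_of_pos (by positivity : (0 : ℝ) < 2 ^ d0.k),
      abs_of_pos (by positivity : (0 : ℝ) < 2 ^ (d0.a + 2 * m)), div_le_iff₀ (by positivity), e7]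
    unfold aI
    have h4 : (2 : ℝ) ^ (d0.a + m * lv n E none (ia n E a) + m + 2) *
        (1 / 2 ^ d0.k - 1 / 2 ^ (d0.k + m * cnt (some 1) (e.T P (ia n E a) ω))) ≤
        2 ^ (d0.a + m * a + m + 2) * (1 / 2 ^ d0.k) := by
      have h5 : (0 : ℝ) < 1 / 2 ^ (d0.k + m * cnt (some 1) (e.T P (ia n E a) ω)) := by positivity
      have h7 : (2 : ℝ) ^ (d0.a + m * lv n E none (ia n E a) + m + 2) ≤ 2 ^ (d0.a + m * a + m + 2) := by
        refine pow_le_pow_right₀ (by norm_num) ?_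
        have : m * lv n E none (ia n E a) ≤ m * a := Nat.mul_le_mul_left m h3
        omega
      refine (mul_le_mul_of_nonneg_left (sub_le_self _ h5.le) (by positivity)).trans ?_
      exact mul_le_mul_of_nonneg_right h7 (by positivity)
    have h5 := h1.trans h4
    have h6 : (2 : ℝ) ^ (d0.a + m * a + m + 2) ≤ 2 ^ (m * a) * 2 ^ (d0.a + 2 * m) := by
      rw [← pow_add]
      exact pow_le_pow_right₀ (by norm_num) (by omega)
    calc |(ld m d0 (e.T P (ia n E a) ω)).al - d0.al| * 2 ^ d0.k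
        ≤ 2 ^ (d0.a + m * a + m + 2) * (1 / 2 ^ d0.k) * 2 ^ d0.k :=
          mul_le_mul_of_nonneg_right h5 (by positivity)
      _ = 2 ^ (d0.a + m * a + m + 2) := by field_simp
      _ ≤ _ := h6
  · rw [abs_zero]
    positivity

theorem alR_ag (h : Cn e P Q n E q) (hL : IsL m d0 t κ e) (hm : 3 ≤ m)
    (a : ℕ) (ω : Ω) (hω : 0 < Q.w ω) :
    |alR m d0 e P n E (a + 1) ω - alR m d0 e P n E a ω| ≤
      ((2 : ℝ) ^ m - 1) * ((2 : ℝ) ^ m) ^ ((a : ℤ) + (0 : ℕ) - rR n E a) := by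
  classical
  have hE := h.hE ω hω
  unfold alR
  rw [if_pos hE, if_pos hE, ← sub_div, ← sub_mul, sub_sub_sub_cancel_right, abs_div, abs_mul,
    abs_of_pos (by positivity : (0 : ℝ) < 2 ^ d0.k),
    abs_of_pos (by positivity : (0 : ℝ) < 2 ^ (d0.a + 2 * m)), div_le_iff₀ (by positivity)]
  have h1 := al_T (P := P) hL (by omega) (ia_mono h (Nat.le_succ a)) ω
  rw [cnt_of_wd hE (ia_le n E _) none, cnt_of_wd hE (ia_le n E _) (some 1)] at h1
  have h3 := lv_ia_le h (a + 1)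
  set c1 := lv n E (some 1) (ia n E a) with hc1
  have h4 : (2 : ℝ) ^ (d0.a + m * lv n E none (ia n E (a + 1)) + m + 2) *
      (1 / 2 ^ (d0.k + m * c1) - 1 / 2 ^ (d0.k + m * cnt (some 1) (e.T P (ia n E (a + 1)) ω))) ≤
      2 ^ (d0.a + m * (a + 1) + m + 2) * (1 / 2 ^ (d0.k + m * c1)) := by
    have h5 : (0 : ℝ) < 1 / 2 ^ (d0.k + m * cnt (some 1) (e.T P (ia n E (a + 1)) ω)) := by
      positivity
    have h7 : (2 : ℝ) ^ (d0.a + m * lv n E none (ia n E (a + 1)) + m + 2) ≤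
        2 ^ (d0.a + m * (a + 1) + m + 2) := by
      refine pow_le_pow_right₀ (by norm_num) ?_
      have : m * lv n E none (ia n E (a + 1)) ≤ m * (a + 1) := Nat.mul_le_mul_left m h3
      omega
    refine (mul_le_mul_of_nonneg_left (sub_le_self _ h5.le) (by positivity)).trans ?_
    exact mul_le_mul_of_nonneg_right h7 (by positivity)
  have e1 : ((2 : ℝ) ^ m) ^ ((a : ℤ) + (0 : ℕ) - rR n E a) = 2 ^ (m * a) / 2 ^ (m * c1) := by
    have hne : ((2 : ℝ) ^ m) ≠ 0 := by positivity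
    have e2 : ((a : ℤ) + (0 : ℕ)) = (a : ℤ) := by simp
    rw [e2, zpow_sub₀ hne, zpow_natCast, zpow_natCast, ← pow_mul, ← pow_mul]
    rfl
  rw [e1]
  have h8 : (4 : ℝ) ≤ 2 ^ m - 1 := by
    have : (2 : ℝ) ^ 3 ≤ 2 ^ m := pow_le_pow_right₀ (by norm_num) hm
    norm_num at this
    linarith
  have h9 : (2 : ℝ) ^ (d0.a + m * (a + 1) + m + 2) * (1 / 2 ^ (d0.k + m * c1)) * 2 ^ d0.k =
      4 * (2 ^ (m * a) / 2 ^ (m * c1)) * 2 ^ (d0.a + 2 * m) := by
    have e3 : d0.a + m * (a + 1) + m + 2 = 2 + m * a + (d0.a + 2 * m) := by ring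
    rw [e3, pow_add, pow_add, pow_add 2 d0.k]
    field_simp
    norm_num
  have h10 : (0 : ℝ) < 2 ^ (m * a) / 2 ^ (m * c1) := by positivity
  have h11 : 4 * ((2 : ℝ) ^ (m * a) / 2 ^ (m * c1)) ≤
      (2 ^ m - 1) * (2 ^ (m * a) / 2 ^ (m * c1)) := mul_le_mul_of_nonneg_right h8 h10.le
  calc |aI m d0 (e.T P (ia n E (a + 1)) ω) - aI m d0 (e.T P (ia n E a) ω)| * 2 ^ d0.k
      ≤ 2 ^ (d0.a + m * (a + 1) + m + 2) * (1 / 2 ^ (d0.k + m * c1)) * 2 ^ d0.k :=
        mul_le_mul_of_nonneg_right (h1.trans h4) (by positivity)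
    _ = 4 * (2 ^ (m * a) / 2 ^ (m * c1)) * 2 ^ (d0.a + 2 * m) := h9
    _ ≤ _ := mul_le_mul_of_nonneg_right h11 (by positivity)

/-- **the data of the second word, relative to the start strip** (margin `s = 0`) -/
noncomputable def datR {S : Type*} (h : Cn e P Q n E q) (hL : IsL m d0 t κ e) (hm : 3 ≤ m)
    (W : Ω → S) (c : ℝ) (hc0 : 0 ≤ c) (hc1 : c < 1 / 2) : H785.Dat Ω S where
  P := Q
  W := W
  al := alR m d0 e P n E
  RI := rR n E
  s := 0
  B := 2 ^ m
  c := c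
  hB2 := by
    calc (2 : ℝ) = 2 ^ 1 := by norm_num
      _ ≤ 2 ^ m := pow_le_pow_right₀ (by norm_num) (by omega)
  hc0 := hc0
  hc1 := hc1
  hRI := rR_mono h
  bd := alR_bd h hL hm
  ag := alR_ag h hL hm

end dat

/-! ### absolute values -/

/-- absolute slope from the relative one -/
noncomputable def absl (m : ℕ) (d0 : Ld) (g : ℝ) : ℝ := d0.al + g * (2 ^ (d0.a + 2 * m) / 2 ^ d0.k)

/-- `2^(level a) / 2^(precision)` for the precision `d0.k + m R - 2 m` -/
noncomputable def pr (m : ℕ) (d0 : Ld) (a R : ℕ) : ℝ := 2 ^ (d0.a + m * a + 2 * m) / 2 ^ (d0.k + m * R)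

theorem absl_sub (m : ℕ) (d0 : Ld) (g g' : ℝ) :
    absl m d0 g - absl m d0 g' = (g - g') * (2 ^ (d0.a + 2 * m) / 2 ^ d0.k) := by
  unfold absl
  ring

/-- scaling of the precision -/
theorem scale_pr {m : ℕ} (d0 : Ld) (a R : ℕ) :
    ((2 : ℝ) ^ m) ^ ((a : ℤ) - R) * (2 ^ (d0.a + 2 * m) / 2 ^ d0.k) = pr m d0 a R := by
  have hne : ((2 : ℝ) ^ m) ≠ 0 := by positivity
  unfold pr
  rw [zpow_sub₀ hne, zpow_natCast, zpow_natCast, ← pow_mul, ← pow_mul]
  rw [show d0.a + m * a + 2 * m = m * a + (d0.a + 2 * m) by ring, pow_add 2 (m * a), pow_add 2 d0.k]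
  field_simp

theorem near_absl {m : ℕ} {d0 : Ld} {g g' : ℝ} {a R : ℕ}
    (h : |g - g'| ≤ ((2 : ℝ) ^ m) ^ ((a : ℤ) - R)) : |absl m d0 g - absl m d0 g'| ≤ pr m d0 a R := by
  have h0 : (0 : ℝ) < 2 ^ (d0.a + 2 * m) / 2 ^ d0.k := by positivity
  rw [absl_sub, abs_mul, abs_of_pos h0, ← scale_pr]
  exact mul_le_mul_of_nonneg_right h h0.le

section side

variable {S : Type*} {e : Rl Ω 2 (ℤ × ℤ) γ ζ₁ ζ₂} {P Q Q2 : Law Ω} {n : ℕ} {E : List (Lt 2)} {q : ℝ}
  {m : ℕ} {d0 : Ld} {t κ : Ω → ℝ}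

/-- the slope of the state from the relative slope -/
theorem aI_alR (h : Cn e P Q n E q) (a : ℕ) {ω : Ω} (hω : 0 < Q.w ω) :
    aI m d0 (e.T P (ia n E a) ω) = absl m d0 (alR m d0 e P n E a ω) := by
  classical
  unfold alR absl
  rw [if_pos (h.hE ω hω)]
  field_simp
  ring

/-- the slope of the letter of level `a` (function of the variable `W`) -/
noncomputable def gAb (m : ℕ) (d0 : Ld) (d : H785.Dat Ω S) (a : ℕ) (w : S) : ℝ := absl m d0 (d.gC a w)

variable (h : Cn e P Q n E q) (hL : IsL m d0 t κ e) (hm : 3 ≤ m) (W : Ω → S) (c : ℝ) (hc0 : 0 ≤ c)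
  (hc1 : c < 1 / 2)

/-- **slope** : outside of `bad2` the slope of the letter agrees with the slope of the state -/
theorem lside_al (a : ℕ) {ω : Ω} (hω : 0 < Q.w ω)
    (hb : ¬ bad2 (datR h hL hm W c hc0 hc1) a ω) :
    |aI m d0 (e.T P (ia n E a) ω) - gAb m d0 (datR h hL hm W c hc0 hc1) a (W ω)| ≤
      pr m d0 a ((datR h hL hm W c hc0 hc1).RW a (W ω)) := by
  rw [aI_alR h a hω]
  exact near_absl (not_lt.1 hb)

/-- **value** : outside of `bad2` the value at the time `x` of the line with the slope of the letter through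
`(t, κ)` agrees with the value of the line of the state -/
theorem lside_ka (a : ℕ) {ω : Ω} (hω : 0 < Q.w ω)
    (hb : ¬ bad2 (datR h hL hm W c hc0 hc1) a ω) (x : ℝ)
    (hx : |x - t ω| ≤ 1 / 2 ^ (d0.a + m * a)) :
    |κ ω + gAb m d0 (datR h hL hm W c hc0 hc1) a (W ω) * (x - t ω) -
        kI m d0 (e.T P (ia n E a) ω) x| ≤
      1 / 2 ^ (d0.k + m * rR n E a) +
        2 ^ (2 * m) / 2 ^ (d0.k + m * (datR h hL hm W c hc0 hc1).RW a (W ω)) := by
  have h1 := kI_trans h hL (ia_le n E a) hω (gAb m d0 (datR h hL hm W c hc0 hc1) a (W ω)) x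
  have h2 := lside_al h hL hm W c hc0 hc1 a hω hb
  rw [abs_sub_comm] at h2
  refine h1.trans (add_le_add le_rfl ?_)
  refine (mul_le_mul h2 hx (abs_nonneg _) ?_).trans (le_of_eq ?_)
  · unfold pr
    positivity
  · unfold pr
    rw [show d0.a + m * a + 2 * m = (d0.a + m * a) + 2 * m by ring, pow_add 2 (d0.a + m * a)]
    field_simp

theorem datR_supp {A : ℕ} {E2 : Fin (A + 1) → ℕ}
    (h2 : (datR h hL hm W c hc0 hc1).Cnd2 Q2 A E2) {ω : Ω} (hω : 0 < Q2.w ω) : 0 < Q.w ω :=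
  h2.ac ω hω

/-- **size of the slope of the letter** -/
theorem gAb_bd (a : ℕ) {ω : Ω} (hω : 0 < Q.w ω) :
    |gAb m d0 (datR h hL hm W c hc0 hc1) a (W ω) - d0.al| ≤
      2 * (2 ^ (d0.a + m * a + 2 * m) / 2 ^ d0.k) := by
  classical
  set d := datR h hL hm W c hc0 hc1 with hd
  -- a point with the same `W` outside of the exceptional event
  have hw : 0 < Q.pr W (W ω) := Q.pr_pos W hω
  have h1 := d.gC_spec a (W ω)
  have hc' : d.c = c := rfl
  have h2 : 0 < d.ms d.P a (d.RW a (W ω)) (d.gC a (W ω)) (W ω) := by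
    have : (0 : ℝ) < (1 - d.c) * d.P.pr d.W (W ω) := mul_pos (by rw [hc']; linarith) hw
    linarith
  obtain ⟨ω', hω', hp⟩ : ∃ ω', 0 < Q.w ω' ∧ |alR m d0 e P n E a ω' - d.gC a (W ω)| ≤
      ((2 : ℝ) ^ m) ^ ((a : ℤ) - d.RW a (W ω)) := by
    by_contra hcon
    push Not at hcon
    have : d.ms d.P a (d.RW a (W ω)) (d.gC a (W ω)) (W ω) ≤ 0 := by
      unfold H785.Dat.ms Law.ex
      refine Finset.sum_nonpos fun ω' _ => ?_
      beta_reduce
      rcases (d.P.nn ω').eq_or_lt with h0 | h0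
      · rw [← h0, zero_mul]
      · have h3 := hcon ω' h0
        rw [Law.ind_not (fun h => absurd h.2 (not_le.2 h3)), mul_zero]
    linarith
  have h3 := alR_bd h hL hm a ω'
  have h4 : ((2 : ℝ) ^ m) ^ ((a : ℤ) - d.RW a (W ω)) ≤ ((2 : ℝ) ^ m) ^ (a : ℤ) :=
    zpow_le_zpow_right₀ (one_le_pow₀ (by norm_num)) (by omega)
  have h5 : |d.gC a (W ω)| ≤ 2 * ((2 : ℝ) ^ m) ^ (a : ℤ) := by
    have e1 : d.gC a (W ω) = alR m d0 e P n E a ω' - (alR m d0 e P n E a ω' - d.gC a (W ω)) := by ring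
    rw [e1]
    refine (abs_sub _ _).trans ?_
    linarith
  unfold gAb absl
  rw [add_sub_cancel_left, abs_mul, abs_of_pos (by positivity : (0 : ℝ) < 2 ^ (d0.a + 2 * m) / 2 ^ d0.k)]
  refine (mul_le_mul_of_nonneg_right h5 (by positivity)).trans (le_of_eq ?_)
  rw [zpow_natCast, ← pow_mul, show d0.a + m * a + 2 * m = m * a + (d0.a + 2 * m) by ring,
    pow_add 2 (m * a)]
  ring

/-- **agreement of two levels** -/
theorem gAb_close (a k : ℕ) {ω : Ω} (hω : 0 < Q.w ω) :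
    |gAb m d0 (datR h hL hm W c hc0 hc1) (a + k) (W ω) -
        gAb m d0 (datR h hL hm W c hc0 hc1) a (W ω)| ≤
      4 * pr m d0 (a + k) ((datR h hL hm W c hc0 hc1).RW a (W ω)) := by
  set d := datR h hL hm W c hc0 hc1 with hd
  have h1 := d.gC_close_multi a (w := W ω) (Q.pr_pos W hω) (Nat.zero_le _) k
  unfold gAb
  rw [absl_sub, abs_mul, abs_of_pos (by positivity : (0 : ℝ) < 2 ^ (d0.a + 2 * m) / 2 ^ d0.k),
    ← scale_pr, ← mul_assoc]
  exact mul_le_mul_of_nonneg_right h1 (by positivity)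

end side

end Vale.Agent.P106.U.LinkR
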