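import Vale.Agent.P106.U.H824.InpW
import Vale.Agent.P106.U.H449.RayRun

/-!
# P106 / U / H824 : assembly of `S3.Run.Ok` (helper824)

`ok_of` : the record `R` with the ray side `HasU` (helper449), the cells `inp` over the closure (`Hw`), the path (helper823):
all fields of `Run.Ok`.  Remaining hypotheses: the system, the weight, the price of `W'`, the numbers.
-/

set_option autoImplicit false

namespace Vale.Agent.P106.U.OkW

open Finset Vale.Agent.P127 Vale.Agent.P127.Stk Vale.Agent.P106.U.H449 Vale.Agent.P106.U.StripL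
open Vale.Agent.P106.U.StripE Vale.Agent.P106.U.LinkW2 Vale.Agent.P106.U.LSide Vale.Agent.P106.U.LinkR
open Vale.Agent.P127.U.CellD (q2 rd q2_pos q2_le rd_err q2_mul_pow)
open Vale.Agent.P106.U.Cell Vale.Agent.P106.U.S3.PthW Vale.Agent.P106.U.PrT Vale.Agent.P106.U.InpR
open Vale.Agent.P106.U.InpC Vale.Agent.P106.U.H823.PathNum Vale.Agent.P106.U.InpW
open Vale.Agent.P106.K (Ry RyOk)
open Vale.Agent.P106.W
open Vale.Agent.P106.U.H786.Adp (FW toR toF fuW FW_ka FW_al)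
open Vale.Agent.P106.U.H465.FWn (FWok XcW NcW pW FW_fn)

variable {Ω : Type} [Fintype Ω]

/-- larger class -/
theorem ok_mono {τ : Type} {C : Pth Ω τ} {K K' : ℝ} {ω : Ω} (h : C.Ok K ω) (hK : K ≤ K') (h0 : 0 ≤ K) : C.Ok K' ω where
  v1 := h.v1
  w1 := h.w1
  p1 := h.p1
  n1 := fun i => by
    have h1 := h.n1 i
    have h2 : 0 ≤ (C.F i ω).cN (C.l ω) (C.s i ω) := by
      by_contra hcon
      push Not at hcon
      nlinarith
    exact h1.trans (mul_le_mul_of_nonneg_right hK h2)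
  n2 := fun i => (h.n2 i).trans hK
  k1 := fun i => (h.k1 i).trans hK
  a1 := fun i => (h.a1 i).trans hK
  ag := fun i j hij => by
    have h1 := h.ag i j hij
    have hq := (q2_pos (C.rk i)).le
    exact ⟨h1.cN.trans (mul_le_mul_of_nonneg_right hK hq), h1.ka.trans (mul_le_mul_of_nonneg_right hK hq),
      h1.al.trans (mul_le_mul_of_nonneg_right hK hq)⟩

theorem agr_mono {K K' : ℝ} {r A : ℕ} {F G : Fu} {l : Cell.Ray} {s : ℝ} (h : Pth.Agr K r A F G l s) (hK : K ≤ K') :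
    Pth.Agr K' r A F G l s := by
  have hq := (q2_pos r).le
  exact ⟨h.cN.trans (mul_le_mul_of_nonneg_right hK hq), h.ka.trans (mul_le_mul_of_nonneg_right hK hq),
    h.al.trans (mul_le_mul_of_nonneg_right hK hq)⟩

variable {m κ0 : ℕ} {d0 : Ld} {Md : ℕ} {P : Law Ω} {p : Pm} {thr : ℝ} {E : List (Lt 2)} {Q : Law Ω} {q' : ℝ} {D : PN}
  {R : S3.Run Ω (List (ℤ × ℤ × ℤ × ℤ)) (ℤ × S1)} {p' : S3.Run.Num} {θ : ℝ} {h q Rm A' μ : ℕ} {ry : Ω → Ry}
  {t : Ω → ℝ} {W : Ω → Cbx} {A : ℕ} {G : Ω → Set Ω} {RC : ℕ → ℕ} {g : ℕ → Ω → ℝ} {c : ℝ} {s Ac rc : ℕ} {o : Fin 7 → ℝ}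
  {oK oG oN : ℝ}

/-- the rule of word 1 of the label -/
noncomputable def eW (m κ0 : ℕ) (d0 : Ld) (θ : ℝ) (h : ℕ) (ry : Ω → Ry) (t : Ω → ℝ) (W : Ω → Cbx) (Md : ℕ)
    (P : Law Ω) (p : Pm) (thr : ℝ) : Rl Ω 2 (ℤ × ℤ) (Option (ℤ × ℤ)) (Ry × ℤ) Unit :=
  Ray.e1 m κ0 d0 (fun ω => rd h (t ω)) (fun ω => (FW θ h (W ω) (t ω)).ka)
    (fun ω => pW θ h (W ω) (ry ω) (t ω)) ry Md P p thr

/-- the run has the ray side of word 1 of the label and the cells of the closure -/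
structure HasW (m κ0 : ℕ) (d0 : Ld) (θ : ℝ) (h q Rm A' μ : ℕ) (ry : Ω → Ry) (t : Ω → ℝ) (W : Ω → Cbx) (Md : ℕ)
    (P : Law Ω) (p : Pm) (thr : ℝ) (E : List (Lt 2)) (Q : Law Ω) (q' : ℝ) (D : PN) (A : ℕ) (G : Ω → Set Ω)
    (RC : ℕ → ℕ) (g : ℕ → Ω → ℝ) (c : ℝ) (s Ac rc : ℕ) (o : Fin 7 → ℝ) (oK oG oN : ℝ)
    (R : S3.Run Ω (List (ℤ × ℤ × ℤ × ℤ)) (ℤ × S1)) (p' : S3.Run.Num) : Prop where
  U : Ray.HasU m κ0 d0 (fun ω => rd h (t ω)) (fun ω => (FW θ h (W ω) (t ω)).ka)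
    (fun ω => pW θ h (W ω) (ry ω) (t ω)) ry Md P p thr E Q q' D R p'
  w : Hw D θ h q Rm A' μ ry t W m κ0 d0 (eW m κ0 d0 θ h ry t W Md P p thr) P p.n E Q q' A G RC g c s Ac rc
  eθ : R.θ = θ
  eh : R.h = h
  eq : R.q = q
  et : R.t = t
  eW' : R.W = W
  eFW : R.FW = fun ω => FW θ h (W ω) (t ω)
  eC : R.C = (inp D θ h μ o oK oG oN ry t W m d0 g).pth
  eG : R.W' = G
  eA : p'.A' = A'
  s2 : s + 2 ≤ p'.s

namespace HasW

variable (H : HasW m κ0 d0 θ h q Rm A' μ ry t W Md P p thr E Q q' D A G RC g c s Ac rc o oK oG oN R p')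

include H

theorem ZT (j : ℕ) :
    Fn Q (fun ω => (eW m κ0 d0 θ h ry t W Md P p thr).T P (ia p.n E (D.li j)) ω) (R.Z j) := by
  rw [H.U.Zeq]
  intro ω ω' _ _ e
  have h1 := (Prod.mk.inj e).2
  exact congrArg Prod.snd h1

theorem ls (N : ℕ) : LS (inp D θ h μ o oK oG oN ry t W m d0 g) Q R.Z
      (fun j ω => kI m d0 ((eW m κ0 d0 θ h ry t W Md P p thr).T P (ia p.n E (D.li j)) ω) (rd (D.la j) (t ω)))
      (fun j ω => - aI m d0 ((eW m κ0 d0 θ h ry t W Md P p thr).T P (ia p.n E (D.li j)) ω))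
      (fun _ _ => False) 6 3 A' q N := by
  have hC : ∀ j, R.C.a j = D.la j := fun j => by rw [H.eC]; rfl
  have hf : ∀ j, R.C.rf j = D.lf j := fun j => by rw [H.eC]; rfl
  have hp : R.C.p = fun ω => pW θ h (W ω) (ry ω) (t ω) := by rw [H.eC]; rfl
  refine H.w.ls N R.Z (fun j _ => H.ZT j) (fun j _ => ?_) (fun j _ => ?_) (fun j _ => ?_)
  · rw [H.U.Zeq]
    intro ω ω' _ _ e
    exact (Prod.mk.inj e).1
  · have h1 := H.U.Ut j
    rw [H.U.eQ, hC, H.et] at h1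
    exact h1
  · have h1 := H.U.Uf j
    rw [H.U.eQ, hf, hp] at h1
    exact h1

/-- the slope of the ray side -/
theorem al_eq (j : ℕ) (ω : Ω) : R.al j ω =
    - aI m d0 ((eW m κ0 d0 θ h ry t W Md P p thr).T P (ia p.n E (D.li j)) ω) := by
  rw [H.U.eal]
  rfl

/-- **assembly** -/
theorem ok {K c' g' gU : ℝ} (path : R.Path p') (hK : 648 ≤ K) (hc : c = c') (hc0 : 0 ≤ c')
    (sys : ∀ ω, 0 < R.Q.w ω → RyOk (R.ry ω) ∧ 0 ≤ R.t ω ∧ R.t ω ≤ 1) (pos : 0 < R.pw)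
    (dom : ∀ ω, R.pw * R.Q.w ω ≤ R.P.w ω) (W0 : Fn R.Q (R.F R.b1) R.W') (prW : Stk.hc R.Q R.W' (R.F R.b1) ≤ gU)
    (prT : 3 * LS.Lg 6 3 * ((R.n + p'.J : ℕ) + 1) ≤ g')
    (prU : Stk.hc R.Q (R.U 0) R.ry + ∑ i ∈ range (R.n + p'.J), Stk.hc R.Q (R.U (i + 1))
      (fun ω => (R.Z i ω, fl1 (R.C.a (i + 1)) (R.t ω))) ≤ gU) : R.Ok p' K c' g' gU := by
  have hQ := H.U.eQ
  have hry := H.U.ery
  have w := H.w
  have hla : ∀ j, R.C.a j = D.la j := fun j => by rw [H.eC]; rfl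
  have hlk : ∀ j, R.C.rk j = D.lk j := fun j => by rw [H.eC]; rfl
  have hm : R.m = m := by rw [H.U.has.m, H.U.Dm]
  refine
    { pth := path, sys := sys, pos := pos, dom := dom, Cl := ?_, Ct := ?_, FWf := ?_, FWW := ?_, FWn := ?_,
      Cp := ?_, ok := ?_, agW := ?_, alW := ?_, W0 := W0, prW := prW, fnT := ?_, Um := H.U.Um,
      Ut := fun i _ => H.U.Ut i, Uf := fun i _ => H.U.Uf i, Ua := fun i _ => H.U.Ua i, Jf := H.U.Jf,
      JV := fun i hi hA _ => H.U.JV i hi hA, alB := fun i _ => H.U.alB (by have := w.al0; linarith) i,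
      alD := fun i j hij _ => H.U.alD (by linarith) i j hij,
      lin := fun i _ ω ω' hω _ e => H.U.lin (by linarith) i ω ω' hω e, kno := ?_, unk := ?_, prT := ?_,
      prU := prU }
  · intro ω
    rw [H.eC, H.eθ, hry]
    rfl
  · intro ω
    rw [H.eC, H.et]
    rfl
  · intro ω ω' _ _ e
    have e1 := (Prod.mk.inj (Prod.mk.inj e).1)
    rw [H.eW', H.eh, H.et] at e1
    rw [H.eFW]
    exact FW_fn e1.1 e1.2
  · intro ω _
    refine ⟨1, by rw [abs_one]; linarith, by rw [abs_one]; linarith, ?_⟩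
    rw [one_mul, one_mul, one_mul, one_mul, H.eFW]
    unfold S3.Run.tW
    rw [H.eθ, H.eh, H.eW', H.et]
    rfl
  · intro ω hω
    rw [hQ] at hω
    unfold S3.Run.tW
    rw [H.eFW, H.eC, H.eh, H.et, H.eq]
    refine (w.fw ω hω).unit.trans ?_
    have := q2_pos q
    nlinarith
  · intro ω hω
    rw [hQ] at hω
    unfold S3.Run.tW
    rw [H.eFW, H.eC, H.eh, H.et]
    exact (w.fw ω hω).cp
  · intro ω hω
    rw [hQ] at hω
    rw [H.eC]
    exact ok_mono (w.ok hω) hK (by norm_num)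
  · intro ω hω i _
    rw [hQ] at hω
    unfold S3.Run.tW
    rw [H.eFW, H.eC, H.eh, H.et, H.eA]
    exact agr_mono (w.agW hω i) hK
  · intro ω hω
    rw [hQ] at hω
    rw [H.eFW, H.eA]
    exact (w.alW hω).trans (by linarith)
  · intro i _
    rw [H.eC, hQ, H.eG]
    have e0 : Fn Q (fun ω => (W ω, fl1 h (t ω))) G := by
      intro ω ω' hω hω' e
      rw [hQ, H.eG] at W0
      have e1 := (Prod.mk.inj (W0 ω ω' hω hω' e)).1
      rw [H.eW', H.eh, H.et] at e1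
      exact e1
    refine fnT_of w.gc (inp D θ h μ o oK oG oN ry t W m d0 g) D.li (fun j _ => (w.li j).trans w.AA) (fun _ _ _ _ => rfl)
      G (fun _ _ _ _ e => e) (fun ω ω' hω hω' e => ?_) (fun ω ω' hω hω' e => ?_) (fun ω ω' hω hω' e => ?_)
      (fun ω ω' hω hω' e => ?_)
    · exact Vale.Agent.P127.U.CellD.fl1_fl1 ((w.la_le i).trans w.A'h) (Prod.mk.inj (e0 ω ω' hω hω' e)).2
    · have e1 := Prod.mk.inj (e0 ω ω' hω hω' e)
      exact FW_fn e1.1 e1.2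
    · have e1 := (Prod.mk.inj (e0 ω ω' hω hω' e)).2
      show rd h (t ω) = rd h (t ω')
      unfold rd
      rw [e1]
    · have e1 := (Prod.mk.inj (e0 ω ω' hω hω' e)).1
      show NcW θ h (W ω) = NcW θ h (W ω')
      rw [e1]
  · intro i hi
    have h1 := kno_of (H.ls (R.n + p'.J)) hi (K' := K) (by linarith)
    refine le_trans (le_of_eq ?_) (h1.trans hc0)
    rw [hQ]
    congr 1
    funext ω
    rw [H.al_eq, H.eC]
    rfl
  · intro i hi hA hlt ω hω x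
    have hN := H.U.has.N
    have hiN : i < D.N := by omega
    obtain ⟨-, h2⟩ := H.U.has.lev_of_isA hiN hA
    have h3 : D.L.k (D.ix i) = RC (D.li i) := by
      rw [← w.DR _ (w.li i), D.li_eq hiN.le, D.ix_eq hiN.le]
      exact h2
    have h4 : R.C.rk i = m * (κ0 - 2 + RC (D.li i)) := by rw [hlk, w.lk_eq, h3]
    have h5 : R.rI i = m * (κ0 + rR p.n E (D.li i)) := H.U.rI i
    rw [h4, h5, hm] at hlt
    have h6 : RC (D.li i) + s + 1 ≤ rR p.n E (D.li i) := by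
      have e1 : m * (κ0 - 2 + RC (D.li i)) + p'.s * m = m * (κ0 - 2 + RC (D.li i) + p'.s) := by ring
      rw [e1] at hlt
      have h7 := Nat.lt_of_mul_lt_mul_left hlt
      have h8 := H.s2
      have h9 := w.κ2
      omega
    rw [hQ] at hω
    have h7 := unk_of w.cn w.gc w.κ2 w.k0 w.a0 ((w.li i).trans w.AA) h6 hω x
    rw [hQ, H.eG, ← hc, h4, hm, hla, w.la_eq]
    refine lt_of_le_of_lt (le_of_eq ?_) h7
    congr 1
    funext ω'
    rw [H.al_eq]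
  · have h1 := prT_of (H.ls (R.n + p'.J)) (m' := m) (fun i hi => by
      have h2 := path.stp i hi
      rw [hm, hlk, hlk] at h2
      show D.lk (i + 1) ≤ D.lk i + m
      omega)
    rw [hQ, H.eC]
    exact h1.trans prT

end HasW

end Vale.Agent.P106.U.OkW
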