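import Vale.Agent.P106.U.H122.SmC
import Vale.Agent.P106.U.H661.SPair

/-!
# P106 / U / H824 : two caps on a plateau of the local word, the paths of the run (row [S1] of helper661; helper824)

* `lv_plat`, `J_plat` : two unit-step paths with the same own slope and the same line on the levels `[u, a]`.
* `n_plat`, `N_plat` : the stops.
* `Plat` : one `C1`, two words `w` (function of `w'`), two caps `b ≤ b'`, a point `ω0`, the same second path on the levels `[u, a]`.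
* `Plat.rc`, `Plat.rc_le` : the precisions; `Plat.lev`, `Plat.n`, `Plat.N` : levels and stops; `Plat.near`, `same`, `sameC` :
  `NearK`, `SameI`, `SameC`; `Plat.fnX`, `fnX2`, `fnG` : the prefix letters and the slopes.
-/

set_option autoImplicit false

namespace Vale.Agent.P106.U.SPlat

open Finset Vale.Agent.P127 Vale.Agent.P127.Stk Vale.Agent.P127.U Vale.Agent.P106.W
open Vale.Agent.P106.K (Ry RyOk bl Bin)
open Vale.Agent.P127.U.CellD (q2 rd)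
open Vale.Agent.P106.U Vale.Agent.P106.U.H449 Vale.Agent.P106.U.StripL Vale.Agent.P106.U.StripE
open Vale.Agent.P106.U.LinkR Vale.Agent.P106.U.InsL Vale.Agent.P106.U.InpC Vale.Agent.P106.U.H565
open Vale.Agent.P106.U.LinkW2
open Vale.Agent.P106.U.H823.NumW Vale.Agent.P106.U.H823.PathNum Vale.Agent.P106.U.H823.NumG
open Vale.Agent.P106.U.H823.PathP
open Vale.Agent.P106.U.H428.Cls (Dt)
open Vale.Agent.P106.U.H101.TN
open Vale.Agent.P106.U.H661.SPair (NearK SameC)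

/-! ### the unit-step paths -/

section lv

variable {L L' : Lv} {u a : ℕ}

/-- the indices of the `a`-steps -/
theorem J_plat (hF : ∀ v, L.F v = L'.F v) {v : ℕ} (hR : L.R v = L'.R v) : L.J v = L'.J v := by
  unfold Lv.J
  rw [hF, hR]

/-- **the triple** on `(J u, J a]` -/
theorem lv_plat (hF : ∀ v, L.F v = L'.F v) (hR : ∀ v, u ≤ v → v ≤ a → L.R v = L'.R v) {x : ℕ} (h1 : L.J u < x)
    (h2 : x ≤ L.J a) : L.lev x = L'.lev x ∧ L.f x = L'.f x ∧ L.k x = L'.k x ∧ u < L.lev x ∧ L.lev x ≤ a := by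
  have ha : L.lev x ≤ a := L.lev_le h2
  have hu : u < L.lev x := by
    by_contra h
    have h3 := L.J_mono.monotone (not_lt.1 h)
    have h4 := L.le_J_lev x
    omega
  have e1 : L'.lev x = L.lev x := by
    refine L'.lev_iff.2 ⟨Or.inr ?_, ?_⟩
    · rw [← J_plat hF (hR (L.lev x - 1) (by omega) (by omega))]
      exact L.J_lt_of_lt (by omega)
    · rw [← J_plat hF (hR (L.lev x) (by omega) ha)]
      exact L.le_J_lev x
  have e2 : L.Rm (L.lev x) = L'.Rm (L.lev x) := by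
    unfold Lv.Rm
    rw [if_neg (by omega), if_neg (by omega)]
    exact hR _ (by omega) (by omega)
  have e3 : L.f x = L'.f x := by
    unfold Lv.f
    rw [e1, hF, e2]
  refine ⟨e1.symm, e3, ?_, hu, ha⟩
  unfold Lv.k
  rw [e1, e3]

end lv

/-! ### the stops -/

theorem n_iff (D : PN) {x : ℕ} (hx : 0 < x) :
    x ≤ D.n ↔ D.m * D.L.lev (x - 1) < D.Ad ∧ D.r0 + D.m * D.L.k (x - 1) < D.QK := by
  constructor
  · intro h
    exact D.n_stop (by omega)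
  · intro h
    by_contra hcon
    have h1 : D.n ≤ x - 1 := by omega
    have h2 := Nat.mul_le_mul_left D.m (D.L.lev_mono h1)
    have h3 := Nat.mul_le_mul_left D.m (D.L.k_mono h1)
    rcases D.n_spec with h4 | h4 <;> omega

section pn

variable {D D' : PN} {u a : ℕ}

/-- the same data except for the second word -/
structure SmD (D D' : PN) : Prop where
  F : ∀ v, D.F v = D'.F v
  m : D.m = D'.m
  r0 : D.r0 = D'.r0
  o : D.o = D'.o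
  J : D.J = D'.J
  Ad : D.Ad = D'.Ad
  QK : D.QK = D'.QK

variable (h : SmD D D') (hR : ∀ v, u ≤ v → v ≤ a → D.R v = D'.R v)

include h

theorem SmD.LF (v : ℕ) : D.L.F v = D'.L.F v := by
  show D.F v + D.o = D'.F v + D'.o
  rw [h.F, h.o]

include hR

/-- **the stop** -/
theorem n_plat {x : ℕ} (h1 : D.L.J u + 1 < x) (h2 : x ≤ D.L.J a + 1) : x ≤ D.n ↔ x ≤ D'.n := by
  rw [n_iff D (by omega), n_iff D' (by omega)]
  obtain ⟨e1, _, e3, _⟩ := lv_plat (L := D.L) (L' := D'.L) h.LF hR (x := x - 1) (by omega) (by omega)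
  rw [e1, e3, h.m, h.r0, h.Ad, h.QK]

/-- **the number of steps** -/
theorem N_plat {x : ℕ} (h1 : D.L.J u + D.J + 1 < x) (h2 : x ≤ D.L.J a + 1) : x ≤ D.N ↔ x ≤ D'.N := by
  have e1 := n_plat h hR (x := x - D.J) (by omega) (by omega)
  have e2 := h.J
  have e3 : D.N = D.n + D.J := rfl
  have e4 : D'.N = D'.n + D'.J := rfl
  rw [e3, e4]
  omega

end pn

/-! ### the two data at the caps -/

section plat

variable {Ω : Type} [Fintype Ω]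

/-- **a plateau** : the same second path on the levels `[u, a]`, at the point `ω0` -/
structure Plat (c : C1 Ω) (hm : 3 ≤ c.I.m) (cc : ℝ) (b b' : ℕ) {V V' : Type} (w : Ω → V) (w' : Ω → V') (ω0 : Ω)
    (u a : ℕ) : Prop where
  hw : ∀ ω ω', 0 < c.Q1.w ω → 0 < c.Q1.w ω' → w ω = w ω' → ∀ v ≤ c.I.ha,
    c.RT hm cc c.Q1 b v ω = c.RT hm cc c.Q1 b v ω'
  hw' : ∀ ω ω', 0 < c.Q1.w ω → 0 < c.Q1.w ω' → w' ω = w' ω' → ∀ v ≤ c.I.ha,
    c.RT hm cc c.Q1 b' v ω = c.RT hm cc c.Q1 b' v ω'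
  hn : Fn c.Q1 w w'
  hb : b ≤ b'
  h0 : 0 < c.Q1.w ω0
  ha : a ≤ c.I.ha
  hR : ∀ v, u ≤ v → v ≤ a → c.RT hm cc c.Q1 b v ω0 = c.RT hm cc c.Q1 b' v ω0

namespace Plat

variable {c : C1 Ω} {hm : 3 ≤ c.I.m} {cc : ℝ} {in0 : ∀ ω, c.d0.In (c.tW ω) (c.κ ω)} {hc : 0 ≤ cc} {b b' : ℕ}
  {V V' : Type} {w : Ω → V} {w' : Ω → V'} {ω0 : Ω} {u a : ℕ} {hz : 0 < c.Q1.pr w (w ω0)}
  {hz' : 0 < c.Q1.pr w' (w' ω0)} {ps : ℕ} {o : Fin 7 → ℝ} {oK oG oN : ℝ}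
  (H : Plat c hm cc b b' w w' ω0 u a)

include H

theorem z : 0 < c.Q1.pr w (w ω0) := c.Q1.pr_pos w H.h0
theorem z' : 0 < c.Q1.pr w' (w' ω0) := c.Q1.pr_pos w' H.h0

/-- the support of the later law is in the support of the earlier law -/
theorem sup {ω : Ω} (hω : 0 < (c.mk2 hm cc in0 hc b' w' (w' ω0) hz' ps o oK oG oN).Q.w ω) : 0 < c.Q1.w ω ∧ w ω = w ω0 ∧ w' ω = w' ω0 := by
  obtain ⟨h1, h2⟩ := C1.mk2_sup hω
  exact ⟨h1, H.hn ω ω0 h1 H.h0 h2, h2⟩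

theorem sup1 {ω : Ω} (hω : 0 < (c.mk2 hm cc in0 hc b' w' (w' ω0) hz' ps o oK oG oN).Q.w ω) : 0 < (c.mk2 hm cc in0 hc b w (w ω0) hz ps o oK oG oN).Q.w ω := by
  classical
  obtain ⟨h1, h2, _⟩ := H.sup hω
  show 0 < (c.Q1.cond w (w ω0)).w ω
  rw [c.Q1.cond_w w (w ω0) (H.z), if_pos h2]
  exact div_pos h1 H.z

/-- **the precisions** : the same on the plateau -/
theorem rc {v : ℕ} (h1 : u ≤ v) (h2 : v ≤ a) : (c.mk2 hm cc in0 hc b w (w ω0) hz ps o oK oG oN).RC v = (c.mk2 hm cc in0 hc b' w' (w' ω0) hz' ps o oK oG oN).RC v := by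
  have e1 := C1.rcx_eq H.hw H.z (h2.trans H.ha) H.h0 rfl
  have e2 := C1.rcx_eq H.hw' H.z' (h2.trans H.ha) H.h0 rfl
  show c.rcx hm cc b w (w ω0) v = c.rcx hm cc b' w' (w' ω0) v
  rw [← e1, ← e2, H.hR v h1 h2]

/-- **the precisions grow with the cap** -/
theorem rc_le (v : ℕ) : (c.mk2 hm cc in0 hc b w (w ω0) hz ps o oK oG oN).RC v ≤ (c.mk2 hm cc in0 hc b' w' (w' ω0) hz' ps o oK oG oN).RC v :=
  C1.rcx_mono H.hb H.hw H.hw' H.z H.z' (fun ω h1 h2 => H.hn ω ω0 h1 H.h0 h2) v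

omit H in
/-- the data of the paths -/
theorem smD : SmD (c.mk2 hm cc in0 hc b w (w ω0) hz ps o oK oG oN).D (c.mk2 hm cc in0 hc b' w' (w' ω0) hz' ps o oK oG oN).D where
  F := fun _ => rfl
  m := rfl
  r0 := rfl
  o := rfl
  J := rfl
  Ad := rfl
  QK := rfl

/-- the second word on the plateau -/
theorem DR (v : ℕ) (h1 : u ≤ v) (h2 : v ≤ a) : (c.mk2 hm cc in0 hc b w (w ω0) hz ps o oK oG oN).D.R v = (c.mk2 hm cc in0 hc b' w' (w' ω0) hz' ps o oK oG oN).D.R v :=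
  show (c.mk2 hm cc in0 hc b w (w ω0) hz ps o oK oG oN).RC v = (c.mk2 hm cc in0 hc b' w' (w' ω0) hz' ps o oK oG oN).RC v from H.rc h1 h2

/-- **the indices of the `a`-steps** -/
theorem J {v : ℕ} (h1 : u ≤ v) (h2 : v ≤ a) : (c.mk2 hm cc in0 hc b w (w ω0) hz ps o oK oG oN).D.L.J v = (c.mk2 hm cc in0 hc b' w' (w' ω0) hz' ps o oK oG oN).D.L.J v :=
  J_plat (L := (c.mk2 hm cc in0 hc b w (w ω0) hz ps o oK oG oN).D.L) (L' := (c.mk2 hm cc in0 hc b' w' (w' ω0) hz' ps o oK oG oN).D.L) (SmD.LF smD) (show (c.mk2 hm cc in0 hc b w (w ω0) hz ps o oK oG oN).RC v = (c.mk2 hm cc in0 hc b' w' (w' ω0) hz' ps o oK oG oN).RC v from H.rc h1 h2)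

/-- **the triple** -/
theorem lev {x : ℕ} (h1 : (c.mk2 hm cc in0 hc b w (w ω0) hz ps o oK oG oN).D.L.J u < x) (h2 : x ≤ (c.mk2 hm cc in0 hc b w (w ω0) hz ps o oK oG oN).D.L.J a) :
    (c.mk2 hm cc in0 hc b w (w ω0) hz ps o oK oG oN).D.L.lev x = (c.mk2 hm cc in0 hc b' w' (w' ω0) hz' ps o oK oG oN).D.L.lev x ∧ (c.mk2 hm cc in0 hc b w (w ω0) hz ps o oK oG oN).D.L.f x = (c.mk2 hm cc in0 hc b' w' (w' ω0) hz' ps o oK oG oN).D.L.f x ∧ (c.mk2 hm cc in0 hc b w (w ω0) hz ps o oK oG oN).D.L.k x = (c.mk2 hm cc in0 hc b' w' (w' ω0) hz' ps o oK oG oN).D.L.k x ∧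
      u < (c.mk2 hm cc in0 hc b w (w ω0) hz ps o oK oG oN).D.L.lev x ∧ (c.mk2 hm cc in0 hc b w (w ω0) hz ps o oK oG oN).D.L.lev x ≤ a :=
  lv_plat (L := (c.mk2 hm cc in0 hc b w (w ω0) hz ps o oK oG oN).D.L) (L' := (c.mk2 hm cc in0 hc b' w' (w' ω0) hz' ps o oK oG oN).D.L) (SmD.LF smD) 
    (fun v h3 h4 => show (c.mk2 hm cc in0 hc b w (w ω0) hz ps o oK oG oN).RC v = (c.mk2 hm cc in0 hc b' w' (w' ω0) hz' ps o oK oG oN).RC v from H.rc h3 h4) h1 h2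

/-- **the stop** -/
theorem n {x : ℕ} (h1 : (c.mk2 hm cc in0 hc b w (w ω0) hz ps o oK oG oN).D.L.J u + 1 < x) (h2 : x ≤ (c.mk2 hm cc in0 hc b w (w ω0) hz ps o oK oG oN).D.L.J a + 1) : x ≤ (c.mk2 hm cc in0 hc b w (w ω0) hz ps o oK oG oN).D.n ↔ x ≤ (c.mk2 hm cc in0 hc b' w' (w' ω0) hz' ps o oK oG oN).D.n :=
  n_plat smD H.DR h1 h2

/-- **the number of steps** -/
theorem N {x : ℕ} (h1 : (c.mk2 hm cc in0 hc b w (w ω0) hz ps o oK oG oN).D.L.J u + c.I.J + 1 < x) (h2 : x ≤ (c.mk2 hm cc in0 hc b w (w ω0) hz ps o oK oG oN).D.L.J a + 1) :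
    x ≤ (c.mk2 hm cc in0 hc b w (w ω0) hz ps o oK oG oN).D.N ↔ x ≤ (c.mk2 hm cc in0 hc b' w' (w' ω0) hz' ps o oK oG oN).D.N := N_plat smD H.DR h1 h2

/-- the levels in digits -/
theorem dig {x : ℕ} (h1 : (c.mk2 hm cc in0 hc b w (w ω0) hz ps o oK oG oN).D.L.J u < x) (h2 : x ≤ (c.mk2 hm cc in0 hc b w (w ω0) hz ps o oK oG oN).D.L.J a) (hN : x ≤ (c.mk2 hm cc in0 hc b w (w ω0) hz ps o oK oG oN).D.N) (hN' : x ≤ (c.mk2 hm cc in0 hc b' w' (w' ω0) hz' ps o oK oG oN).D.N) :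
    (c.mk2 hm cc in0 hc b w (w ω0) hz ps o oK oG oN).D.li x = (c.mk2 hm cc in0 hc b' w' (w' ω0) hz' ps o oK oG oN).D.li x ∧ (c.mk2 hm cc in0 hc b w (w ω0) hz ps o oK oG oN).D.la x = (c.mk2 hm cc in0 hc b' w' (w' ω0) hz' ps o oK oG oN).D.la x ∧ (c.mk2 hm cc in0 hc b w (w ω0) hz ps o oK oG oN).D.lf x = (c.mk2 hm cc in0 hc b' w' (w' ω0) hz' ps o oK oG oN).D.lf x ∧
      (c.mk2 hm cc in0 hc b w (w ω0) hz ps o oK oG oN).D.lk x = (c.mk2 hm cc in0 hc b' w' (w' ω0) hz' ps o oK oG oN).D.lk x := by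
  obtain ⟨e1, e2, e3, _⟩ := H.lev (in0 := in0) (hc := hc) (hz := hz) (hz' := hz') (ps := ps) (o := o) (oK := oK)
    (oG := oG) (oN := oN) h1 h2
  have hli : (c.mk2 hm cc in0 hc b w (w ω0) hz ps o oK oG oN).D.li x = (c.mk2 hm cc in0 hc b' w' (w' ω0) hz' ps o oK oG oN).D.li x := by rw [PN.li_eq _ hN, PN.li_eq _ hN', e1]
  refine ⟨hli, ?_, ?_, ?_⟩
  · show (c.mk2 hm cc in0 hc b w (w ω0) hz ps o oK oG oN).D.m * (c.mk2 hm cc in0 hc b w (w ω0) hz ps o oK oG oN).D.li x = (c.mk2 hm cc in0 hc b' w' (w' ω0) hz' ps o oK oG oN).D.m * (c.mk2 hm cc in0 hc b' w' (w' ω0) hz' ps o oK oG oN).D.li x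
    rw [hli]
    rfl
  · rw [PN.lf_eq _ hN, PN.lf_eq _ hN', e2]
    rfl
  · rw [PN.lk_eq _ hN, PN.lk_eq _ hN', e3]
    rfl

/-- the slopes of the letters on the plateau -/
theorem g {v : ℕ} (h1 : u ≤ v) (h2 : v ≤ a) {ω : Ω} (hω : 0 < (c.mk2 hm cc in0 hc b' w' (w' ω0) hz' ps o oK oG oN).Q.w ω) : (c.mk2 hm cc in0 hc b w (w ω0) hz ps o oK oG oN).g v ω = (c.mk2 hm cc in0 hc b' w' (w' ω0) hz' ps o oK oG oN).g v ω := by
  have x1 := C1.mk2_hx (c := c) (hm := hm) (in0 := in0) (hc := hc) (hz := hz) (ps := ps) (o := o) (oK := oK)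
    (oG := oG) (oN := oN) H.hw
  have x2 := C1.mk2_hx (c := c) (hm := hm) (in0 := in0) (hc := hc) (hz := hz') (ps := ps) (o := o) (oK := oK)
    (oG := oG) (oN := oN) H.hw'
  rw [x1.gx v (h2.trans H.ha) ω (H.sup1 hω), x2.gx v (h2.trans H.ha) ω hω]
  have e1 := H.rc (in0 := in0) (hc := hc) (hz := hz) (hz' := hz') (ps := ps) (o := o) (oK := oK)
    (oG := oG) (oN := oN) h1 h2
  have e2 : ((c.mk2 hm cc in0 hc b w (w ω0) hz ps o oK oG oN).dt hm).pfR (c.mk2 hm cc in0 hc b w (w ω0) hz ps o oK oG oN).RC v ω = ((c.mk2 hm cc in0 hc b' w' (w' ω0) hz' ps o oK oG oN).dt hm).pfR (c.mk2 hm cc in0 hc b' w' (w' ω0) hz' ps o oK oG oN).RC v ω := by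
    show (c.dt hm).pfR (c.mk2 hm cc in0 hc b w (w ω0) hz ps o oK oG oN).RC v ω = (c.dt hm).pfR (c.mk2 hm cc in0 hc b' w' (w' ω0) hz' ps o oK oG oN).RC v ω
    funext y
    unfold Dt.pfR
    rw [e1]
  rw [e2, e1]
  rfl

omit H in
theorem same : SameI (c.mk2 hm cc in0 hc b w (w ω0) hz ps o oK oG oN).inp (c.mk2 hm cc in0 hc b' w' (w' ω0) hz' ps o oK oG oN).inp := ⟨rfl, rfl, rfl, rfl, rfl, rfl, rfl⟩

omit H in
theorem sameC : SameC (c.mk2 hm cc in0 hc b w (w ω0) hz ps o oK oG oN).inp (c.mk2 hm cc in0 hc b' w' (w' ω0) hz' ps o oK oG oN).inp := ⟨rfl, rfl, rfl, rfl⟩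

/-- **`NearK`** -/
theorem near {x : ℕ} (h1 : (c.mk2 hm cc in0 hc b w (w ω0) hz ps o oK oG oN).D.L.J u < x) (h2 : x ≤ (c.mk2 hm cc in0 hc b w (w ω0) hz ps o oK oG oN).D.L.J a) (hN : x ≤ (c.mk2 hm cc in0 hc b w (w ω0) hz ps o oK oG oN).D.N) (hN' : x ≤ (c.mk2 hm cc in0 hc b' w' (w' ω0) hz' ps o oK oG oN).D.N)
    {ω : Ω} (hω : 0 < (c.mk2 hm cc in0 hc b' w' (w' ω0) hz' ps o oK oG oN).Q.w ω) : NearK (c.mk2 hm cc in0 hc b w (w ω0) hz ps o oK oG oN).inp (c.mk2 hm cc in0 hc b' w' (w' ω0) hz' ps o oK oG oN).inp x ω := by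
  obtain ⟨e1, e2, e3, e4⟩ := H.dig h1 h2 hN hN'
  obtain ⟨_, _, _, k1, k2⟩ := H.lev (in0 := in0) (hc := hc) (hz := hz) (hz' := hz') (ps := ps) (o := o) (oK := oK)
    (oG := oG) (oN := oN) h1 h2
  refine ⟨e2, e3, e4, ?_⟩
  show - gAc c.I.m c.d0 (c.mk2 hm cc in0 hc b w (w ω0) hz ps o oK oG oN).g ((c.mk2 hm cc in0 hc b w (w ω0) hz ps o oK oG oN).D.li x) ω = - gAc c.I.m c.d0 (c.mk2 hm cc in0 hc b' w' (w' ω0) hz' ps o oK oG oN).g ((c.mk2 hm cc in0 hc b' w' (w' ω0) hz' ps o oK oG oN).D.li x) ω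
  rw [← e1]
  unfold gAc
  rw [H.g (by rw [PN.li_eq _ hN]; omega) (by rw [PN.li_eq _ hN]; omega) hω]

/-- **the near records** (the hypothesis `hn` of `SPair.ns1`, `ns3` with `j0 = J u + 1`) -/
theorem near_list {k : ℕ} (h2 : k ≤ (c.mk2 hm cc in0 hc b w (w ω0) hz ps o oK oG oN).D.L.J a) (hN : k ≤ (c.mk2 hm cc in0 hc b w (w ω0) hz ps o oK oG oN).D.N) (hN' : k ≤ (c.mk2 hm cc in0 hc b' w' (w' ω0) hz' ps o oK oG oN).D.N) {j : ℕ}
    (h1 : (c.mk2 hm cc in0 hc b w (w ω0) hz ps o oK oG oN).D.L.J u + 1 ≤ j) (hj : j ≤ k) :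
    ∃ j2 ≤ k, (c.mk2 hm cc in0 hc b w (w ω0) hz ps o oK oG oN).inp.a j = (c.mk2 hm cc in0 hc b' w' (w' ω0) hz' ps o oK oG oN).inp.a j2 ∧ (c.mk2 hm cc in0 hc b w (w ω0) hz ps o oK oG oN).inp.rk j = (c.mk2 hm cc in0 hc b' w' (w' ω0) hz' ps o oK oG oN).inp.rk j2 ∧
      ∀ ω, 0 < (c.mk2 hm cc in0 hc b' w' (w' ω0) hz' ps o oK oG oN).Q.w ω → (c.mk2 hm cc in0 hc b w (w ω0) hz ps o oK oG oN).inp.gA j ω = (c.mk2 hm cc in0 hc b' w' (w' ω0) hz' ps o oK oG oN).inp.gA j2 ω := by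
  obtain ⟨_, e2, _, e4⟩ := H.dig (in0 := in0) (hc := hc) (hz := hz) (hz' := hz') (ps := ps) (o := o) (oK := oK)
    (oG := oG) (oN := oN) (x := j) (by omega) (hj.trans h2) (hj.trans hN) (hj.trans hN')
  exact ⟨j, hj, e2, e4, fun ω hω => (H.near (by omega) (hj.trans h2) (hj.trans hN) (hj.trans hN') hω).g⟩

/-- **the prefix letter of the earlier cap** -/
theorem fnX {x : ℕ} (h1 : (c.mk2 hm cc in0 hc b w (w ω0) hz ps o oK oG oN).D.L.J u < x) (h2 : x ≤ (c.mk2 hm cc in0 hc b w (w ω0) hz ps o oK oG oN).D.L.J a) (hN : x ≤ (c.mk2 hm cc in0 hc b w (w ω0) hz ps o oK oG oN).D.N) (hN' : x ≤ (c.mk2 hm cc in0 hc b' w' (w' ω0) hz' ps o oK oG oN).D.N) :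
    Fn (c.mk2 hm cc in0 hc b' w' (w' ω0) hz' ps o oK oG oN).Q ((c.mk2 hm cc in0 hc b w (w ω0) hz ps o oK oG oN).pX hm x) ((c.mk2 hm cc in0 hc b' w' (w' ω0) hz' ps o oK oG oN).pX hm x) := by
  obtain ⟨e1, _⟩ := H.dig (in0 := in0) (hc := hc) (hz := hz) (hz' := hz') (ps := ps) (o := o) (oK := oK)
    (oG := oG) (oN := oN) h1 h2 hN hN'
  exact Dt.fn_A_res (d := c.dt hm) (c.mk2 hm cc in0 hc b' w' (w' ω0) hz' ps o oK oG oN).Q e1.le fun v _ => H.rc_le v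

/-- **the prefix letter of the later cap**, from the earlier cap and an earlier step -/
theorem fnX2 {k i : ℕ} (h1 : (c.mk2 hm cc in0 hc b w (w ω0) hz ps o oK oG oN).D.L.J u < k) (hki : k ≤ i) (h2 : i ≤ (c.mk2 hm cc in0 hc b w (w ω0) hz ps o oK oG oN).D.L.J a) (hN : i ≤ (c.mk2 hm cc in0 hc b w (w ω0) hz ps o oK oG oN).D.N)
    (hN' : i ≤ (c.mk2 hm cc in0 hc b' w' (w' ω0) hz' ps o oK oG oN).D.N) :
    Fn (c.mk2 hm cc in0 hc b' w' (w' ω0) hz' ps o oK oG oN).Q ((c.mk2 hm cc in0 hc b' w' (w' ω0) hz' ps o oK oG oN).pX hm i) (fun ω => ((c.mk2 hm cc in0 hc b w (w ω0) hz ps o oK oG oN).pX hm i ω, (c.mk2 hm cc in0 hc b' w' (w' ω0) hz' ps o oK oG oN).pX hm k ω)) := by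
  obtain ⟨e1, _⟩ := H.dig (in0 := in0) (hc := hc) (hz := hz) (hz' := hz') (ps := ps) (o := o) (oK := oK)
    (oG := oG) (oN := oN) (by omega : (c.mk2 hm cc in0 hc b w (w ω0) hz ps o oK oG oN).D.L.J u < i) h2 hN hN'
  obtain ⟨_, _, _, k1, k2⟩ := H.lev (in0 := in0) (hc := hc) (hz := hz) (hz' := hz') (ps := ps) (o := o) (oK := oK)
    (oG := oG) (oN := oN) h1 (hki.trans h2)
  obtain ⟨_, _, _, k3, k4⟩ := H.lev (in0 := in0) (hc := hc) (hz := hz) (hz' := hz') (ps := ps) (o := o) (oK := oK)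
    (oG := oG) (oN := oN) (by omega : (c.mk2 hm cc in0 hc b w (w ω0) hz ps o oK oG oN).D.L.J u < i) h2
  obtain ⟨f1, _⟩ := H.dig (in0 := in0) (hc := hc) (hz := hz) (hz' := hz') (ps := ps) (o := o) (oK := oK)
    (oG := oG) (oN := oN) h1 (hki.trans h2) (hki.trans hN) (hki.trans hN')
  rw [← PN.li_eq _ (hki.trans hN)] at k1
  rw [← PN.li_eq _ hN] at k4
  intro ω ω' _ _ e
  simp only [Prod.mk.injEq] at e
  obtain ⟨e2, e3⟩ := e
  have e4 : (c.dt hm).pfA (c.mk2 hm cc in0 hc b w (w ω0) hz ps o oK oG oN).RC ((c.mk2 hm cc in0 hc b w (w ω0) hz ps o oK oG oN).D.li i) ω = (c.dt hm).pfA (c.mk2 hm cc in0 hc b w (w ω0) hz ps o oK oG oN).RC ((c.mk2 hm cc in0 hc b w (w ω0) hz ps o oK oG oN).D.li i) ω' := e2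
  have e5 : (c.dt hm).pfA (c.mk2 hm cc in0 hc b' w' (w' ω0) hz' ps o oK oG oN).RC ((c.mk2 hm cc in0 hc b' w' (w' ω0) hz' ps o oK oG oN).D.li k) ω = (c.dt hm).pfA (c.mk2 hm cc in0 hc b' w' (w' ω0) hz' ps o oK oG oN).RC ((c.mk2 hm cc in0 hc b' w' (w' ω0) hz' ps o oK oG oN).D.li k) ω' := e3
  show (c.dt hm).pfA (c.mk2 hm cc in0 hc b' w' (w' ω0) hz' ps o oK oG oN).RC ((c.mk2 hm cc in0 hc b' w' (w' ω0) hz' ps o oK oG oN).D.li i) ω = (c.dt hm).pfA (c.mk2 hm cc in0 hc b' w' (w' ω0) hz' ps o oK oG oN).RC ((c.mk2 hm cc in0 hc b' w' (w' ω0) hz' ps o oK oG oN).D.li i) ω'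
  funext v
  rcases Nat.lt_or_ge ((c.mk2 hm cc in0 hc b' w' (w' ω0) hz' ps o oK oG oN).D.li i) v with hv | hv
  · rw [Dt.pfA_gt hv, Dt.pfA_gt hv]
  · rw [Dt.pfA_le hv, Dt.pfA_le hv]
    rcases Nat.lt_or_ge ((c.mk2 hm cc in0 hc b' w' (w' ω0) hz' ps o oK oG oN).D.li k) v with hv2 | hv2
    · have e6 := H.rc (in0 := in0) (hc := hc) (hz := hz) (hz' := hz') (ps := ps) (o := o) (oK := oK)
        (oG := oG) (oN := oN) (v := v) (by omega) (by omega)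
      have e7 : ∀ ω, (c.dt hm).pfR (c.mk2 hm cc in0 hc b' w' (w' ω0) hz' ps o oK oG oN).RC v ω = (c.dt hm).pfR (c.mk2 hm cc in0 hc b w (w ω0) hz ps o oK oG oN).RC v ω := by
        intro ω
        funext y
        unfold Dt.pfR
        rw [e6]
      rw [e7, e7]
      exact Dt.pfA_R (by omega) e4
    · exact Dt.pfA_R hv2 e5

/-- **the slopes of the earlier cap** are functions of the prefix letter of the later cap -/
theorem fnG {x j : ℕ} (h1 : (c.mk2 hm cc in0 hc b w (w ω0) hz ps o oK oG oN).D.L.J u < x) (h2 : x ≤ (c.mk2 hm cc in0 hc b w (w ω0) hz ps o oK oG oN).D.L.J a) (hN : x ≤ (c.mk2 hm cc in0 hc b w (w ω0) hz ps o oK oG oN).D.N) (hN' : x ≤ (c.mk2 hm cc in0 hc b' w' (w' ω0) hz' ps o oK oG oN).D.N)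
    (hj : j ≤ x) : Fn (c.mk2 hm cc in0 hc b' w' (w' ω0) hz' ps o oK oG oN).Q ((c.mk2 hm cc in0 hc b w (w ω0) hz ps o oK oG oN).inp.gA j) ((c.mk2 hm cc in0 hc b' w' (w' ω0) hz' ps o oK oG oN).pX hm x) := by
  obtain ⟨e1, _⟩ := H.dig (in0 := in0) (hc := hc) (hz := hz) (hz' := hz') (ps := ps) (o := o) (oK := oK)
    (oG := oG) (oN := oN) h1 h2 hN hN'
  obtain ⟨_, _, _, _, k2⟩ := H.lev (in0 := in0) (hc := hc) (hz := hz) (hz' := hz') (ps := ps) (o := o) (oK := oK)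
    (oG := oG) (oN := oN) h1 h2
  rw [← PN.li_eq _ hN] at k2
  have hjx : (c.mk2 hm cc in0 hc b w (w ω0) hz ps o oK oG oN).D.li j ≤ (c.mk2 hm cc in0 hc b w (w ω0) hz ps o oK oG oN).D.li x := PN.li_mono _ hj
  have x1 := C1.mk2_hx (c := c) (hm := hm) (in0 := in0) (hc := hc) (hz := hz) (ps := ps) (o := o) (oK := oK)
    (oG := oG) (oN := oN) H.hw
  intro ω ω' hω hω' e
  have e2 : (c.dt hm).pfA (c.mk2 hm cc in0 hc b' w' (w' ω0) hz' ps o oK oG oN).RC ((c.mk2 hm cc in0 hc b' w' (w' ω0) hz' ps o oK oG oN).D.li x) ω = (c.dt hm).pfA (c.mk2 hm cc in0 hc b' w' (w' ω0) hz' ps o oK oG oN).RC ((c.mk2 hm cc in0 hc b' w' (w' ω0) hz' ps o oK oG oN).D.li x) ω' := e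
  have e3 : (c.dt hm).pfR (c.mk2 hm cc in0 hc b' w' (w' ω0) hz' ps o oK oG oN).RC ((c.mk2 hm cc in0 hc b w (w ω0) hz ps o oK oG oN).D.li j) ω = (c.dt hm).pfR (c.mk2 hm cc in0 hc b' w' (w' ω0) hz' ps o oK oG oN).RC ((c.mk2 hm cc in0 hc b w (w ω0) hz ps o oK oG oN).D.li j) ω' :=
    Dt.pfA_R (by omega) e2
  have e4 : (c.dt hm).pfR (c.mk2 hm cc in0 hc b w (w ω0) hz ps o oK oG oN).RC ((c.mk2 hm cc in0 hc b w (w ω0) hz ps o oK oG oN).D.li j) ω = (c.dt hm).pfR (c.mk2 hm cc in0 hc b w (w ω0) hz ps o oK oG oN).RC ((c.mk2 hm cc in0 hc b w (w ω0) hz ps o oK oG oN).D.li j) ω' := by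
    have e6 : (c.mk2 hm cc in0 hc b w (w ω0) hz ps o oK oG oN).RC ((c.mk2 hm cc in0 hc b w (w ω0) hz ps o oK oG oN).D.li j) ≤ (c.mk2 hm cc in0 hc b' w' (w' ω0) hz' ps o oK oG oN).RC ((c.mk2 hm cc in0 hc b w (w ω0) hz ps o oK oG oN).D.li j) := H.rc_le _
    rw [Dt.pfR_res e6 ω, Dt.pfR_res e6 ω', e3]
  have hja : (c.mk2 hm cc in0 hc b w (w ω0) hz ps o oK oG oN).D.li j ≤ c.I.ha := by have := H.ha; omega
  show - gAc c.I.m c.d0 (c.mk2 hm cc in0 hc b w (w ω0) hz ps o oK oG oN).g ((c.mk2 hm cc in0 hc b w (w ω0) hz ps o oK oG oN).D.li j) ω = - gAc c.I.m c.d0 (c.mk2 hm cc in0 hc b w (w ω0) hz ps o oK oG oN).g ((c.mk2 hm cc in0 hc b w (w ω0) hz ps o oK oG oN).D.li j) ω'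
  unfold gAc
  have e5 : (c.mk2 hm cc in0 hc b w (w ω0) hz ps o oK oG oN).g ((c.mk2 hm cc in0 hc b w (w ω0) hz ps o oK oG oN).D.li j) ω = (c.mk2 hm cc in0 hc b w (w ω0) hz ps o oK oG oN).g ((c.mk2 hm cc in0 hc b w (w ω0) hz ps o oK oG oN).D.li j) ω' := by
    rw [x1.gx _ hja ω (H.sup1 hω), x1.gx _ hja ω' (H.sup1 hω')]
    exact congrArg _ e4
  rw [e5]

end Plat

end plat

end Vale.Agent.P106.U.SPlat
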