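import Vale.Agent.P106.U.H611.Props
import Vale.Agent.P127.U.PathA

/-!
# P106 / U / H824 : activity given a side variable of small entropy (block [ACT] of END7, Case A)
-/

set_option autoImplicit false

namespace Vale.Agent.P106.U.H824

open Finset Vale.Agent.P127 Vale.Agent.P127.Stk Vale.Agent.P127.U.Mic

/-- the information about the side variable telescopes -/
theorem info_le {Ω : Type} [Fintype Ω] {ξ ν τ : Type*} (P : Law Ω) (l : Ω → ξ) (V : Ω → ν)
    (T : ℕ → Ω → τ) (i : ℕ) (hT : Fn P (T i) (T (i + 1))) :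
    hc P (T (i + 1)) (fun ω => (l ω, T i ω)) - hc P (T (i + 1)) (fun ω => (l ω, V ω, T i ω)) ≤
      hc P V (fun ω => (l ω, T i ω)) - hc P V (fun ω => (l ω, T (i + 1) ω)) := by
  have h1 : hc P V (fun ω => (T (i + 1) ω, l ω, T i ω)) ≤ hc P V (fun ω => (l ω, T (i + 1) ω)) := by
    refine hc_mono_right P V fun ω ω' _ _ e => ?_
    simp only [Prod.mk.injEq] at e ⊢
    exact ⟨e.2.1, e.1⟩
  have h1' : hc P V (fun ω => (l ω, T (i + 1) ω)) ≤ hc P V (fun ω => (T (i + 1) ω, l ω, T i ω)) := by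
    refine hc_mono_right P V fun ω ω' p p' e => ?_
    simp only [Prod.mk.injEq] at e ⊢
    exact ⟨e.2, e.1, hT ω ω' p p' e.2⟩
  have e1 : P.H (fun ω => (V ω, T (i + 1) ω, l ω, T i ω)) =
      P.H (fun ω => (T (i + 1) ω, l ω, V ω, T i ω)) := by
    refine H_congr' P ?_ ?_
    · intro ω ω' _ _ e
      simp only [Prod.mk.injEq] at e ⊢
      exact ⟨e.2.1, e.2.2.1, e.1, e.2.2.2⟩
    · intro ω ω' _ _ e
      simp only [Prod.mk.injEq] at e ⊢
      exact ⟨e.2.2.1, e.1, e.2.1, e.2.2.2⟩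
  have e2 : P.H (fun ω => (V ω, l ω, T i ω)) = P.H (fun ω => (l ω, V ω, T i ω)) := by
    refine H_congr' P ?_ ?_
    · intro ω ω' _ _ e
      simp only [Prod.mk.injEq] at e ⊢
      exact ⟨e.2.1, e.1, e.2.2⟩
    · intro ω ω' _ _ e
      simp only [Prod.mk.injEq] at e ⊢
      exact ⟨e.2.1, e.1, e.2.2⟩
  have h2 : hc P (T (i + 1)) (fun ω => (l ω, T i ω)) -
      hc P (T (i + 1)) (fun ω => (l ω, V ω, T i ω)) =
      hc P V (fun ω => (l ω, T i ω)) - hc P V (fun ω => (T (i + 1) ω, l ω, T i ω)) := by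
    unfold hc
    rw [e1, e2]
    ring
  rw [h2]
  linarith

/-- **[ACT]** -/
theorem pActT : EndA.PActT := by
  refine ⟨1, zero_le_one, ?_⟩
  intro Ω _ ξ ν τ P l V T n thr hT h0 h1
  classical
  have hlog : 0 < Real.log (1 / thr) := Real.log_pos (by rw [lt_div_iff₀ h0]; linarith)
  have hstep : ∀ i, colp P (T (i + 1)) (fun ω => (l ω, V ω, T i ω)) ≤
      thr + prE P (fun ω => thr ^ 2 < cq P (T (i + 1)) (fun ω => (l ω, T i ω)) (T (i + 1) ω)
        (l ω, T i ω)) +
      (hc P V (fun ω => (l ω, T i ω)) - hc P V (fun ω => (l ω, T (i + 1) ω)) + 1) /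
        Real.log (1 / thr) := by
    intro i
    set C : Ω → ξ × ν × τ := fun ω => (l ω, V ω, T i ω) with hC
    set D : Ω → ξ × τ := fun ω => (l ω, T i ω) with hD
    have hDC : Fn P D C := by
      intro ω ω' _ _ e
      simp only [hC, hD, Prod.mk.injEq] at e ⊢
      exact ⟨e.1, e.2.2⟩
    have h2 := Vale.Agent.P127.U.Path.ex_cp_div P (T (i + 1)) hDC
    have h3 := Vale.Agent.P127.U.Path.coll_le P (T (i + 1)) C
      (fun ω => Vale.Agent.P127.U.Path.cp P (T (i + 1)) D ω)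
      (fun ω hω => Vale.Agent.P127.U.Path.cp_pos P (T (i + 1)) D hω) h2
      (ε := thr) (θ := thr ^ 2) (by positivity) (by nlinarith)
    have h4 : thr / thr ^ 2 = 1 / thr := by field_simp
    rw [h4] at h3
    have h5 : P.ex (fun ω => Real.log (Vale.Agent.P127.U.Path.cp P (T (i + 1)) C ω) -
        Real.log (Vale.Agent.P127.U.Path.cp P (T (i + 1)) D ω)) =
        hc P (T (i + 1)) D - hc P (T (i + 1)) C := by
      rw [Vale.Agent.P127.U.Path.hc_eq, Vale.Agent.P127.U.Path.hc_eq, ← P.ex_sub]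
      exact P.ex_congr fun ω _ => by ring
    rw [h5] at h3
    have h6 := info_le P l V T i (hT i)
    have h7 : (hc P (T (i + 1)) D - hc P (T (i + 1)) C + 1) / Real.log (1 / thr) ≤
        (hc P V (fun ω => (l ω, T i ω)) - hc P V (fun ω => (l ω, T (i + 1) ω)) + 1) /
        Real.log (1 / thr) := div_le_div_of_nonneg_right (by linarith) hlog.le
    have h8 : colp P (T (i + 1)) C = Vale.Agent.P127.U.Path.coll P (T (i + 1)) C := rfl
    rw [h8]
    have h9 : prE P (fun ω => thr ^ 2 < Vale.Agent.P127.U.Path.cp P (T (i + 1)) D ω) =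
        prE P (fun ω => thr ^ 2 < cq P (T (i + 1)) D (T (i + 1) ω) (l ω, T i ω)) := rfl
    rw [← h9]
    linarith
  have hsum := Finset.sum_le_sum fun i (_ : i ∈ range n) => hstep i
  refine hsum.trans ?_
  rw [Finset.sum_add_distrib, Finset.sum_add_distrib, ← Finset.sum_div, Finset.sum_add_distrib,
    Finset.sum_range_sub', Finset.sum_const, Finset.sum_const, card_range, nsmul_eq_mul,
    nsmul_eq_mul, mul_one, one_mul]
  have h10 : hc P V (fun ω => (l ω, T 0 ω)) ≤ hc P V l :=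
    hc_mono_right P V fun ω ω' _ _ e => congrArg Prod.fst e
  have h11 : 0 ≤ hc P V (fun ω => (l ω, T n ω)) := hc_nonneg P _ _
  have h12 : (hc P V (fun ω => (l ω, T 0 ω)) - hc P V (fun ω => (l ω, T n ω)) + n) /
      Real.log (1 / thr) ≤ (hc P V l + n) / Real.log (1 / thr) :=
    div_le_div_of_nonneg_right (by linarith) hlog.le
  linarith

end Vale.Agent.P106.U.H824
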