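import Vale.Agent.P106.U.H824.InpR

/-!
# P106 / U / H824 : the letter of the cell over the closure (helper824)

Word 1 (`Cn`, strips `IsL`), `al := LinkR.alR` (slope of the line of the last state of the level, relative to the start
strip, margin `s = 0`, base `2^m`), `rR = Rw n E 1` = number of revealed blocks.  The closure of the past reveals true
prefixes of `al` : precision `RC a ≤ rR a` (blocks), letter `g a`, a function of the past `G`.

* `GC` : what is used of the closure (helper428's conclusions), for the law `Q` after all words.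
* `gAc a = absl (g a)` : absolute slope.
* `ls_ofC` : `PrT.LS` without exceptional event, `M = 3`, for an input `D` of 785's letter with `gA j = - gAc (lev j)`.
* `prT_of` : the field `prT`: at most `3 Lg (N + 1)`; `kno_of` : the field `kno` with `c' = 0`; `fnT_of` : the letter is a
  function of the past and of the time.
* `g1_ofC`, `gg_ofC` : the fields `g1`, `gg` of `Hy` (`K ≥ 4`, `K ≥ 5`); `unk_of` : the field `unk` of 404's `Run.Ok`.
* `unk_cond` : transport of `unk` to the law conditioned on a function of the past.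
-/

set_option autoImplicit false

namespace Vale.Agent.P106.U.InpC

open Finset Vale.Agent.P127 Vale.Agent.P127.Stk Vale.Agent.P106.U.H449 Vale.Agent.P106.U.StripL
open Vale.Agent.P106.U.StripE Vale.Agent.P106.U.LinkW2 Vale.Agent.P106.U.LSide Vale.Agent.P106.U.LinkR
open Vale.Agent.P127.U.CellD (q2 rd q2_pos q2_le rd_err q2_mul_pow)
open Vale.Agent.P106.U.Cell Vale.Agent.P106.U.S3.PthW Vale.Agent.P106.U.PrT Vale.Agent.P106.U.InpR

variable {Ω : Type} [Fintype Ω] {γ ζ₁ ζ₂ : Type} {S : Type*}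

/-- **what is used of the closure** -/
structure GC (m : ℕ) (d0 : Ld) (e : Rl Ω 2 (ℤ × ℤ) γ ζ₁ ζ₂) (P : Law Ω) (n : ℕ) (E : List (Lt 2)) (Q : Law Ω)
    (A : ℕ) (G : Ω → S) (RC : ℕ → ℕ) (g : ℕ → Ω → ℝ) (c : ℝ) (s : ℕ) : Prop where
  /-- precision at most that of the ray side -/
  le : ∀ a ≤ A, RC a ≤ rR n E a
  /-- the slope is known to the precision `RC`, at every point -/
  kn : ∀ a ≤ A, ∀ ω, 0 < Q.w ω → |alR m d0 e P n E a ω - g a ω| ≤ 2 * ((2 : ℝ) ^ m) ^ ((a : ℤ) - RC a)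
  /-- the letter is a function of the past -/
  fn : ∀ a ≤ A, Fn Q (g a) G
  /-- and not one block more, given any value of the past -/
  unk : ∀ a ≤ A, RC a + s + 1 ≤ rR n E a → ∀ ω, 0 < Q.w ω → ∀ y : ℝ,
    prE Q (fun ω' => G ω' = G ω ∧ |alR m d0 e P n E a ω' - y| ≤ ((2 : ℝ) ^ m) ^ ((a : ℤ) - RC a - 1)) <
      (1 - c) * Q.pr G (G ω)

variable {e : Rl Ω 2 (ℤ × ℤ) γ ζ₁ ζ₂} {P Q : Law Ω} {n : ℕ} {E : List (Lt 2)} {q' : ℝ} {m : ℕ} {d0 : Ld}
  {tW κ : Ω → ℝ} {A : ℕ} {G : Ω → S} {RC : ℕ → ℕ} {g : ℕ → Ω → ℝ} {c : ℝ} {s : ℕ}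

/-- the absolute slope of the letter -/
noncomputable def gAc (m : ℕ) (d0 : Ld) (g : ℕ → Ω → ℝ) (a : ℕ) (ω : Ω) : ℝ := absl m d0 (g a ω)

section
variable (h : Cn e P Q n E q') (hL : IsL m d0 tW κ e)
include h

omit hL in
/-- slope of the state and slope of the letter -/
theorem near (H : GC m d0 e P n E Q A G RC g c s) {a : ℕ} (ha : a ≤ A) {ω : Ω} (hω : 0 < Q.w ω) :
    |aI m d0 (e.T P (ia n E a) ω) - gAc m d0 g a ω| ≤ 2 * pr m d0 a (RC a) := by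
  have h0 : (0 : ℝ) < 2 ^ (d0.a + 2 * m) / 2 ^ d0.k := by positivity
  rw [aI_alR h a hω]
  unfold gAc
  rw [absl_sub, abs_mul, abs_of_pos h0, ← scale_pr, ← mul_assoc]
  exact mul_le_mul_of_nonneg_right (H.kn a ha ω hω) h0.le

omit hL in
/-- the same in the units of the letter -/
theorem near_q2 (H : GC m d0 e P n E Q A G RC g c s) {κ0 : ℕ} (hκ2 : 2 ≤ κ0) (hk : d0.k = m * κ0) (h0a : d0.a = 0)
    {a r : ℕ} (ha : a ≤ A) (hr : r ≤ RC a) {ω : Ω} (hω : 0 < Q.w ω) :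
    |aI m d0 (e.T P (ia n E a) ω) - gAc m d0 g a ω| * q2 (m * a) ≤ 2 * q2 (m * (κ0 - 2 + r)) := by
  have h1 := mul_le_mul_of_nonneg_right (near h H ha hω) (q2_pos (m * a)).le
  rw [mul_assoc, pr_q2 hκ2 hk h0a] at h1
  refine h1.trans (mul_le_mul_of_nonneg_left (q2_le ?_) (by norm_num))
  exact Nat.mul_le_mul_left m (Nat.add_le_add_left hr _)

include hL in
/-- **size of the slopes** (field `g1` of `Hy`) : `|d0.al| ≤ 1` -/
theorem g1_ofC (H : GC m d0 e P n E Q A G RC g c s) (hm : 2 ≤ m) {κ0 : ℕ} (hκ2 : 2 ≤ κ0) (hk : d0.k = m * κ0)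
    (h0a : d0.a = 0) (hal : |d0.al| ≤ 1) {a : ℕ} (ha : a ≤ A) {ω : Ω} (hω : 0 < Q.w ω) :
    |gAc m d0 g a ω| * q2 (m * a) ≤ 4 := by
  have h1 := near_q2 h H hκ2 hk h0a ha (Nat.zero_le (RC a)) hω
  have h2 := aI_bd (by omega : 1 ≤ m) h0a a hω h hL
  have hq := q2_pos (m * a)
  have hp := q2_mul_pow (m * a)
  have h3 : q2 (m * (κ0 - 2 + 0)) ≤ 1 := Inp.q2_one
  have h4 : (2 : ℝ) ^ (m * a + m + 2) / 2 ^ d0.k ≤ 2 ^ (m * a) := by
    rw [div_le_iff₀ (by positivity), ← pow_add]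
    refine pow_le_pow_right₀ (by norm_num) ?_
    rw [hk]
    have h5 : m * 2 ≤ m * κ0 := Nat.mul_le_mul_left m hκ2
    omega
  have h5 : (1 : ℝ) ≤ 2 ^ (m * a) := one_le_pow₀ (by norm_num)
  have h6 : |aI m d0 (e.T P (ia n E a) ω)| ≤ 2 * 2 ^ (m * a) := by
    have := abs_add_le (aI m d0 (e.T P (ia n E a) ω) - d0.al) d0.al
    rw [sub_add_cancel] at this
    linarith
  have h7 : |gAc m d0 g a ω| ≤ |aI m d0 (e.T P (ia n E a) ω) - gAc m d0 g a ω| +
      |aI m d0 (e.T P (ia n E a) ω)| := by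
    have := abs_sub (aI m d0 (e.T P (ia n E a) ω)) (aI m d0 (e.T P (ia n E a) ω) - gAc m d0 g a ω)
    rw [sub_sub_cancel] at this
    linarith
  have h8 := mul_le_mul_of_nonneg_right h7 hq.le
  have h9 := mul_le_mul_of_nonneg_right h6 hq.le
  nlinarith

include hL in
/-- change of the slope of the state -/
theorem aI_ch (hm : 1 ≤ m) {κ0 : ℕ} (hk : d0.k = m * κ0) (h0a : d0.a = 0) {a b : ℕ} (hab : a ≤ b) {ω : Ω}
    (hω : 0 < Q.w ω) :
    |aI m d0 (e.T P (ia n E b) ω) - aI m d0 (e.T P (ia n E a) ω)| * q2 (m * b) ≤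
      2 ^ (m + 2) * q2 (m * (κ0 + rR n E a)) := by
  have h1 := al_T (P := P) hL hm (ia_mono h hab) ω
  have hE := h.hE ω hω
  rw [cnt_of_wd hE (ia_le n E _) none, cnt_of_wd hE (ia_le n E _) (some 1), h0a, hk, Nat.zero_add,
    ← Nat.mul_add] at h1
  have h3 := lv_ia_le h b
  have hq := q2_pos (m * b)
  have hp := q2_mul_pow (m * b)
  have e2 : (1 : ℝ) / 2 ^ (m * (κ0 + lv n E (some 1) (ia n E a))) = q2 (m * (κ0 + rR n E a)) := by
    have h8 := q2_mul_pow (m * (κ0 + rR n E a))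
    show (1 : ℝ) / 2 ^ (m * (κ0 + rR n E a)) = _
    rw [div_eq_iff (by positivity)]
    linarith
  rw [e2] at h1
  have h5 : (0 : ℝ) < 1 / 2 ^ (m * κ0 + m * cnt (some 1) (e.T P (ia n E b) ω)) := by positivity
  have hqr := q2_pos (m * (κ0 + rR n E a))
  have h6 : (2 : ℝ) ^ (m * lv n E none (ia n E b) + m + 2) *
      (q2 (m * (κ0 + rR n E a)) - 1 / 2 ^ (m * κ0 + m * cnt (some 1) (e.T P (ia n E b) ω))) ≤
      2 ^ (m * b + m + 2) * q2 (m * (κ0 + rR n E a)) := by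
    have h7 : (2 : ℝ) ^ (m * lv n E none (ia n E b) + m + 2) ≤ 2 ^ (m * b + m + 2) := by
      refine pow_le_pow_right₀ (by norm_num) ?_
      have : m * lv n E none (ia n E b) ≤ m * b := Nat.mul_le_mul_left m h3
      omega
    refine (mul_le_mul_of_nonneg_left (sub_le_self _ h5.le) (by positivity)).trans ?_
    exact mul_le_mul_of_nonneg_right h7 hqr.le
  unfold aI
  have h8 := mul_le_mul_of_nonneg_right (h1.trans h6) hq.le
  refine h8.trans (le_of_eq ?_)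
  rw [show m * b + m + 2 = (m + 2) + m * b by ring, pow_add]
  linear_combination (2 ^ (m + 2) * q2 (m * (κ0 + rR n E a))) * hp

include hL in
/-- **agreement of the slopes** (field `gg` of `Hy`) -/
theorem gg_ofC (H : GC m d0 e P n E Q A G RC g c s) (hm : 2 ≤ m) {κ0 : ℕ} (hκ2 : 2 ≤ κ0) (hk : d0.k = m * κ0)
    (h0a : d0.a = 0) (hRC : ∀ a b, a ≤ b → b ≤ A → RC a ≤ RC b) {a b r : ℕ} (hab : a ≤ b) (hb : b ≤ A) {ω : Ω}
    (hω : 0 < Q.w ω) (hr : r ≤ RC a) :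
    |gAc m d0 g b ω - gAc m d0 g a ω| * q2 (m * b) ≤ 5 * q2 (m * (κ0 - 2 + r)) := by
  have h1 := near_q2 h H hκ2 hk h0a hb (hr.trans (hRC a b hab hb)) hω
  have h2 := near_q2 h H hκ2 hk h0a (hab.trans hb) hr hω
  have h3 := aI_ch h hL (by omega : 1 ≤ m) hk h0a hab hω
  have hle := H.le a (hab.trans hb)
  have hqb := q2_pos (m * b)
  have hqab : q2 (m * b) ≤ q2 (m * a) := q2_le (Nat.mul_le_mul_left m hab)
  have h4 : (2 : ℝ) ^ (m + 2) * q2 (m * (κ0 + rR n E a)) ≤ q2 (m * (κ0 - 2 + r)) := by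
    obtain ⟨k1, rfl⟩ := Nat.exists_eq_add_of_le hκ2
    have e1 : 2 + k1 - 2 = k1 := by omega
    rw [e1]
    have g1 : q2 (m * (2 + k1 + rR n E a)) ≤ q2 (m * (k1 + r) + (m + 2)) := by
      refine q2_le ?_
      have g2 : m * (2 + k1 + rR n E a) = m * (k1 + rR n E a) + (m + m) := by ring
      have g3 : m * (k1 + r) ≤ m * (k1 + rR n E a) := Nat.mul_le_mul_left m (by omega)
      omega
    have g2 : (2 : ℝ) ^ (m + 2) * q2 (m * (k1 + r) + (m + 2)) = q2 (m * (k1 + r)) := by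
      unfold q2
      rw [pow_add (1 / 2 : ℝ) (m * (k1 + r)) (m + 2), mul_left_comm, ← mul_pow]
      norm_num
    have g3 : (0 : ℝ) < 2 ^ (m + 2) := by positivity
    calc _ ≤ (2 : ℝ) ^ (m + 2) * q2 (m * (k1 + r) + (m + 2)) := mul_le_mul_of_nonneg_left g1 g3.le
      _ = _ := g2
  have h5 : |gAc m d0 g b ω - gAc m d0 g a ω| ≤
      |aI m d0 (e.T P (ia n E b) ω) - gAc m d0 g b ω| +
      |aI m d0 (e.T P (ia n E b) ω) - aI m d0 (e.T P (ia n E a) ω)| +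
      |aI m d0 (e.T P (ia n E a) ω) - gAc m d0 g a ω| := by
    have e1 : gAc m d0 g b ω - gAc m d0 g a ω =
        -(aI m d0 (e.T P (ia n E b) ω) - gAc m d0 g b ω) +
        (aI m d0 (e.T P (ia n E b) ω) - aI m d0 (e.T P (ia n E a) ω)) +
        (aI m d0 (e.T P (ia n E a) ω) - gAc m d0 g a ω) := by ring
    rw [e1]
    have t1 := abs_add_le (-(aI m d0 (e.T P (ia n E b) ω) - gAc m d0 g b ω) +
        (aI m d0 (e.T P (ia n E b) ω) - aI m d0 (e.T P (ia n E a) ω)))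
        (aI m d0 (e.T P (ia n E a) ω) - gAc m d0 g a ω)
    have t2 := abs_add_le (-(aI m d0 (e.T P (ia n E b) ω) - gAc m d0 g b ω))
        (aI m d0 (e.T P (ia n E b) ω) - aI m d0 (e.T P (ia n E a) ω))
    rw [abs_neg] at t2
    linarith
  have h6 := mul_le_mul_of_nonneg_right h5 hqb.le
  have h7 : |aI m d0 (e.T P (ia n E a) ω) - gAc m d0 g a ω| * q2 (m * b) ≤
      |aI m d0 (e.T P (ia n E a) ω) - gAc m d0 g a ω| * q2 (m * a) :=
    mul_le_mul_of_nonneg_left hqab (abs_nonneg _)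
  rw [add_mul, add_mul] at h6
  linarith

include hL in
/-- **the ray side of the letter**, no exceptional event -/
theorem ls_ofC {Zt : Type*} (H : GC m d0 e P n E Q A G RC g c s)
    {κ0 : ℕ} (hκ2 : 2 ≤ κ0) (hk : d0.k = m * κ0) (ha : d0.a = 0) (D : Inp Ω) (lev kk : ℕ → ℕ) (N : ℕ) {K : ℝ} {hh q : ℕ}
    (hlA : ∀ j ≤ N, lev j ≤ A) (hkk : ∀ j ≤ N, kk j ≤ RC (lev j))
    (hDa : ∀ j ≤ N, D.a j = m * lev j) (hDk : ∀ j ≤ N, D.rk j = m * (κ0 - 2 + kk j))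
    (hg : ∀ j ≤ N, ∀ ω, 0 < Q.w ω → D.gA j ω = - gAc m d0 g (lev j) ω)
    (hka : ∀ ω, 0 < Q.w ω → (D.FW ω).ka = κ ω) (htW : ∀ ω, 0 < Q.w ω → D.tW ω = tW ω)
    (hy : ∀ ω, 0 < Q.w ω → D.Hy K hh ω)
    (un : ∀ ω, 0 < Q.w ω →
      |(D.FW ω).cN (D.l ω) (D.tW ω) ^ 2 + (D.FW ω).cV (D.l ω) (D.tW ω) ^ 2 - 1| ≤ K * q2 q)
    (cp : ∀ ω, 0 < Q.w ω → D.p ω * (D.FW ω).cN (D.l ω) (D.tW ω) = (D.FW ω).cV (D.l ω) (D.tW ω))
    (rq : ∀ j ≤ N, D.rk j ≤ q)
    (Z : ℕ → Ω → Zt) (hZT : ∀ j ≤ N, Fn Q (fun ω => e.T P (ia n E (lev j)) ω) (Z j))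
    (hZl : ∀ j ≤ N, Fn Q D.l (Z j)) (hZt : ∀ j ≤ N, Fn Q (fun ω => fl1 (D.a j) (D.t ω)) (Z j))
    (hZf : ∀ j ≤ N, Fn Q (fun ω => fl1 (D.rf j) (D.p ω)) (Z j)) :
    LS D Q Z (fun j ω => kI m d0 (e.T P (ia n E (lev j)) ω) (D.s j ω))
      (fun j ω => - aI m d0 (e.T P (ia n E (lev j)) ω)) (fun _ _ => False) K 3 hh q N where
  hy := hy
  un := un
  cp := cp
  rq := rq
  M0 := by norm_num
  Zl := hZl
  Zt := hZt
  Zf := hZf
  Zk := fun j hj ω ω' hω hω' hz => by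
    have h1 : e.T P (ia n E (lev j)) ω = e.T P (ia n E (lev j)) ω' := hZT j hj ω ω' hω hω' hz
    have h3 : D.s j ω = D.s j ω' := by
      have := hZt j hj ω ω' hω hω' hz
      unfold Inp.s rd
      beta_reduce at this
      rw [this]
    beta_reduce
    rw [h1, h3]
  Za := fun j hj ω ω' hω hω' hz => by
    have h1 : e.T P (ia n E (lev j)) ω = e.T P (ia n E (lev j)) ω' := hZT j hj ω ω' hω hω' hz
    beta_reduce
    rw [h1]
  ka := fun j hj ω hω => by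
    have h1 := (line_at h hL (ia_le n E (lev j)) hω).1
    have h3 := kI_sub m d0 (e.T P (ia n E (lev j)) ω) (tW ω) (D.s j ω)
    rw [hka ω hω, htW ω hω]
    have e1 : κ ω - (kI m d0 (e.T P (ia n E (lev j)) ω) (D.s j ω) -
        (tW ω - D.s j ω) * -aI m d0 (e.T P (ia n E (lev j)) ω)) =
        κ ω - kI m d0 (e.T P (ia n E (lev j)) ω) (tW ω) := by
      linear_combination h3
    rw [e1]
    refine h1.trans ?_
    have h5 := (hkk j hj).trans (H.le (lev j) (hlA j hj))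
    have h6 : q2 (d0.k + m * lv n E (some 1) (ia n E (lev j))) ≤ q2 (D.rk j) := by
      refine q2_le ?_
      rw [hDk j hj, hk, ← Nat.mul_add]
      refine Nat.mul_le_mul_left m ?_
      have : rR n E (lev j) = lv n E (some 1) (ia n E (lev j)) := rfl
      omega
    have h7 : (1 : ℝ) / 2 ^ (d0.k + m * lv n E (some 1) (ia n E (lev j))) =
        q2 (d0.k + m * lv n E (some 1) (ia n E (lev j))) := by
      have h8 := q2_mul_pow (d0.k + m * lv n E (some 1) (ia n E (lev j)))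
      rw [div_eq_iff (by positivity)]
      linarith
    rw [h7]
    have := q2_pos (D.rk j)
    linarith
  good := fun j hj ω hω _ => by
    rw [hg j hj ω hω, hDa j hj, hDk j hj]
    have e0 : -gAc m d0 g (lev j) ω - -aI m d0 (e.T P (ia n E (lev j)) ω) =
        aI m d0 (e.T P (ia n E (lev j)) ω) - gAc m d0 g (lev j) ω := by ring
    rw [e0]
    have h1 := near_q2 h H hκ2 hk ha (hlA j hj) (hkk j hj) hω
    have := q2_pos (m * (κ0 - 2 + kk j))
    linarith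

omit hL in
/-- **the field `unk`** : slopes `al ω = - aI`, precision `rk = m (κ0 - 2 + RC a)` -/
theorem unk_of (H : GC m d0 e P n E Q A G RC g c s) {κ0 : ℕ} (hκ2 : 2 ≤ κ0) (hk : d0.k = m * κ0)
    (h0a : d0.a = 0) {a : ℕ} (ha : a ≤ A) (hR : RC a + s + 1 ≤ rR n E a) {ω : Ω} (hω : 0 < Q.w ω) (x : ℝ) :
    prE Q (fun ω' => G ω' = G ω ∧ |(- aI m d0 (e.T P (ia n E a) ω')) - x| * q2 (m * a) ≤
      q2 (m * (κ0 - 2 + RC a) + m)) < (1 - c) * Q.pr G (G ω) := by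
  classical
  refine lt_of_le_of_lt ?_ (H.unk a ha hR ω hω ((-x - d0.al) / (2 ^ (d0.a + 2 * m) / 2 ^ d0.k)))
  have h0 : (0 : ℝ) < 2 ^ (d0.a + 2 * m) / 2 ^ d0.k := by positivity
  have hqa := q2_pos (m * a)
  unfold prE
  rw [Finset.sum_filter, Finset.sum_filter]
  refine Finset.sum_le_sum fun ω' _ => ?_
  rcases (Q.nn ω').eq_or_lt with hz | hω'
  · rw [← hz]; simp
  split_ifs with h1 h2 h2
  · exact le_rfl
  · exfalso
    refine h2 ⟨h1.1, ?_⟩
    have h3 := h1.2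
    rw [aI_alR h a hω'] at h3
    -- scaling
    have e1 : alR m d0 e P n E a ω' - (-x - d0.al) / (2 ^ (d0.a + 2 * m) / 2 ^ d0.k) =
        -(-absl m d0 (alR m d0 e P n E a ω') - x) / (2 ^ (d0.a + 2 * m) / 2 ^ d0.k) := by
      unfold absl
      field_simp
      ring
    rw [e1, abs_div, abs_neg, abs_of_pos h0, div_le_iff₀ h0]
    have hp := pr_q2 (m := m) hκ2 hk h0a a (RC a + 1)
    have e2 : m * (κ0 - 2 + (RC a + 1)) = m * (κ0 - 2 + RC a) + m := by ring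
    rw [e2] at hp
    rw [← hp] at h3
    have h4 := le_of_mul_le_mul_right h3 hqa
    refine h4.trans (le_of_eq ?_)
    rw [← scale_pr]
    push_cast
    rw [sub_sub]
  · exact Q.nn _
  · exact le_rfl

end

/-- **the field `prT`** (all `N = n + J` steps) : no exceptional event -/
theorem prT_of {Zt : Type*} {D : Inp Ω} {Z : ℕ → Ω → Zt} {kIx aIx : ℕ → Ω → ℝ} {K M : ℝ} {hh q N : ℕ}
    (H : LS D Q Z kIx aIx (fun _ _ => False) K M hh q N) {m' : ℕ} (hm : ∀ i < N, D.rk (i + 1) ≤ D.rk i + m') :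
    hc Q (D.T 0) (Z 0) + ∑ i ∈ range N, hc Q (D.T (i + 1)) (fun ω => (D.T i ω, Z (i + 1) ω)) ≤
      3 * LS.Lg K M * (N + 1) := by
  have h0 : prE Q (fun _ : Ω => False) = 0 := by
    unfold prE
    simp
  have h1 := H.sum_T (fun _ h => h) (c := 0) (fun _ _ => h0.le) hm
  refine h1.trans (le_of_eq ?_)
  rw [Real.sqrt_zero]
  ring

/-- **the field `kno`** with `c' = 0` -/
theorem kno_of {Zt : Type*} {D : Inp Ω} {Z : ℕ → Ω → Zt} {kIx aIx : ℕ → Ω → ℝ} {K M : ℝ} {hh q N : ℕ}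
    (H : LS D Q Z kIx aIx (fun _ _ => False) K M hh q N) {i : ℕ} (hi : i ≤ N) {K' : ℝ} (hK' : M + 1 ≤ K') :
    prE Q (fun ω => K' * q2 (D.rk i) < |(D.pth.F i ω).al - aIx i ω| * q2 (D.a i)) ≤ 0 := by
  refine (H.kno hi hK').trans (le_of_eq ?_)
  unfold prE
  simp

/-- **the letter of the cell is a function of the past** (and of the time) -/
theorem fnT_of (H : GC m d0 e P n E Q A G RC g c s) (D : Inp Ω) (lev : ℕ → ℕ) {i : ℕ}
    (hlA : ∀ j ≤ i, lev j ≤ A) (hg : ∀ j ≤ i, ∀ ω, 0 < Q.w ω → D.gA j ω = - gAc m d0 g (lev j) ω)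
    {V : Type*} (Y : Ω → V) (hG : Fn Q G Y) (ht : Fn Q (fun ω => fl1 (D.a i) (D.t ω)) Y) (hF : Fn Q D.FW Y)
    (hW : Fn Q D.tW Y) (hN : Fn Q D.Nc Y) : Fn Q (D.T i) Y := by
  refine D.T_fn Q Y i ht hF hW hN fun j hj ω ω' hω hω' hy => ?_
  rw [hg j hj ω hω, hg j hj ω' hω']
  unfold gAc
  rw [H.fn (lev j) (hlA j hj) ω ω' hω hω' (hG ω ω' hω hω' hy)]

/-! ### conditioning on a function of the past -/

section cond
variable {T : Type*} {Q1 : Law Ω} {w : Ω → T} {x : T}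

theorem supp_cond (hz : 0 < Q1.pr w x) {ω : Ω} (hω : 0 < (Q1.cond w x).w ω) : 0 < Q1.w ω ∧ w ω = x := by
  classical
  rw [Q1.cond_w w x hz] at hω
  split_ifs at hω with hc
  · refine ⟨?_, hc⟩
    by_contra hcon
    push Not at hcon
    exact absurd hω (not_lt.2 (div_nonpos_of_nonpos_of_nonneg hcon hz.le))
  · exact absurd hω (lt_irrefl _)

/-- masses given a value of the past -/
theorem prE_cond (hz : 0 < Q1.pr w x) (hw : Fn Q1 w G) {ω : Ω} (hω : 0 < (Q1.cond w x).w ω) (B : Ω → Prop) :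
    prE (Q1.cond w x) (fun ω' => G ω' = G ω ∧ B ω') = prE Q1 (fun ω' => G ω' = G ω ∧ B ω') / Q1.pr w x := by
  classical
  obtain ⟨h1, h2⟩ := supp_cond hz hω
  unfold prE
  rw [Finset.sum_filter, Finset.sum_filter, Finset.sum_div]
  refine Finset.sum_congr rfl fun ω' _ => ?_
  by_cases h3 : G ω' = G ω ∧ B ω'
  · rw [if_pos h3, if_pos h3, Q1.cond_w w x hz]
    rcases (Q1.nn ω').eq_or_lt with h0 | h0
    · rw [← h0]
      simp
    · rw [if_pos ((hw ω' ω h0 h1 h3.1).trans h2)]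
  · rw [if_neg h3, if_neg h3, zero_div]

theorem pr_cond (hz : 0 < Q1.pr w x) (hw : Fn Q1 w G) {ω : Ω} (hω : 0 < (Q1.cond w x).w ω) :
    (Q1.cond w x).pr G (G ω) = Q1.pr G (G ω) / Q1.pr w x := by
  classical
  have h := prE_cond hz hw hω (fun _ => True)
  have e1 : ∀ L : Law Ω, prE L (fun ω' => G ω' = G ω ∧ True) = L.pr G (G ω) := fun L => by
    unfold prE Law.pr
    refine Finset.sum_congr ?_ fun _ _ => rfl
    ext ω'
    simp
  rwa [e1, e1] at h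

/-- **transport of the closure to the law conditioned on the word** : precisions `R' a ω`, constant on the support -/
theorem gc_of_cond (hz : 0 < Q1.pr w x) (hw : Fn Q1 w G) (R' : ℕ → Ω → ℕ)
    (hR : ∀ a ≤ A, ∀ ω, 0 < Q1.w ω → w ω = x → R' a ω = RC a)
    (le : ∀ a ≤ A, ∀ ω, 0 < Q1.w ω → R' a ω ≤ rR n E a)
    (kn : ∀ a ≤ A, ∀ ω, 0 < Q1.w ω → |alR m d0 e P n E a ω - g a ω| ≤ 2 * ((2 : ℝ) ^ m) ^ ((a : ℤ) - R' a ω))
    (fn : ∀ a ≤ A, Fn Q1 (g a) G)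
    (unk : ∀ a ≤ A, ∀ ω, 0 < Q1.w ω → R' a ω + s + 1 ≤ rR n E a → ∀ y : ℝ,
      prE Q1 (fun ω' => G ω' = G ω ∧ |alR m d0 e P n E a ω' - y| ≤ ((2 : ℝ) ^ m) ^ ((a : ℤ) - R' a ω - 1)) <
        (1 - c) * Q1.pr G (G ω)) :
    GC m d0 e P n E (Q1.cond w x) A G RC g c s := by
  classical
  have hne : ∃ ω, 0 < (Q1.cond w x).w ω := by
    by_contra hcon
    push Not at hcon
    have h1 := (Q1.cond w x).sum_one
    have h2 : ∑ ω, (Q1.cond w x).w ω ≤ 0 := Finset.sum_nonpos fun ω _ => hcon ω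
    linarith
  refine ⟨fun a ha => ?_, fun a ha ω hω => ?_, fun a ha ω ω' hω hω' => ?_, fun a ha hRa ω hω y => ?_⟩
  · obtain ⟨ω, hω⟩ := hne
    obtain ⟨h1, h2⟩ := supp_cond hz hω
    rw [← hR a ha ω h1 h2]
    exact le a ha ω h1
  · obtain ⟨h1, h2⟩ := supp_cond hz hω
    rw [← hR a ha ω h1 h2]
    exact kn a ha ω h1
  · exact fn a ha ω ω' (supp_cond hz hω).1 (supp_cond hz hω').1
  · obtain ⟨h1, h2⟩ := supp_cond hz hω
    have h3 := hR a ha ω h1 h2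
    rw [prE_cond hz hw hω, pr_cond hz hw hω, ← mul_div_assoc]
    refine div_lt_div_of_pos_right ?_ hz
    rw [← h3]
    rw [← h3] at hRa
    exact unk a ha ω h1 hRa y

end cond

end Vale.Agent.P106.U.InpC
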