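import Vale.Agent.P106.U.H824.PrT
import Vale.Agent.P106.U.H824.LinkR
import Vale.Agent.P106.U.H449.Ti

/-!
# P106 / U / H824 : the ray side of the letter, instance (helper824)

Word 1 (`Cn`, strips `IsL`), second word `LinkR.datR` (relative), law `Q2` conditioned on it (`Cnd2`).  An input `D` of
785's letter with levels `a j = m lev j`, `rk j = m (κ0 - 2 + kk j)`, slopes `gA j = - gAb (lev j) (W ω)`,
`κ = ka` of the functional of the end label at the time `tW`.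

* `tw_ia` : 449's `tw` is `ia`.
* `ls_of` : the structure `PrT.LS` with `M = 3`; `bad j` = exceptional event of the level `lev j`, none at `j = 0`.
* `bad_le` : its probability is at most `c`.
* `g1_of`, `gg_of` : the fields `g1`, `gg` of `Hy` (size and agreement of the slopes), `K ≥ 5`.
-/

set_option autoImplicit false

namespace Vale.Agent.P106.U.InpR

open Finset Vale.Agent.P127 Vale.Agent.P127.Stk Vale.Agent.P106.U.H449 Vale.Agent.P106.U.StripL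
open Vale.Agent.P106.U.StripE Vale.Agent.P106.U.LinkW2 Vale.Agent.P106.U.LSide Vale.Agent.P106.U.LinkR
open Vale.Agent.P127.U.CellD (q2 rd q2_pos q2_le rd_err q2_mul_pow)
open Vale.Agent.P106.U.Cell Vale.Agent.P106.U.S3.PthW Vale.Agent.P106.U.PrT

theorem tw_ia (n : ℕ) (E : List (Lt 2)) (a : ℕ) : tw n E a = ia n E a := rfl

theorem Rw_rR (n : ℕ) (E : List (Lt 2)) (a : ℕ) : Rw n E 1 a = rR n E a := rfl

variable {Ω : Type} [Fintype Ω] {γ ζ₁ ζ₂ : Type} {S : Type*} {e : Rl Ω 2 (ℤ × ℤ) γ ζ₁ ζ₂} {P Q Q2 : Law Ω}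
  {n : ℕ} {E : List (Lt 2)} {q' : ℝ} {m : ℕ} {d0 : Ld} {tW κ : Ω → ℝ}

/-- precision of the level `a` in the units of the letter -/
theorem pr_q2 {κ0 : ℕ} (hκ2 : 2 ≤ κ0) (hk : d0.k = m * κ0) (ha : d0.a = 0) (a R : ℕ) :
    pr m d0 a R * q2 (m * a) = q2 (m * (κ0 - 2 + R)) := by
  obtain ⟨k1, rfl⟩ := Nat.exists_eq_add_of_le hκ2
  have e1 : 2 + k1 - 2 = k1 := by omega
  have h1 := q2_mul_pow (m * a)
  have h2 := q2_mul_pow (m * (k1 + R))
  unfold pr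
  rw [hk, ha, e1, Nat.zero_add]
  have h3 : (0 : ℝ) < 2 ^ (m * (2 + k1) + m * R) := by positivity
  rw [div_mul_eq_mul_div, div_eq_iff h3.ne', pow_add 2 (m * a)]
  have e2 : (2 : ℝ) ^ (m * (2 + k1) + m * R) = 2 ^ (2 * m) * 2 ^ (m * (k1 + R)) := by
    rw [← pow_add]
    congr 1
    ring
  rw [e2]
  linear_combination (2 ^ (2 * m)) * h1 - (2 ^ (2 * m)) * h2

variable (h : Cn e P Q n E q') (hL : IsL m d0 tW κ e) (hm : 3 ≤ m) (W : Ω → S) (c : ℝ) (hc0 : 0 ≤ c)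
  (hc1 : c < 1 / 2)

/-- the exceptional event of the step -/
def bad (lev : ℕ → ℕ) (j : ℕ) (ω : Ω) : Prop := j ≠ 0 ∧ bad2 (datR h hL hm W c hc0 hc1) (lev j) ω

theorem bad_zero (lev : ℕ → ℕ) (ω : Ω) : ¬ bad h hL hm W c hc0 hc1 lev 0 ω := fun hh => hh.1 rfl

theorem bad_le {A : ℕ} {E2 : Fin (A + 1) → ℕ} (h2 : (datR h hL hm W c hc0 hc1).Cnd2 Q2 A E2) (lev : ℕ → ℕ) (j : ℕ) :
    prE Q2 (bad h hL hm W c hc0 hc1 lev j) ≤ c := by
  classical
  refine le_trans ?_ (bad2_le h2 (lev j))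
  unfold prE
  refine Finset.sum_le_sum_of_subset_of_nonneg ?_ fun _ _ _ => Q2.nn _
  intro ω hω
  rw [Finset.mem_filter] at hω ⊢
  exact ⟨hω.1, hω.2.2⟩

/-- size of the slope of the state -/
theorem aI_bd (hm1 : 1 ≤ m) (ha : d0.a = 0) (a : ℕ) {ω : Ω} (hω : 0 < Q.w ω) (h' : Cn e P Q n E q')
    (hL' : IsL m d0 tW κ e) :
    |aI m d0 (e.T P (ia n E a) ω) - d0.al| ≤ 2 ^ (m * a + m + 2) / 2 ^ d0.k := by
  have h1 := al_T (P := P) hL' hm1 (Nat.zero_le (ia n E a)) ω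
  have hE := h'.hE ω hω
  have h2 : (ld m d0 (e.T P 0 ω)).al = d0.al := rfl
  have h0 : cnt (some 1) (e.T P 0 ω) = 0 := rfl
  rw [h2, h0, Nat.mul_zero, Nat.add_zero, cnt_of_wd hE (ia_le n E a) none, ha, Nat.zero_add] at h1
  refine h1.trans ?_
  have h3 := lv_ia_le h' a
  have h5 : (0 : ℝ) < 1 / 2 ^ (d0.k + m * cnt (some 1) (e.T P (ia n E a) ω)) := by positivity
  have h7 : (2 : ℝ) ^ (m * lv n E none (ia n E a) + m + 2) ≤ 2 ^ (m * a + m + 2) := by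
    refine pow_le_pow_right₀ (by norm_num) ?_
    have : m * lv n E none (ia n E a) ≤ m * a := Nat.mul_le_mul_left m h3
    omega
  refine (mul_le_mul_of_nonneg_left (sub_le_self _ h5.le) (by positivity)).trans ?_
  rw [mul_one_div]
  exact div_le_div_of_nonneg_right h7 (by positivity)

/-- **the ray side of the letter** -/
theorem ls_of {Zt : Type*} {A : ℕ} {E2 : Fin (A + 1) → ℕ} (h2 : (datR h hL hm W c hc0 hc1).Cnd2 Q2 A E2)
    {κ0 : ℕ} (hκ2 : 2 ≤ κ0) (hk : d0.k = m * κ0) (ha : d0.a = 0) (D : Inp Ω) (lev kk : ℕ → ℕ) (N : ℕ) {K : ℝ} {hh q : ℕ}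
    (h00 : lev 0 = 0) (hk0 : kk 0 = 0)
    (hkk : ∀ j ≤ N, ∀ ω, 0 < Q2.w ω → kk j ≤ (datR h hL hm W c hc0 hc1).RW (lev j) (W ω))
    (hDa : ∀ j ≤ N, D.a j = m * lev j) (hDk : ∀ j ≤ N, D.rk j = m * (κ0 - 2 + kk j))
    (hg : ∀ j ≤ N, ∀ ω, 0 < Q2.w ω → D.gA j ω = - gAb m d0 (datR h hL hm W c hc0 hc1) (lev j) (W ω))
    (hka : ∀ ω, 0 < Q2.w ω → (D.FW ω).ka = κ ω) (htW : ∀ ω, 0 < Q2.w ω → D.tW ω = tW ω)
    (hy : ∀ ω, 0 < Q2.w ω → D.Hy K hh ω)
    (un : ∀ ω, 0 < Q2.w ω →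
      |(D.FW ω).cN (D.l ω) (D.tW ω) ^ 2 + (D.FW ω).cV (D.l ω) (D.tW ω) ^ 2 - 1| ≤ K * q2 q)
    (cp : ∀ ω, 0 < Q2.w ω → D.p ω * (D.FW ω).cN (D.l ω) (D.tW ω) = (D.FW ω).cV (D.l ω) (D.tW ω))
    (rq : ∀ j ≤ N, D.rk j ≤ q)
    (Z : ℕ → Ω → Zt) (hZT : ∀ j ≤ N, Fn Q2 (fun ω => e.T P (ia n E (lev j)) ω) (Z j))
    (hZl : ∀ j ≤ N, Fn Q2 D.l (Z j)) (hZt : ∀ j ≤ N, Fn Q2 (fun ω => fl1 (D.a j) (D.t ω)) (Z j))
    (hZf : ∀ j ≤ N, Fn Q2 (fun ω => fl1 (D.rf j) (D.p ω)) (Z j)) :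
    LS D Q2 Z (fun j ω => kI m d0 (e.T P (ia n E (lev j)) ω) (D.s j ω))
      (fun j ω => - aI m d0 (e.T P (ia n E (lev j)) ω)) (bad h hL hm W c hc0 hc1 lev) K 3 hh q N where
  hy := hy
  un := un
  cp := cp
  rq := rq
  M0 := by norm_num
  Zl := hZl
  Zt := hZt
  Zf := hZf
  Zk := fun j hj ω ω' hω hω' hz => by
    have h1 : e.T P (ia n E (lev j)) ω = e.T P (ia n E (lev j)) ω' := hZT j hj ω ω' hω hω' hz
    have h3 : D.s j ω = D.s j ω' := by
      have := hZt j hj ω ω' hω hω' hz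
      unfold Inp.s rd
      beta_reduce at this
      rw [this]
    beta_reduce
    rw [h1, h3]
  Za := fun j hj ω ω' hω hω' hz => by
    have h1 : e.T P (ia n E (lev j)) ω = e.T P (ia n E (lev j)) ω' := hZT j hj ω ω' hω hω' hz
    beta_reduce
    rw [h1]
  ka := fun j hj ω hω => by
    have hωQ : 0 < Q.w ω := h2.ac ω hω
    have h1 := (line_at h hL (ia_le n E (lev j)) hωQ).1
    have h3 := kI_sub m d0 (e.T P (ia n E (lev j)) ω) (tW ω) (D.s j ω)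
    rw [hka ω hω, htW ω hω]
    have e1 : κ ω - (kI m d0 (e.T P (ia n E (lev j)) ω) (D.s j ω) -
        (tW ω - D.s j ω) * -aI m d0 (e.T P (ia n E (lev j)) ω)) =
        κ ω - kI m d0 (e.T P (ia n E (lev j)) ω) (tW ω) := by
      linear_combination h3
    rw [e1]
    refine h1.trans ?_
    have h4 : (datR h hL hm W c hc0 hc1).RW (lev j) (W ω) ≤ rR n E (lev j) :=
      (datR h hL hm W c hc0 hc1).RW_le' (lev j) (W ω)
    have h5 := (hkk j hj ω hω).trans h4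
    have h6 : q2 (d0.k + m * lv n E (some 1) (ia n E (lev j))) ≤ q2 (D.rk j) := by
      refine q2_le ?_
      rw [hDk j hj, hk, ← Nat.mul_add]
      refine Nat.mul_le_mul_left m ?_
      have : rR n E (lev j) = lv n E (some 1) (ia n E (lev j)) := rfl
      omega
    have h7 : (1 : ℝ) / 2 ^ (d0.k + m * lv n E (some 1) (ia n E (lev j))) =
        q2 (d0.k + m * lv n E (some 1) (ia n E (lev j))) := by
      have h8 := q2_mul_pow (d0.k + m * lv n E (some 1) (ia n E (lev j)))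
      rw [div_eq_iff (by positivity)]
      linarith
    rw [h7]
    have := q2_pos (D.rk j)
    linarith
  good := fun j hj ω hω hb => by
    have hωQ : 0 < Q.w ω := h2.ac ω hω
    rw [hg j hj ω hω, hDa j hj]
    set d := datR h hL hm W c hc0 hc1 with hd
    have e0 : -gAb m d0 d (lev j) (W ω) - -aI m d0 (e.T P (ia n E (lev j)) ω) =
        aI m d0 (e.T P (ia n E (lev j)) ω) - gAb m d0 d (lev j) (W ω) := by ring
    rw [e0]
    have hqq := q2_pos (m * lev j)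
    by_cases hj0 : j = 0
    · subst hj0
      have h1 := gAb_bd h hL hm W c hc0 hc1 (lev 0) hωQ
      have h3 := aI_bd (by omega : 1 ≤ m) ha (lev 0) hωQ h hL
      rw [h00] at h1 h3 ⊢
      rw [ha, Nat.zero_add, Nat.mul_zero, Nat.zero_add] at h1
      rw [Nat.mul_zero, Nat.zero_add] at h3
      have h4 : |aI m d0 (e.T P (ia n E 0) ω) - gAb m d0 d 0 (W ω)| ≤
          |aI m d0 (e.T P (ia n E 0) ω) - d0.al| + |gAb m d0 d 0 (W ω) - d0.al| := by
        have := abs_sub_le (aI m d0 (e.T P (ia n E 0) ω)) d0.al (gAb m d0 d 0 (W ω))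
        rwa [abs_sub_comm d0.al] at this
      have h5 : (2 : ℝ) ^ (m + 2) / 2 ^ d0.k ≤ 2 ^ (2 * m) / 2 ^ d0.k :=
        div_le_div_of_nonneg_right (pow_le_pow_right₀ (by norm_num) (by omega)) (by positivity)
      have h6 : (2 : ℝ) ^ (2 * m) / 2 ^ d0.k = q2 (D.rk 0) := by
        have h7 := pr_q2 (m := m) hκ2 hk ha 0 0
        have e3 : q2 (m * 0) = 1 := by
          have := q2_mul_pow 0
          simpa using this
        rw [e3, mul_one] at h7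
        rw [hDk 0 (Nat.zero_le _), hk0, ← h7]
        unfold pr
        rw [ha, Nat.zero_add, Nat.mul_zero, Nat.zero_add, Nat.add_zero]
      have e3 : q2 (m * 0) = 1 := by
        have := q2_mul_pow 0
        simpa using this
      rw [e3, mul_one, ← h6]
      linarith
    · have hb' : ¬ bad2 d (lev j) ω := fun h' => hb ⟨hj0, h'⟩
      have h1 := lside_al h hL hm W c hc0 hc1 (lev j) hωQ hb'
      have h3 := mul_le_mul_of_nonneg_right h1 hqq.le
      rw [pr_q2 hκ2 hk ha] at h3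
      refine h3.trans ?_
      have h4 : q2 (m * (κ0 - 2 + d.RW (lev j) (W ω))) ≤ q2 (D.rk j) := by
        refine q2_le ?_
        rw [hDk j hj]
        exact Nat.mul_le_mul_left m (Nat.add_le_add_left (hkk j hj ω hω) _)
      have := q2_pos (D.rk j)
      linarith

/-- **size of the slopes** (field `g1` of `Hy`) : `|d0.al| ≤ 1` -/
theorem g1_of (hκ2 : 2 ≤ d0.k) (hal : |d0.al| ≤ 1) (ha : d0.a = 0) (h2m : 2 * m ≤ d0.k) (a : ℕ) {ω : Ω}
    (hω : 0 < Q.w ω) : |gAb m d0 (datR h hL hm W c hc0 hc1) a (W ω)| * q2 (m * a) ≤ 3 := by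
  have h1 := gAb_bd h hL hm W c hc0 hc1 a hω
  rw [ha, Nat.zero_add] at h1
  have h3 : |gAb m d0 (datR h hL hm W c hc0 hc1) a (W ω)| ≤
      |gAb m d0 (datR h hL hm W c hc0 hc1) a (W ω) - d0.al| + |d0.al| := by
    have := abs_add_le (gAb m d0 (datR h hL hm W c hc0 hc1) a (W ω) - d0.al) d0.al
    rwa [sub_add_cancel] at this
  have h4 : (2 : ℝ) ^ (m * a + 2 * m) / 2 ^ d0.k ≤ 2 ^ (m * a) := by
    rw [div_le_iff₀ (by positivity), pow_add]
    exact mul_le_mul_of_nonneg_left (pow_le_pow_right₀ (by norm_num) h2m) (by positivity)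
  have h5 : (1 : ℝ) ≤ 2 ^ (m * a) := one_le_pow₀ (by norm_num)
  have h6 := q2_mul_pow (m * a)
  have h7 := q2_pos (m * a)
  have h8 : |gAb m d0 (datR h hL hm W c hc0 hc1) a (W ω)| ≤ 3 * 2 ^ (m * a) := by linarith
  have h9 := mul_le_mul_of_nonneg_right h8 h7.le
  linarith

/-- **agreement of the slopes** (field `gg` of `Hy`) -/
theorem gg_of {κ0 : ℕ} (hκ2 : 2 ≤ κ0) (hk : d0.k = m * κ0) (ha : d0.a = 0) {a b r : ℕ} (hab : a ≤ b) {ω : Ω}
    (hω : 0 < Q.w ω) (hr : r ≤ (datR h hL hm W c hc0 hc1).RW a (W ω)) :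
    |gAb m d0 (datR h hL hm W c hc0 hc1) b (W ω) - gAb m d0 (datR h hL hm W c hc0 hc1) a (W ω)| * q2 (m * b) ≤
      4 * q2 (m * (κ0 - 2 + r)) := by
  obtain ⟨k, rfl⟩ := Nat.exists_eq_add_of_le hab
  have h1 := gAb_close h hL hm W c hc0 hc1 a k hω
  have h3 := mul_le_mul_of_nonneg_right h1 (q2_pos (m * (a + k))).le
  rw [mul_assoc, pr_q2 hκ2 hk ha] at h3
  refine h3.trans ?_
  have h4 : q2 (m * (κ0 - 2 + (datR h hL hm W c hc0 hc1).RW a (W ω))) ≤ q2 (m * (κ0 - 2 + r)) :=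
    q2_le (Nat.mul_le_mul_left m (Nat.add_le_add_left hr _))
  linarith

end Vale.Agent.P106.U.InpR
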