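import Vale.Agent.P106.U.H824.InpC
import Vale.Agent.P106.U.H465.FWn
import Vale.Agent.P106.U.H823.NumG

/-!
# P106 / U / H824 : the cells of a run (helper824)

`inp` : helper785's input of the letter with the levels of helper823's `PN`, the functional of the label `W`
(helper786 / helper465) and the slopes `- gAc (li j)` of the closure.

* `Hw` : hypotheses (word 1, closure, normal form of the label, compatibility at ONE level `Ac` above all levels).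
* `Hw.hy` : all fields of `PthW.Inp.Hy`, class `6`, at the level `A'`; hence `ok : Ok 648`, `agW : Agr 648`.
* `Hw.ls`, `prT`, `kno`, `fnT`, `unk`, `alW`, `FWW`, `FWn`, `Cp`, `FWf` : fields of 404's `Run.Ok`.
-/

set_option autoImplicit false

namespace Vale.Agent.P106.U.InpW

open Finset Vale.Agent.P127 Vale.Agent.P127.Stk Vale.Agent.P106.U.H449 Vale.Agent.P106.U.StripL
open Vale.Agent.P106.U.StripE Vale.Agent.P106.U.LinkW2 Vale.Agent.P106.U.LSide Vale.Agent.P106.U.LinkR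
open Vale.Agent.P127.U.CellD (q2 rd q2_pos q2_le rd_err q2_mul_pow)
open Vale.Agent.P106.U.Cell Vale.Agent.P106.U.S3.PthW Vale.Agent.P106.U.PrT Vale.Agent.P106.U.InpR
open Vale.Agent.P106.U.InpC Vale.Agent.P106.U.H823.PathNum
open Vale.Agent.P106.K (Ry RyOk)
open Vale.Agent.P106.W
open Vale.Agent.P106.U.H786.Adp (FW toR toF fuW FW_ka FW_al)
open Vale.Agent.P106.U.H465.FWn (FWok XcW NcW pW FW_fn)

variable {Ω : Type} [Fintype Ω] {γ ζ₁ ζ₂ : Type} {S : Type*}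

omit [Fintype Ω] in
/-- **the input of the letter** -/
noncomputable def inp (D : PN) (θ : ℝ) (h μ : ℕ) (o : Fin 7 → ℝ) (oK oG oN : ℝ) (ry : Ω → Ry) (t : Ω → ℝ)
    (W : Ω → Cbx) (m : ℕ) (d0 : Ld) (g : ℕ → Ω → ℝ) : Inp Ω where
  a := D.la
  rf := D.lf
  rk := D.lk
  ha := D.la_mono
  hf := D.lf_mono
  hk := D.lk_mono
  hkf := D.lkf
  μ := μ
  o := o
  l := fun ω => toR θ (ry ω)
  t := t
  p := fun ω => pW θ h (W ω) (ry ω) (t ω)
  FW := fun ω => FW θ h (W ω) (t ω)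
  tW := fun ω => rd h (t ω)
  Xc := fun ω => XcW θ h (W ω)
  Nc := fun ω => NcW θ h (W ω)
  gA := fun j ω => - gAc m d0 g (D.li j) ω
  oK := oK
  oG := oG
  oN := oN

/-- **hypotheses** -/
structure Hw (D : PN) (θ : ℝ) (h q Rm A' μ : ℕ) (ry : Ω → Ry) (t : Ω → ℝ) (W : Ω → Cbx) (m κ0 : ℕ) (d0 : Ld)
    (e : Rl Ω 2 (ℤ × ℤ) γ ζ₁ ζ₂) (P : Law Ω) (n : ℕ) (E : List (Lt 2)) (Q : Law Ω) (q' : ℝ) (A : ℕ) (G : Ω → S)
    (RC : ℕ → ℕ) (g : ℕ → Ω → ℝ) (c : ℝ) (s Ac rc : ℕ) : Prop where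
  cn : Cn e P Q n E q'
  isl : IsL m d0 (fun ω => rd h (t ω)) (fun ω => (FW θ h (W ω) (t ω)).ka) e
  gc : GC m d0 e P n E Q A G RC g c s
  m3 : 3 ≤ m
  κ2 : 2 ≤ κ0
  k0 : d0.k = m * κ0
  a0 : d0.a = 0
  al0 : |d0.al| ≤ 1
  Dm : D.m = m
  Dr : D.r0 = m * (κ0 - 2)
  DR : ∀ a ≤ Ac, D.R a = RC a
  li : ∀ i, D.li i ≤ Ac
  AA : Ac ≤ A
  mA : m * Ac ≤ A'
  A'h : A' ≤ h
  /-- normal form of the label -/
  fw : ∀ ω, 0 < Q.w ω → FWok θ h q Rm (W ω) (ry ω) (t ω)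
  μR : 2 * μ + 2 ≤ Rm
  /-- compatibility at the level `Ac`, precision `rc` at least that of the path -/
  cmp : ∀ ω, 0 < Q.w ω → |(- gAc m d0 g Ac ω) - (FW θ h (W ω) (t ω)).al| * q2 A' ≤ q2 rc
  crc : ∀ i, D.lk i ≤ rc
  r0 : 3888 * q2 (m * (κ0 - 2)) ≤ 1
  rq : ∀ i, D.lk i ≤ q

namespace Hw

variable {D : PN} {θ : ℝ} {h q Rm A' μ : ℕ} {ry : Ω → Ry} {t : Ω → ℝ} {W : Ω → Cbx} {m κ0 : ℕ} {d0 : Ld}
  {e : Rl Ω 2 (ℤ × ℤ) γ ζ₁ ζ₂} {P : Law Ω} {n : ℕ} {E : List (Lt 2)} {Q : Law Ω} {q' : ℝ} {A : ℕ} {G : Ω → S}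
  {RC : ℕ → ℕ} {g : ℕ → Ω → ℝ} {c : ℝ} {s Ac rc : ℕ} {o : Fin 7 → ℝ} {oK oG oN : ℝ}

section

variable (H : Hw D θ h q Rm A' μ ry t W m κ0 d0 e P n E Q q' A G RC g c s Ac rc)

include H

theorem la_eq (i : ℕ) : D.la i = m * D.li i := by
  rw [← H.Dm]
  rfl

theorem lk_eq (i : ℕ) : D.lk i = m * (κ0 - 2 + D.L.k (D.ix i)) := by
  show D.r0 + D.m * D.L.k (D.ix i) = _
  rw [H.Dr, H.Dm, ← Nat.mul_add]

theorem kk_le (i : ℕ) : D.L.k (D.ix i) ≤ RC (D.li i) := by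
  rw [← H.DR _ (H.li i)]
  exact D.L.k_le _

theorem RC_mono (a b : ℕ) (hab : a ≤ b) (hb : b ≤ Ac) : RC a ≤ RC b := by
  rw [← H.DR a (hab.trans hb), ← H.DR b hb]
  exact D.nm.Rm hab

theorem lk_ge (i : ℕ) : m * (κ0 - 2) ≤ D.lk i := by
  rw [H.lk_eq i]
  exact Nat.mul_le_mul_left m (Nat.le_add_right _ _)

theorem la_le (i : ℕ) : D.la i ≤ A' := by
  rw [H.la_eq i]
  exact (Nat.mul_le_mul_left m (H.li i)).trans H.mA

/-- the slopes against the slope of the label -/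
theorem gW {ω : Ω} (hω : 0 < Q.w ω) {a r : ℕ} (ha : a ≤ Ac) (hr : r ≤ RC a) (hrc : m * (κ0 - 2 + r) ≤ rc) :
    |(- gAc m d0 g a ω) - (FW θ h (W ω) (t ω)).al| * q2 A' ≤ 6 * q2 (m * (κ0 - 2 + r)) := by
  have h1 := H.gc
  -- agreement up to the level `Ac`
  have h2 : |gAc m d0 g Ac ω - gAc m d0 g a ω| * q2 (m * Ac) ≤ 5 * q2 (m * (κ0 - 2 + r)) := by
    have gcA : GC m d0 e P n E Q Ac G RC g c s :=
      ⟨fun b hb => h1.le b (hb.trans H.AA), fun b hb => h1.kn b (hb.trans H.AA), fun b hb => h1.fn b (hb.trans H.AA),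
        fun b hb => h1.unk b (hb.trans H.AA)⟩
    exact gg_ofC H.cn H.isl gcA (by have := H.m3; omega) H.κ2 H.k0 H.a0 H.RC_mono ha le_rfl hω hr
  have h3 := H.cmp ω hω
  have h4 : q2 rc ≤ q2 (m * (κ0 - 2 + r)) := q2_le hrc
  have hq := q2_pos A'
  have h5 : |gAc m d0 g Ac ω - gAc m d0 g a ω| * q2 A' ≤ |gAc m d0 g Ac ω - gAc m d0 g a ω| * q2 (m * Ac) :=
    mul_le_mul_of_nonneg_left (q2_le H.mA) (abs_nonneg _)
  have h6 : |(- gAc m d0 g a ω) - (FW θ h (W ω) (t ω)).al| ≤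
      |gAc m d0 g Ac ω - gAc m d0 g a ω| + |(- gAc m d0 g Ac ω) - (FW θ h (W ω) (t ω)).al| := by
    have := abs_add_le (gAc m d0 g Ac ω - gAc m d0 g a ω) ((- gAc m d0 g Ac ω) - (FW θ h (W ω) (t ω)).al)
    have e1 : gAc m d0 g Ac ω - gAc m d0 g a ω + ((- gAc m d0 g Ac ω) - (FW θ h (W ω) (t ω)).al) =
        (- gAc m d0 g a ω) - (FW θ h (W ω) (t ω)).al := by ring
    rwa [e1] at this
  have h7 := mul_le_mul_of_nonneg_right h6 hq.le
  rw [add_mul] at h7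
  linarith

/-- size of the slope of the label -/
theorem alW {ω : Ω} (hω : 0 < Q.w ω) : |(FW θ h (W ω) (t ω)).al| * q2 A' ≤ 5 := by
  have h1 := H.cmp ω hω
  have h2 := g1_ofC H.cn H.isl H.gc (by have := H.m3; omega) H.κ2 H.k0 H.a0 H.al0 H.AA hω
  have hq := q2_pos A'
  have h3 : |gAc m d0 g Ac ω| * q2 A' ≤ 4 :=
    (mul_le_mul_of_nonneg_left (q2_le H.mA) (abs_nonneg _)).trans h2
  have h4 : q2 rc ≤ 1 := Inp.q2_one
  have h5 : |(FW θ h (W ω) (t ω)).al| ≤ |(- gAc m d0 g Ac ω) - (FW θ h (W ω) (t ω)).al| + |gAc m d0 g Ac ω| := by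
    have := abs_add_le (-((- gAc m d0 g Ac ω) - (FW θ h (W ω) (t ω)).al)) (- gAc m d0 g Ac ω)
    have e1 : -((- gAc m d0 g Ac ω) - (FW θ h (W ω) (t ω)).al) + (- gAc m d0 g Ac ω) =
        (FW θ h (W ω) (t ω)).al := by ring
    rw [e1, abs_neg, abs_neg] at this
    exact this
  have h6 := mul_le_mul_of_nonneg_right h5 hq.le
  rw [add_mul] at h6
  linarith

/-- **all hypotheses of the letter**, class `6`, level `A'` -/
theorem hy {ω : Ω} (hω : 0 < Q.w ω) : (inp D θ h μ o oK oG oN ry t W m d0 g).Hy 6 A' ω where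
  K1 := by norm_num
  v1 := (H.fw ω hω).v2
  w1 := (H.fw ω hω).w2
  p1 := by
    refine (H.fw ω hω).p1.trans ?_
    have h1 : q2 Rm ≤ q2 (2 * μ + 2) := q2_le H.μR
    have h2 : q2 (2 * μ + 2) = q2 (2 * μ) * (1 / 4) := by
      unfold q2
      rw [pow_add]
      norm_num
    show 4 * q2 Rm ≤ q2 (2 * μ)
    linarith
  n1 := by
    have := (H.fw ω hω).c1
    show 1 ≤ 6 * (FW θ h (W ω) (t ω)).cN (toR θ (ry ω)) (rd h (t ω))
    linarith
  n2 := by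
    have := (H.fw ω hω).c2
    show (FW θ h (W ω) (t ω)).cN (toR θ (ry ω)) (rd h (t ω)) ≤ 6
    linarith
  k1 := by
    have := (H.fw ω hω).ka
    show |(FW θ h (W ω) (t ω)).ka| ≤ 6
    linarith
  lev := H.la_le
  tm := fun i => by
    show |rd h (t ω) - rd (D.la i) (t ω)| ≤ 6 * q2 (D.la i)
    have h1 := rd_err h (t ω)
    have h2 := rd_err (D.la i) (t ω)
    have h3 : q2 h ≤ q2 (D.la i) := q2_le ((H.la_le i).trans H.A'h)
    have h4 := abs_sub (rd h (t ω) - t ω) (rd (D.la i) (t ω) - t ω)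
    have e1 : rd h (t ω) - t ω - (rd (D.la i) (t ω) - t ω) = rd h (t ω) - rd (D.la i) (t ω) := by ring
    rw [e1] at h4
    have := q2_pos (D.la i)
    linarith
  Nc := by
    have h1 := (H.fw ω hω).N
    have h2 : q2 h ≤ q2 A' := q2_le H.A'h
    have h3 := q2_pos A'
    show |(toR θ (ry ω)).N (rd h (t ω)) - NcW θ h (W ω)| ≤ 6 * q2 A'
    linarith
  g1 := fun i => by
    have h1 := g1_ofC H.cn H.isl H.gc (by have := H.m3; omega) H.κ2 H.k0 H.a0 H.al0 ((H.li i).trans H.AA) hω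
    show |(- gAc m d0 g (D.li i) ω)| * q2 (D.la i) ≤ 6
    rw [abs_neg, H.la_eq i]
    linarith
  gg := fun i j hij => by
    have h1 := H.gc
    have gcA : GC m d0 e P n E Q Ac G RC g c s :=
      ⟨fun b hb => h1.le b (hb.trans H.AA), fun b hb => h1.kn b (hb.trans H.AA), fun b hb => h1.fn b (hb.trans H.AA),
        fun b hb => h1.unk b (hb.trans H.AA)⟩
    have h2 := gg_ofC H.cn H.isl gcA (by have := H.m3; omega) H.κ2 H.k0 H.a0 H.RC_mono (D.li_mono hij) (H.li j) hω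
      (H.kk_le i)
    show |(- gAc m d0 g (D.li j) ω) - (- gAc m d0 g (D.li i) ω)| * q2 (D.la j) ≤ 6 * q2 (D.lk i)
    have e1 : (- gAc m d0 g (D.li j) ω) - (- gAc m d0 g (D.li i) ω) =
        -(gAc m d0 g (D.li j) ω - gAc m d0 g (D.li i) ω) := by ring
    rw [e1, abs_neg, H.la_eq j, H.lk_eq i]
    have := q2_pos (m * (κ0 - 2 + D.L.k (D.ix i)))
    linarith
  gW := fun i => by
    have h1 := H.gW hω (H.li i) (H.kk_le i) (by rw [← H.lk_eq i]; exact H.crc i)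
    rw [← H.lk_eq i] at h1
    exact h1
  r0 := fun i => by
    have h1 := H.r0
    have h2 : q2 (D.lk i) ≤ q2 (m * (κ0 - 2)) := q2_le (H.lk_ge i)
    show 18 * (6 : ℝ) ^ 3 * q2 (D.lk i) ≤ 1
    norm_num
    linarith

/-- **the cells are normal**, class `648` -/
theorem ok {ω : Ω} (hω : 0 < Q.w ω) : (inp D θ h μ o oK oG oN ry t W m d0 g).pth.Ok 648 ω := by
  have h1 := (H.hy (o := o) (oK := oK) (oG := oG) (oN := oN) hω).ok
  norm_num at h1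
  exact h1

/-- **the functionals of the path agree with the functional of the label** -/
theorem agW {ω : Ω} (hω : 0 < Q.w ω) (i : ℕ) : Pth.Agr 648 (D.lk i) A'
    (((inp D θ h μ o oK oG oN ry t W m d0 g).pth.F i ω).sh (rd h (t ω) - rd (D.la i) (t ω))) (FW θ h (W ω) (t ω))
    (toR θ (ry ω)) (rd h (t ω)) := by
  have h1 := (H.hy (o := o) (oK := oK) (oG := oG) (oN := oN) hω).agW i
  norm_num at h1
  exact h1

/-- **the ray side of the letter** -/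
theorem ls {Zt : Type*} (N : ℕ) (Z : ℕ → Ω → Zt) (hZT : ∀ j ≤ N, Fn Q (fun ω => e.T P (ia n E (D.li j)) ω) (Z j))
    (hZl : ∀ j ≤ N, Fn Q ry (Z j)) (hZt : ∀ j ≤ N, Fn Q (fun ω => fl1 (D.la j) (t ω)) (Z j))
    (hZf : ∀ j ≤ N, Fn Q (fun ω => fl1 (D.lf j) (pW θ h (W ω) (ry ω) (t ω))) (Z j)) :
    LS (inp D θ h μ o oK oG oN ry t W m d0 g) Q Z
      (fun j ω => kI m d0 (e.T P (ia n E (D.li j)) ω) (rd (D.la j) (t ω)))
      (fun j ω => - aI m d0 (e.T P (ia n E (D.li j)) ω)) (fun _ _ => False) 6 3 A' q N :=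
  ls_ofC H.cn H.isl H.gc H.κ2 H.k0 H.a0 (inp D θ h μ o oK oG oN ry t W m d0 g) D.li (fun j => D.L.k (D.ix j)) N
    (fun j _ => (H.li j).trans H.AA) (fun j _ => H.kk_le j) (fun j _ => H.la_eq j) (fun j _ => H.lk_eq j)
    (fun _ _ _ _ => rfl) (fun _ _ => rfl) (fun _ _ => rfl) (fun _ hω => H.hy hω)
    (fun ω hω => by
      refine (H.fw ω hω).unit.trans ?_
      have := q2_pos q
      linarith)
    (fun ω hω => (H.fw ω hω).cp) (fun j _ => H.rq j) Z hZT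
    (fun j hj ω ω' hω hω' hz => by
      have h1 : ry ω = ry ω' := hZl j hj ω ω' hω hω' hz
      show toR θ (ry ω) = toR θ (ry ω')
      rw [h1])
    hZt hZf

end

end Hw

end Vale.Agent.P106.U.InpW
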