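import Vale.Agent.P106.U.H824.StripE
import Vale.Agent.P106.U.H785.Word2

/-!
# P106 / U / H824 : word 1 gives the data of the second word (helper824)

* `ia n E a` : index of the last state of level `a` of the word `E`; `lv_ia`, `ia_mono`.
* `alW` : slope of the line of this state (divided by `2 ^ d0.a`), `0` if the word is not `E`.
* `rI κ0 n E a` : number of blocks of the line known at this state.
* `dat` : `H785.Dat` with `B = 2 ^ m`, margin `s = 2`, law `Q` of `H449.Cn`.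
-/

set_option autoImplicit false

namespace Vale.Agent.P106.U.LinkW2

open Finset Vale.Agent.P127 Vale.Agent.P127.Stk Vale.Agent.P106.U.H449 Vale.Agent.P106.U.StripL
open Vale.Agent.P106.U.StripE

variable {Ω : Type} [Fintype Ω] {γ ζ₁ ζ₂ : Type}

/-- index of the last state of level `a` -/
noncomputable def ia (n : ℕ) (E : List (Lt 2)) (a : ℕ) : ℕ :=
  Nat.findGreatest (fun i => lv n E none i ≤ a) n

theorem ia_le (n : ℕ) (E : List (Lt 2)) (a : ℕ) : ia n E a ≤ n := Nat.findGreatest_le n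

/-- numbers of steps from the word -/
theorem cnt_of_wd {K : ℕ} {δ γ : Type} {e : Rl Ω K δ γ ζ₁ ζ₂} {P : Law Ω} {n : ℕ} {E : List (Lt K)}
    {ω : Ω} (h : e.wd P n ω = E) {i : ℕ} (hi : i ≤ n) (k : Option (Fin K)) :
    cnt k (e.T P i ω) = lv n E k i := by
  have h1 := Rl.wd_drop (e := e) (P := P) i (n - i) ω
  rw [Nat.add_sub_of_le hi, h] at h1
  unfold cnt lv
  rw [h1]
  rfl

section

variable {e : Rl Ω 2 (ℤ × ℤ) γ ζ₁ ζ₂} {P Q : Law Ω} {n : ℕ} {E : List (Lt 2)} {q : ℝ}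
  (h : Cn e P Q n E q)

include h

theorem lv_ia_le (a : ℕ) : lv n E none (ia n E a) ≤ a := by
  unfold ia
  exact Nat.findGreatest_spec (P := fun i => lv n E none i ≤ a) (Nat.zero_le n)
    (by rw [h.lv_zero]; exact Nat.zero_le a)

theorem lv_ia {a : ℕ} (ha : a ≤ lv n E none n) : lv n E none (ia n E a) = a := by
  refine le_antisymm (lv_ia_le h a) ?_
  by_contra hcon
  push Not at hcon
  have h1 := ia_le n E a
  have h2 : ia n E a < n := by
    rcases h1.lt_or_eq with h2 | h2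
    · exact h2
    · rw [h2] at hcon
      omega
  have h3 := h.lv_succ none h2
  have h4 : lv n E none (ia n E a + 1) ≤ a := by
    rw [h3]
    split_ifs <;> omega
  have h5 := Nat.le_findGreatest (P := fun i => lv n E none i ≤ a) (n := n) h2 h4
  have h6 : ia n E a + 1 ≤ ia n E a := h5
  omega

theorem ia_mono {a b : ℕ} (hab : a ≤ b) : ia n E a ≤ ia n E b := by
  unfold ia
  refine Nat.le_findGreatest (Nat.findGreatest_le n) ?_
  exact (lv_ia_le h a).trans hab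

end

/-- slope of the line of the last state of level `a` -/
noncomputable def alW (m : ℕ) (d0 : Ld) (e : Rl Ω 2 (ℤ × ℤ) γ ζ₁ ζ₂) (P : Law Ω) (n : ℕ)
    (E : List (Lt 2)) (a : ℕ) (ω : Ω) : ℝ :=
  open Classical in
  if e.wd P n ω = E then (ld m d0 (e.T P (ia n E a) ω)).al / 2 ^ d0.a else 0

/-- number of known blocks of the line of the last state of level `a` -/
noncomputable def rI (κ0 n : ℕ) (E : List (Lt 2)) (a : ℕ) : ℕ := κ0 + lv n E (some 1) (ia n E a)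

section dat

variable {e : Rl Ω 2 (ℤ × ℤ) γ ζ₁ ζ₂} {P Q : Law Ω} {n : ℕ} {E : List (Lt 2)} {q : ℝ}
  {m : ℕ} {d0 : Ld} {t κ : Ω → ℝ} {κ0 : ℕ}

theorem rI_mono (h : Cn e P Q n E q) : Monotone (rI κ0 n E) := by
  intro a b hab
  unfold rI
  have := h.lv_mono (some 1) (ia_mono h hab) (ia_le n E b)
  omega

theorem alW_bd (h : Cn e P Q n E q) (hL : IsL m d0 t κ e) (hm : 3 ≤ m) (hκ : d0.k = m * κ0)
    (h2 : 2 ≤ κ0) (hal : |d0.al| ≤ 2 ^ d0.a / 2) (a : ℕ) (ω : Ω) :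
    |alW m d0 e P n E a ω| ≤ ((2 : ℝ) ^ m) ^ (a : ℤ) := by
  classical
  have hp : (0 : ℝ) < 2 ^ d0.a := by positivity
  unfold alW
  split_ifs with hE
  · have h1 := al_le (P := P) hL (by omega) (ia n E a) ω
    rw [cnt_of_wd hE (ia_le n E a) none] at h1
    have h3 := lv_ia_le h a
    rw [abs_div, abs_of_pos hp, div_le_iff₀ hp]
    refine h1.trans ?_
    have h4 : (2 : ℝ) ^ (d0.a + m * lv n E none (ia n E a) + m + 2) / 2 ^ d0.k ≤
        2 ^ d0.a * 2 ^ (m * a) / 2 := by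
      rw [div_le_iff₀ (by positivity)]
      have h5 : (2 : ℝ) ^ d0.a * 2 ^ (m * a) / 2 * 2 ^ d0.k = 2 ^ (d0.a + m * a + d0.k) / 2 := by
        rw [pow_add, pow_add]; ring
      rw [h5, le_div_iff₀ (by norm_num), ← pow_succ]
      refine pow_le_pow_right₀ (by norm_num) ?_
      rw [hκ]
      have h6 : m * lv n E none (ia n E a) ≤ m * a := Nat.mul_le_mul_left m h3
      have h7 : m * 2 ≤ m * κ0 := Nat.mul_le_mul_left m h2
      omega
    have h6 : (1 : ℝ) ≤ 2 ^ (m * a) := one_le_pow₀ (by norm_num)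
    have h7 : ((2 : ℝ) ^ m) ^ (a : ℤ) = 2 ^ (m * a) := by
      rw [zpow_natCast, ← pow_mul]
    rw [h7]
    nlinarith
  · rw [abs_zero]
    positivity

theorem alW_ag (h : Cn e P Q n E q) (hL : IsL m d0 t κ e) (hm : 3 ≤ m) (hκ : d0.k = m * κ0)
    (a : ℕ) (ω : Ω) (hω : 0 < Q.w ω) :
    |alW m d0 e P n E (a + 1) ω - alW m d0 e P n E a ω| ≤
      ((2 : ℝ) ^ m - 1) * ((2 : ℝ) ^ m) ^ ((a : ℤ) + (2 : ℕ) - rI κ0 n E a) := by
  classical
  have hp : (0 : ℝ) < 2 ^ d0.a := by positivity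
  have hE := h.hE ω hω
  unfold alW
  rw [if_pos hE, if_pos hE, ← sub_div, abs_div, abs_of_pos hp, div_le_iff₀ hp]
  have h1 := al_T (P := P) hL (by omega) (ia_mono h (Nat.le_succ a)) ω
  rw [cnt_of_wd hE (ia_le n E _) none, cnt_of_wd hE (ia_le n E _) (some 1)] at h1
  refine h1.trans ?_
  have h3 := lv_ia_le h (a + 1)
  set c1 := lv n E (some 1) (ia n E a) with hc1
  have h4 : (2 : ℝ) ^ (d0.a + m * lv n E none (ia n E (a + 1)) + m + 2) *
      (1 / 2 ^ (d0.k + m * c1) - 1 / 2 ^ (d0.k + m * cnt (some 1) (e.T P (ia n E (a + 1)) ω))) ≤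
      2 ^ (d0.a + m * (a + 1) + m + 2) * (1 / 2 ^ (d0.k + m * c1)) := by
    have h5 : (0 : ℝ) < 1 / 2 ^ (d0.k + m * cnt (some 1) (e.T P (ia n E (a + 1)) ω)) := by
      positivity
    have h6 : (0 : ℝ) < 1 / 2 ^ (d0.k + m * c1) := by positivity
    have h7 : (2 : ℝ) ^ (d0.a + m * lv n E none (ia n E (a + 1)) + m + 2) ≤
        2 ^ (d0.a + m * (a + 1) + m + 2) := by
      refine pow_le_pow_right₀ (by norm_num) ?_
      have : m * lv n E none (ia n E (a + 1)) ≤ m * (a + 1) := Nat.mul_le_mul_left m h3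
      omega
    refine (mul_le_mul_of_nonneg_left (sub_le_self _ h5.le) (by positivity)).trans ?_
    exact mul_le_mul_of_nonneg_right h7 h6.le
  refine h4.trans ?_
  have e1 : ((2 : ℝ) ^ m) ^ ((a : ℤ) + (2 : ℕ) - rI κ0 n E a) =
      2 ^ (m * (a + 2)) / 2 ^ (m * κ0 + m * c1) := by
    have hne : ((2 : ℝ) ^ m) ≠ 0 := by positivity
    rw [zpow_sub₀ hne]
    have e2 : ((a : ℤ) + (2 : ℕ)) = ((a + 2 : ℕ) : ℤ) := by push_cast; ring
    rw [e2, zpow_natCast, zpow_natCast, ← pow_mul, ← pow_mul]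
    unfold rI
    rw [← hc1, show m * (κ0 + c1) = m * κ0 + m * c1 by ring]
  rw [e1, hκ]
  have h8 : (4 : ℝ) ≤ 2 ^ m - 1 := by
    have : (2 : ℝ) ^ 3 ≤ 2 ^ m := pow_le_pow_right₀ (by norm_num) hm
    norm_num at this
    linarith
  have h9 : (2 : ℝ) ^ (d0.a + m * (a + 1) + m + 2) * (1 / 2 ^ (m * κ0 + m * c1)) =
      4 * (2 ^ (m * (a + 2)) / 2 ^ (m * κ0 + m * c1)) * 2 ^ d0.a := by
    have : d0.a + m * (a + 1) + m + 2 = 2 + m * (a + 2) + d0.a := by ring
    rw [this, pow_add, pow_add]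
    norm_num
    ring
  rw [h9]
  have h10 : (0 : ℝ) < 2 ^ (m * (a + 2)) / 2 ^ (m * κ0 + m * c1) := by positivity
  have h11 : 4 * ((2 : ℝ) ^ (m * (a + 2)) / 2 ^ (m * κ0 + m * c1)) ≤
      (2 ^ m - 1) * (2 ^ (m * (a + 2)) / 2 ^ (m * κ0 + m * c1)) :=
    mul_le_mul_of_nonneg_right h8 h10.le
  exact mul_le_mul_of_nonneg_right h11 hp.le

/-- **the data of the second word** -/
noncomputable def dat {S : Type*} (h : Cn e P Q n E q) (hL : IsL m d0 t κ e) (hm : 3 ≤ m)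
    (hκ : d0.k = m * κ0) (h2 : 2 ≤ κ0) (hal : |d0.al| ≤ 2 ^ d0.a / 2) (W : Ω → S) (c : ℝ)
    (hc0 : 0 ≤ c) (hc1 : c < 1 / 2) : H785.Dat Ω S where
  P := Q
  W := W
  al := alW m d0 e P n E
  RI := rI κ0 n E
  s := 2
  B := 2 ^ m
  c := c
  hB2 := by
    calc (2 : ℝ) = 2 ^ 1 := by norm_num
      _ ≤ 2 ^ m := pow_le_pow_right₀ (by norm_num) (by omega)
  hc0 := hc0
  hc1 := hc1
  hRI := rI_mono h
  bd := alW_bd h hL hm hκ h2 hal
  ag := alW_ag h hL hm hκ

end dat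

end Vale.Agent.P106.U.LinkW2
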