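import Vale.Agent.P106.U.H824.InsL
import Vale.Agent.P106.U.H824.LinkW2
import Vale.Agent.P127.U.CellE

/-!
# P106 / U / H824 : the ray side of the letter of the cell (helper824)

* `hc_two` : at most `N` values given `Y` outside of `bad`, at most `M` values always:
  `H(X|Y) ≤ log N + 2 √P(bad) + P(bad) log M`; `hc_vec`, `hc_rnd` : integer vectors near functions of `Y`.
* `line_at` : the pair `(t, κ)` lies in the strip of the state (constant levels).
* `kI` : the line of the state at the time `x` (function of the state), `kI_near`, `kI_trans` (change of the slope).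
* `bad2_le` : `prE Q2 (|alW a - gC a| > B^(a - R'))` for a law conditioned on the second word.
-/

set_option autoImplicit false

namespace Vale.Agent.P106.U.LSide

open Finset Vale.Agent.P127 Vale.Agent.P127.Stk Vale.Agent.P106.U.H449 Vale.Agent.P106.U.StripL
open Vale.Agent.P106.U.StripE Vale.Agent.P106.U.LinkW2 Vale.Agent.P127.Law

/-! ### entropy -/

section ent

variable {Ω : Type} [Fintype Ω] {S T : Type*}

/-- few values outside of a small event, more values always -/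
theorem hc_two (P : Law Ω) (X : Ω → S) (Y : Ω → T) (bad : Ω → Prop) (N M : ℕ) (hN : 1 ≤ N) (hM : 1 ≤ M)
    (h1 : ∀ ω, 0 < P.w ω → ¬ bad ω → ∃ F : Finset S, F.card ≤ N ∧
      ∀ ω', 0 < P.w ω' → ¬ bad ω' → Y ω' = Y ω → X ω' ∈ F)
    (h2 : ∀ ω, 0 < P.w ω → ∃ F : Finset S, F.card ≤ M ∧
      ∀ ω', 0 < P.w ω' → Y ω' = Y ω → X ω' ∈ F) :
    hc P X Y ≤ Real.log N + 2 * Real.sqrt (prE P bad) + prE P bad * Real.log M := by
  classical
  have e1 : hc P X Y ≤ hc P (fun ω => (bad ω, X ω)) Y :=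
    hc_mono_left P fun ω ω' _ _ h => by
      simp only [Prod.mk.injEq] at h
      exact h.1.2
  have e2 := hc_pair P (fun ω => bad ω) X Y
  have e3 := hc_le_H P (fun ω => bad ω) Y
  have e4 := Vale.Agent.P127.U.CellE.H_ind_le P bad
  have e5 : hc P X (fun ω => (bad ω, Y ω)) = hc P X (fun ω => (Y ω, bad ω)) :=
    hc_congr P (fun _ _ _ _ h => congrArg Prod.fst h) (fun _ _ _ _ h => congrArg Prod.fst h)
      (fun _ _ _ _ h => by simp only [Prod.mk.injEq] at h ⊢; exact ⟨h.2, h.1⟩)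
      (fun _ _ _ _ h => by simp only [Prod.mk.injEq] at h ⊢; exact ⟨h.2, h.1⟩)
  have hlog : 0 ≤ Real.log M := Real.log_nonneg (by exact_mod_cast hM)
  have hlogN : 0 ≤ Real.log N := Real.log_nonneg (by exact_mod_cast hN)
  have e6 : hc P X (fun ω => (Y ω, bad ω)) ≤ Real.log N + prE P bad * Real.log M := by
    rw [TV.hc_cond_ex]
    have e7 : P.ex (fun ω => hc (P.cond (fun ω => bad ω) (bad ω)) X Y) ≤
        P.ex (fun ω => Real.log N + if bad ω then Real.log M else 0) := by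
      refine P.ex_mono fun ω hω => ?_
      have hz := P.pr_pos (fun ω => bad ω) hω
      have hs : ∀ ω', 0 < (P.cond (fun ω => bad ω) (bad ω)).w ω' → 0 < P.w ω' ∧
          (bad ω' = bad ω) := by
        intro ω' h
        rw [P.cond_w _ _ hz] at h
        split_ifs at h with h3
        · refine ⟨?_, h3⟩
          by_contra hc
          have : P.w ω' = 0 := le_antisymm (not_lt.1 hc) (P.nn ω')
          rw [this, zero_div] at h
          exact lt_irrefl _ h
        · exact absurd h (lt_irrefl _)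
      split_ifs with hb
      · have : hc (P.cond (fun ω => bad ω) (bad ω)) X Y ≤ Real.log M :=
          hc_le_log _ X Y M fun ω1 h3 => by
            obtain ⟨F, hF, hF2⟩ := h2 ω1 (hs ω1 h3).1
            exact ⟨F, hF, fun ω2 h4 h5 => hF2 ω2 (hs ω2 h4).1 h5⟩
        linarith
      · have : hc (P.cond (fun ω => bad ω) (bad ω)) X Y ≤ Real.log N :=
          hc_le_log _ X Y N fun ω1 h3 => by
            obtain ⟨h4, h5⟩ := hs ω1 h3
            obtain ⟨F, hF, hF2⟩ := h1 ω1 h4 (by rw [h5]; exact hb)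
            exact ⟨F, hF, fun ω2 h6 h7 => hF2 ω2 (hs ω2 h6).1 (by rw [(hs ω2 h6).2]; exact hb) h7⟩
        linarith
    refine e7.trans (le_of_eq ?_)
    rw [P.ex_add, P.ex_const]
    congr 1
    unfold Law.ex prE
    rw [Finset.sum_mul, Finset.sum_filter]
    refine Finset.sum_congr rfl fun ω _ => ?_
    by_cases hb : bad ω <;> simp [hb]
  linarith

/-- number of integer vectors near a vector -/
theorem box_card {d : ℕ} (v : Fin d → ℤ) (M : ℕ) : ∃ F : Finset (Fin d → ℤ), F.card ≤ (2 * M + 1) ^ d ∧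
    ∀ x : Fin d → ℤ, (∀ i, |x i - v i| ≤ M) → x ∈ F := by
  classical
  refine ⟨Fintype.piFinset (fun i => Finset.Icc (v i - M) (v i + M)), ?_, fun x hx => ?_⟩
  · rw [Fintype.card_piFinset]
    have : ∀ i, (Finset.Icc (v i - M) (v i + (M : ℤ))).card = 2 * M + 1 := by
      intro i
      rw [Int.card_Icc]
      omega
    simp only [this, prod_const, card_univ, Fintype.card_fin, le_refl]
  · rw [Fintype.mem_piFinset]
    intro i
    rw [Finset.mem_Icc]
    have := abs_le.1 (hx i)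
    constructor <;> linarith [this.1, this.2]

/-- integer vectors near functions of `Y` -/
theorem hc_vec {d : ℕ} (P : Law Ω) (X : Ω → Fin d → ℤ) (Y : Ω → T) (bad : Ω → Prop) (N M : ℕ)
    (h1 : ∀ ω, 0 < P.w ω → ¬ bad ω → ∃ v : Fin d → ℤ, ∀ ω', 0 < P.w ω' → ¬ bad ω' → Y ω' = Y ω →
      ∀ i, |X ω' i - v i| ≤ N)
    (h2 : ∀ ω, 0 < P.w ω → ∃ v : Fin d → ℤ, ∀ ω', 0 < P.w ω' → Y ω' = Y ω → ∀ i, |X ω' i - v i| ≤ M) :
    hc P X Y ≤ d * Real.log (2 * N + 1) + 2 * Real.sqrt (prE P bad) +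
      prE P bad * (d * Real.log (2 * M + 1)) := by
  have e1 := hc_two P X Y bad ((2 * N + 1) ^ d) ((2 * M + 1) ^ d) (Nat.one_le_pow _ _ (by omega))
    (Nat.one_le_pow _ _ (by omega)) (fun ω hω hb => by
      obtain ⟨v, hv⟩ := h1 ω hω hb
      obtain ⟨F, hF, hF2⟩ := box_card v N
      exact ⟨F, hF, fun ω' hω' hb' hY => hF2 _ (hv ω' hω' hb' hY)⟩) (fun ω hω => by
      obtain ⟨v, hv⟩ := h2 ω hω
      obtain ⟨F, hF, hF2⟩ := box_card v M
      exact ⟨F, hF, fun ω' hω' hY => hF2 _ (hv ω' hω' hY)⟩)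
  push_cast at e1
  rw [Real.log_pow, Real.log_pow] at e1
  exact e1

/-- **rounded vectors** : `u j * X ω j` is within `u j` of `x ω j`; outside of `bad` the numbers `x ω j`
of two points with the same `Y` differ by at most `N u j`, always by at most `M u j` -/
theorem hc_rnd {d : ℕ} (P : Law Ω) (X : Ω → Fin d → ℤ) (x : Ω → Fin d → ℝ) (u : Fin d → ℝ) (Y : Ω → T)
    (bad : Ω → Prop) (N M : ℕ) (hu : ∀ j, 0 < u j)
    (hX : ∀ ω, 0 < P.w ω → ∀ j, |x ω j - u j * X ω j| ≤ u j)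
    (h1 : ∀ ω ω', 0 < P.w ω → 0 < P.w ω' → ¬ bad ω → ¬ bad ω' → Y ω' = Y ω → ∀ j,
      |x ω' j - x ω j| ≤ N * u j)
    (h2 : ∀ ω ω', 0 < P.w ω → 0 < P.w ω' → Y ω' = Y ω → ∀ j, |x ω' j - x ω j| ≤ M * u j) :
    hc P X Y ≤ d * Real.log (2 * (N + 2 : ℕ) + 1) + 2 * Real.sqrt (prE P bad) +
      prE P bad * (d * Real.log (2 * (M + 2 : ℕ) + 1)) := by
  have key : ∀ (K : ℕ) ω ω', 0 < P.w ω → 0 < P.w ω' → (∀ j, |x ω' j - x ω j| ≤ K * u j) →
      ∀ j, |X ω' j - X ω j| ≤ ((K + 2 : ℕ) : ℤ) := by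
    intro K ω ω' hω hω' h j
    have e1 := hX ω hω j
    have e2 := hX ω' hω' j
    have e3 := h j
    have e4 : |((X ω' j : ℝ) - X ω j)| * u j ≤ ((K : ℝ) + 2) * u j := by
      rw [← abs_of_pos (hu j), ← abs_mul, abs_of_pos (hu j)]
      have e5 : ((X ω' j : ℝ) - X ω j) * u j = -(x ω' j - u j * X ω' j) + (x ω' j - x ω j) +
          (x ω j - u j * X ω j) := by ring
      rw [e5]
      refine (abs_add_le _ _).trans ?_
      refine (add_le_add (abs_add_le _ _) le_rfl).trans ?_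
      rw [abs_neg]
      linarith
    have e5 : |((X ω' j : ℝ) - X ω j)| ≤ (K : ℝ) + 2 := le_of_mul_le_mul_right e4 (hu j)
    have e6 : ((|X ω' j - X ω j| : ℤ) : ℝ) ≤ (((K + 2 : ℕ) : ℤ) : ℝ) := by
      push_cast
      exact e5
    exact_mod_cast e6
  refine hc_vec P X Y bad (N + 2) (M + 2) (fun ω hω hb => ⟨X ω, fun ω' hω' hb' hY => ?_⟩)
    (fun ω hω => ⟨X ω, fun ω' hω' hY => ?_⟩)
  · exact key N ω ω' hω hω' (h1 ω ω' hω hω' hb hb' hY)
  · exact key M ω ω' hω hω' (h2 ω ω' hω hω' hY)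

end ent

/-! ### the line of a state -/

section line

variable {Ω : Type} [Fintype Ω] {γ ζ₁ ζ₂ : Type} {e : Rl Ω 2 (ℤ × ℤ) γ ζ₁ ζ₂} {P Q : Law Ω} {n : ℕ}
  {E : List (Lt 2)} {q : ℝ} {m : ℕ} {d0 : Ld} {t κ : Ω → ℝ} {κ0 : ℕ}

/-- the line of the state at the time `x` -/
noncomputable def kI (m : ℕ) (d0 : Ld) (s : Stt 2 (ℤ × ℤ) γ) (x : ℝ) : ℝ := (ld m d0 s).line x

/-- the slope of the line of the state -/
noncomputable def aI (m : ℕ) (d0 : Ld) (s : Stt 2 (ℤ × ℤ) γ) : ℝ := (ld m d0 s).al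

theorem kI_sub (m : ℕ) (d0 : Ld) (s : Stt 2 (ℤ × ℤ) γ) (x y : ℝ) :
    kI m d0 s x - kI m d0 s y = aI m d0 s * (x - y) := by
  unfold kI aI Ld.line
  ring

/-- **the pair `(t, κ)` lies in the strip of the state** -/
theorem line_at (h : Cn e P Q n E q) (hL : IsL m d0 t κ e) {i : ℕ} (hi : i ≤ n) {ω : Ω}
    (hω : 0 < Q.w ω) :
    |κ ω - kI m d0 (e.T P i ω) (t ω)| ≤ 1 / 2 ^ (d0.k + m * lv n E (some 1) i) ∧
      (ld m d0 (e.T P i ω)).s0 = tR m d0 (lv n E none i) (t ω) ∧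
      0 ≤ t ω - tR m d0 (lv n E none i) (t ω) ∧
      t ω - tR m d0 (lv n E none i) (t ω) ≤ 1 / 2 ^ (d0.a + m * lv n E none i) := by
  have h1 := in_T (P := P) hL i ω
  have h2 := s0_T (P := P) hL i ω
  have h3 : cnt none (e.T P i ω) = lv n E none i := cnt_of_wd (h.hE ω hω) hi none
  have h4 : cnt (some 1) (e.T P i ω) = lv n E (some 1) i := cnt_of_wd (h.hE ω hω) hi (some 1)
  rw [h3] at h2
  have h5 := ld_a m d0 (e.T P i ω)
  have h6 := ld_k m d0 (e.T P i ω)
  rw [h3] at h5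
  rw [h4] at h6
  refine ⟨?_, h2, ?_, ?_⟩
  · have := h1.u
    rw [h6] at this
    rw [le_div_iff₀ (by positivity)]
    unfold kI
    linarith
  · rw [← h2]
    exact h1.t0
  · have := h1.t1
    rw [h5, h2] at this
    rw [le_div_iff₀ (by positivity)]
    linarith

/-- the line at a time `x` against the pair `(t, κ)` with another slope `g` -/
theorem kI_trans (h : Cn e P Q n E q) (hL : IsL m d0 t κ e) {i : ℕ} (hi : i ≤ n) {ω : Ω}
    (hω : 0 < Q.w ω) (g x : ℝ) :
    |κ ω + g * (x - t ω) - kI m d0 (e.T P i ω) x| ≤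
      1 / 2 ^ (d0.k + m * lv n E (some 1) i) + |g - aI m d0 (e.T P i ω)| * |x - t ω| := by
  have h1 := (line_at h hL hi hω).1
  have h2 := kI_sub m d0 (e.T P i ω) x (t ω)
  have e1 : κ ω + g * (x - t ω) - kI m d0 (e.T P i ω) x =
      (κ ω - kI m d0 (e.T P i ω) (t ω)) + (g - aI m d0 (e.T P i ω)) * (x - t ω) := by
    linear_combination -h2
  rw [e1]
  refine (abs_add_le _ _).trans (add_le_add h1 ?_)
  rw [abs_mul]

/-- the slope of the state is `2 ^ d0.a * alW` -/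
theorem aI_alW (h : Cn e P Q n E q) (a : ℕ) {ω : Ω} (hω : 0 < Q.w ω) :
    aI m d0 (e.T P (ia n E a) ω) = 2 ^ d0.a * alW m d0 e P n E a ω := by
  classical
  unfold alW aI
  rw [if_pos (h.hE ω hω), mul_div_cancel₀ _ (by positivity)]

end line

/-! ### the exceptional event under the second word -/

section word2

variable {Ω : Type} [Fintype Ω] {S : Type*} {d : H785.Dat Ω S}

/-- the exceptional event of the level `a` -/
def bad2 (d : H785.Dat Ω S) (a : ℕ) (ω : Ω) : Prop :=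
  d.B ^ ((a : ℤ) - d.RW a (d.W ω)) < |d.al a ω - d.gC a (d.W ω)|

theorem bad2_le {Q : Law Ω} {A : ℕ} {E : Fin (A + 1) → ℕ} (h : d.Cnd2 Q A E) (a : ℕ) :
    prE Q (bad2 d a) ≤ d.c := by
  classical
  refine le_trans (le_of_eq ?_) (h.bad_le a)
  unfold Law.ex prE
  rw [Finset.sum_filter]
  refine Finset.sum_congr rfl fun ω _ => ?_
  beta_reduce
  by_cases hb : bad2 d a ω
  · have : ind (d.B ^ ((a : ℤ) - d.RW a (d.W ω)) < |d.al a ω - d.gC a (d.W ω)|) = 1 := ind_of hb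
    rw [this]
    simp [hb]
  · have : ind (d.B ^ ((a : ℤ) - d.RW a (d.W ω)) < |d.al a ω - d.gC a (d.W ω)|) = 0 := ind_not hb
    rw [this]
    simp [hb]

end word2

end Vale.Agent.P106.U.LSide
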