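import Vale.Agent.P106.U.H824.OkW

/-!
# P106 / U / H824 : assembly of `S3.Run.Light` (helper824)

`light_of` : helper449's `HasU` (fields `phi`, `line`) and the field `time` (helper425): `R.Light p' e κ₀` for all numbers
`e, κ₀` above the explicit ones.
-/

set_option autoImplicit false

namespace Vale.Agent.P106.U.OkW

open Finset Vale.Agent.P127 Vale.Agent.P127.Stk Vale.Agent.P106.U.H449 Vale.Agent.P106.U.StripL
open Vale.Agent.P106.U.H823.PathNum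
open Vale.Agent.P127.U.CellD (q2 rd)
open Vale.Agent.P127.U.Mic (colp)

variable {Ω : Type} [Fintype Ω] {τ : Type}

variable {m κ0 : ℕ} {d0 : Ld} {tW κ pp : Ω → ℝ} {ry : Ω → Vale.Agent.P106.K.Ry} {Md : ℕ} {P : Law Ω} {p : Pm} {thr : ℝ}
  {E : List (Lt 2)} {Q : Law Ω} {q : ℝ} {D : PN} {R : S3.Run Ω τ (ℤ × S1)} {p' : S3.Run.Num}

/-- **light blocks** -/
theorem light_of (H : Ray.HasU m κ0 d0 tW κ pp ry Md P p thr E Q q D R p') (ht : 0 < thr) (ht1 : thr < 1) {ε : ℝ}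
    (hε : thr < ε) {e₂ κ₂ δ₀ e κ₀ : ℝ} (hδ : 0 < δ₀) (hκ₂ : 0 ≤ κ₂)
    (htime : ∀ (δ : Type) (X : ℕ → Ω → δ), ∑ i ∈ R.aS, colp R.Q (R.tb i) (fun ω => (R.Z i ω, X i ω)) ≤
      e₂ + κ₂ * ∑ i ∈ R.aS, mi R.Q (R.tb i) (X i) (R.Z i))
    (h1 : e₂ ≤ e) (h2 : p.A * ε + ((p.M + 1 : ℕ) * Real.log (1 / q) + p.A) / Real.log (ε / thr) ≤ e)
    (h3 : 5 * (((Md + 1 : ℕ) * Real.log (1 / q) + p.A) / Real.log (1 / thr)) + 5 * (δ₀ * p.A + e₂ / δ₀) ≤ e)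
    (k1 : κ₂ ≤ κ₀) (k2 : 1 / Real.log (ε / thr) ≤ κ₀) (k3 : 5 * (1 / Real.log (1 / thr)) + 5 * κ₂ / δ₀ ≤ κ₀) :
    R.Light p' e κ₀ where
  time := fun δ X => (htime δ X).trans (add_le_add h1 (mul_le_mul_of_nonneg_right k1
    (Finset.sum_nonneg fun _ _ => mi_nonneg _ _ _ _)))
  phi := fun δ X => (H.light_phi ht hε δ X).trans (add_le_add h2 (mul_le_mul_of_nonneg_right k2
    (Finset.sum_nonneg fun _ _ => mi_nonneg _ _ _ _)))
  line := fun δ X x => (H.light_line ht ht1 hδ hκ₂ htime δ X x).trans (add_le_add h3 (mul_le_mul_of_nonneg_right k3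
    (Finset.sum_nonneg fun _ _ => mi_nonneg _ _ _ _)))

end Vale.Agent.P106.U.OkW
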