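import Vale.Agent.P106.U.S3.PthW
import Vale.Agent.P106.U.H824.LSide

/-!
# P106 / U / H824 : price of the letter of the cell given the ray side (helper824)

Over 785's `PthW.Inp` (any instance).  `LS D Q Z ..` : the ray side `Z j` knows the ray, the time to `a j` digits, the own
slope to `rf j` digits and a line (value `kI j` at the time `s j`, slope `aI j`, sign of `Fu`) with
`|ka(tW) - (kI - (tW - s) aI)| ≤ M 2^-rk`; outside of `bad j` the slope `gA j` of the letter is within `M 2^(a-rk)` of `aI j`.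

* `hc_step` : `H(T (i+1) | T i, Z (i+1)) ≤ 3 log C1 + 4 √P(bad) + P(bad) (3 log C2)`, `C2 = O(2^(rk (i+1) - rk i))`.
* `hc_same` : `= 0` if neither the level nor the precision nor the slope change.
* `hc_zero'` : `H(T 0 | Z 0) ≤ 3 log C1` (no exceptional event at the start).
* `sum_T` : the field `prT` of 404's `Run.Ok`.
* `kno` : the slope of the rounded letter is known to the ray side outside of `bad`.
-/

set_option autoImplicit false

namespace Vale.Agent.P106.U.PrT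

open Finset Vale.Agent.P127 Vale.Agent.P127.Stk
open Vale.Agent.P127.U.CellD (q2 rd q2_pos q2_le rd_err q2_mul_pow)
open Vale.Agent.P106.U.Cell Vale.Agent.P106.U.S3.PthW Vale.Agent.P106.U.LSide

variable {Ω : Type} [Fintype Ω] {Zt : Type*}

/-- a unit functional at two points with nearby own slopes -/
theorem unit_near {K x x' p p' u v : ℝ} (hK : 1 ≤ K) (hx : 1 ≤ K * x) (hx' : 1 ≤ K * x') (hxK' : x' ≤ K)
    (hp : |p| ≤ 1) (hp' : |p'| ≤ 1) (h1 : |x ^ 2 + (p * x) ^ 2 - 1| ≤ u) (h2 : |x' ^ 2 + (p' * x') ^ 2 - 1| ≤ u)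
    (h3 : |p - p'| ≤ v) : |x - x'| ≤ K * (K ^ 2 * v + u) := by
  have hK0 : 0 < K := by linarith
  have hx0 : 0 < x := by
    by_contra hcon
    push Not at hcon
    nlinarith
  have hx0' : 0 < x' := by
    by_contra hcon
    push Not at hcon
    nlinarith
  have hv : 0 ≤ v := (abs_nonneg _).trans h3
  -- the main identity
  have e1 : (x - x') * ((x + x') * (1 + p ^ 2)) =
      (x ^ 2 + (p * x) ^ 2 - 1) - (x' ^ 2 + (p' * x') ^ 2 - 1) - x' ^ 2 * ((p - p') * (p + p')) := by ring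
  have h4 : |(p - p') * (p + p')| ≤ 2 * v := by
    rw [abs_mul]
    have h5 : |p + p'| ≤ 2 := (abs_add_le _ _).trans (by linarith)
    have := mul_le_mul h3 h5 (abs_nonneg _) hv
    linarith
  have h6 : |x' ^ 2 * ((p - p') * (p + p'))| ≤ K ^ 2 * (2 * v) := by
    rw [abs_mul, abs_of_nonneg (sq_nonneg x')]
    refine mul_le_mul ?_ h4 (abs_nonneg _) (by positivity)
    exact pow_le_pow_left₀ hx0'.le hxK' 2
  have h7 : |(x - x') * ((x + x') * (1 + p ^ 2))| ≤ 2 * u + K ^ 2 * (2 * v) := by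
    rw [e1]
    refine (abs_sub _ _).trans ?_
    refine (add_le_add (abs_sub _ _) le_rfl).trans ?_
    linarith
  have h8 : 2 ≤ K * ((x + x') * (1 + p ^ 2)) := by
    have : 2 ≤ K * (x + x') := by linarith
    have h9 : 0 ≤ K * (x + x') * p ^ 2 := by positivity
    nlinarith
  rw [abs_mul, abs_of_pos (by positivity : 0 < (x + x') * (1 + p ^ 2))] at h7
  have h10 : |x - x'| * 2 ≤ |x - x'| * (K * ((x + x') * (1 + p ^ 2))) :=
    mul_le_mul_of_nonneg_left h8 (abs_nonneg _)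
  have h11 : |x - x'| * (K * ((x + x') * (1 + p ^ 2))) = K * (|x - x'| * ((x + x') * (1 + p ^ 2))) := by ring
  have h12 := mul_le_mul_of_nonneg_left h7 hK0.le
  nlinarith

/-- **the ray side of the letter** -/
structure LS (D : Inp Ω) (Q : Law Ω) (Z : ℕ → Ω → Zt) (kI aI : ℕ → Ω → ℝ) (bad : ℕ → Ω → Prop) (K M : ℝ) (h q N : ℕ) :
    Prop where
  hy : ∀ ω, 0 < Q.w ω → D.Hy K h ω
  un : ∀ ω, 0 < Q.w ω → |(D.FW ω).cN (D.l ω) (D.tW ω) ^ 2 + (D.FW ω).cV (D.l ω) (D.tW ω) ^ 2 - 1| ≤ K * q2 q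
  cp : ∀ ω, 0 < Q.w ω → D.p ω * (D.FW ω).cN (D.l ω) (D.tW ω) = (D.FW ω).cV (D.l ω) (D.tW ω)
  rq : ∀ j ≤ N, D.rk j ≤ q
  M0 : 0 ≤ M
  Zl : ∀ j ≤ N, Fn Q D.l (Z j)
  Zt : ∀ j ≤ N, Fn Q (fun ω => fl1 (D.a j) (D.t ω)) (Z j)
  Zf : ∀ j ≤ N, Fn Q (fun ω => fl1 (D.rf j) (D.p ω)) (Z j)
  Zk : ∀ j ≤ N, Fn Q (kI j) (Z j)
  Za : ∀ j ≤ N, Fn Q (aI j) (Z j)
  ka : ∀ j ≤ N, ∀ ω, 0 < Q.w ω → |(D.FW ω).ka - (kI j ω - (D.tW ω - D.s j ω) * aI j ω)| ≤ M * q2 (D.rk j)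
  good : ∀ j ≤ N, ∀ ω, 0 < Q.w ω → ¬ bad j ω → |D.gA j ω - aI j ω| * q2 (D.a j) ≤ M * q2 (D.rk j)

namespace LS

variable {D : Inp Ω} {Q : Law Ω} {Z : ℕ → Ω → Zt} {kI aI : ℕ → Ω → ℝ} {bad : ℕ → Ω → Prop} {K M : ℝ} {h q N : ℕ}

/-- the rounded time is a function of the ray side -/
theorem s_eq {j : ℕ} {ω ω' : Ω} (h : fl1 (D.a j) (D.t ω') = fl1 (D.a j) (D.t ω)) : D.s j ω' = D.s j ω := by
  unfold Inp.s rd
  rw [h]

theorem p1 (H : LS D Q Z kI aI bad K M h q N) {ω : Ω} (hω : 0 < Q.w ω) : |D.p ω| ≤ 1 :=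
  (H.hy ω hω).p1.trans Inp.q2_one

/-- `cN` of the end label at two points with the same own slope digits -/
theorem cN_pair (H : LS D Q Z kI aI bad K M h q N) {j : ℕ} (hj : j ≤ N) {ω ω' : Ω} (hω : 0 < Q.w ω)
    (hω' : 0 < Q.w ω') (hz : Z j ω' = Z j ω) :
    |(D.FW ω').cN (D.l ω') (D.tW ω') - (D.FW ω).cN (D.l ω) (D.tW ω)| ≤ 3 * K ^ 3 * q2 (D.rk j) := by
  have hK := (H.hy ω hω).K1
  have hq := q2_pos (D.rk j)
  have h1 := H.un ω' hω'
  have h2 := H.un ω hω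
  rw [← H.cp ω' hω'] at h1
  rw [← H.cp ω hω] at h2
  have hp : |D.p ω' - D.p ω| ≤ 1 * q2 (D.rk j) := by
    have h3 : fl1 (D.rf j) (D.p ω') = fl1 (D.rf j) (D.p ω) := H.Zf j hj ω' ω hω' hω hz
    have h4 := rd_err (D.rf j) (D.p ω')
    have h5 := rd_err (D.rf j) (D.p ω)
    have h6 : rd (D.rf j) (D.p ω') = rd (D.rf j) (D.p ω) := by unfold rd; rw [h3]
    rw [h6] at h4
    have h7 : q2 (D.rf j) ≤ q2 (D.rk j) := q2_le (D.hkf j)
    -- both lie in the same cell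
    have h8 := Int.floor_le ((2 : ℝ) ^ D.rf j * D.p ω')
    have h9 := Int.lt_floor_add_one ((2 : ℝ) ^ D.rf j * D.p ω')
    have h10 := Int.floor_le ((2 : ℝ) ^ D.rf j * D.p ω)
    have h11 := Int.lt_floor_add_one ((2 : ℝ) ^ D.rf j * D.p ω)
    have h12 : (⌊(2 : ℝ) ^ D.rf j * D.p ω'⌋ : ℝ) = ⌊(2 : ℝ) ^ D.rf j * D.p ω⌋ := by
      have : ⌊(2 : ℝ) ^ D.rf j * D.p ω'⌋ = ⌊(2 : ℝ) ^ D.rf j * D.p ω⌋ := h3
      exact_mod_cast this
    have h13 : |(2 : ℝ) ^ D.rf j * (D.p ω' - D.p ω)| ≤ 1 := by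
      rw [mul_sub, abs_le]
      constructor <;> linarith
    rw [abs_mul, abs_of_pos (by positivity : (0 : ℝ) < 2 ^ D.rf j)] at h13
    have h14 : q2 (D.rf j) * 2 ^ D.rf j = 1 := by rw [mul_comm]; exact q2_mul_pow _
    have h15 : |D.p ω' - D.p ω| = q2 (D.rf j) * (2 ^ D.rf j * |D.p ω' - D.p ω|) := by
      rw [← mul_assoc, h14, one_mul]
    rw [h15, one_mul]
    calc q2 (D.rf j) * (2 ^ D.rf j * |D.p ω' - D.p ω|) ≤ q2 (D.rf j) * 1 :=
          mul_le_mul_of_nonneg_left h13 (q2_pos _).le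
      _ ≤ q2 (D.rk j) := by linarith
  have h16 := unit_near hK (H.hy ω' hω').n1 (H.hy ω hω).n1 (H.hy ω hω).n2 (H.p1 hω') (H.p1 hω) h1 h2 hp
  refine h16.trans ?_
  have h17 : K * q2 q ≤ K * q2 (D.rk j) := mul_le_mul_of_nonneg_left (q2_le (H.rq j hj)) (by linarith)
  have h18 : K * (K ^ 2 * (1 * q2 (D.rk j)) + K * q2 q) ≤ K * (K ^ 2 * (1 * q2 (D.rk j)) + K * q2 (D.rk j)) :=
    mul_le_mul_of_nonneg_left (by linarith) (by linarith)
  refine h18.trans ?_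
  have : K * (K ^ 2 * (1 * q2 (D.rk j)) + K * q2 (D.rk j)) = (K ^ 3 + K ^ 2) * q2 (D.rk j) := by ring
  rw [this]
  refine mul_le_mul_of_nonneg_right ?_ hq.le
  nlinarith [sq_nonneg K, mul_nonneg (sq_nonneg K) (by linarith : (0 : ℝ) ≤ K - 1)]

/-- the centre of gamma -/
theorem gR_pair (H : LS D Q Z kI aI bad K M h q N) {j : ℕ} (hj : j ≤ N) {ω ω' : Ω} (hω : 0 < Q.w ω)
    (hω' : 0 < Q.w ω') (hz : Z j ω' = Z j ω) (hN : D.aN j ω' = D.aN j ω) (hk : D.kN j ω' = D.kN j ω) :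
    |D.gR j ω' - D.gR j ω| ≤ 40 * K ^ 3 * q2 (D.rk j) := by
  have h1 := (H.hy ω' hω').ga_near j
  have h2 := (H.hy ω hω).ga_near j
  have h3 := H.cN_pair hj hω hω' hz
  have hK := (H.hy ω hω).K1
  have hq := q2_pos (D.rk j)
  have hl : D.l ω' = D.l ω := H.Zl j hj ω' ω hω' hω hz
  have hs : D.s j ω' = D.s j ω := s_eq (H.Zt j hj ω' ω hω' hω hz)
  have hka : D.ka' j ω' = D.ka' j ω := by unfold Inp.ka'; rw [hk]
  have hal : D.al' j ω' = D.al' j ω := by unfold Inp.al'; rw [hN]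
  rw [hl, hs, hka, hal] at h1
  rw [hl] at h3
  have e : D.gR j ω' - D.gR j ω =
      (D.gR j ω' - ((D.FW ω').cN (D.l ω) (D.tW ω') + D.ka' j ω * (D.l ω).w + D.al' j ω * (D.l ω).N (D.s j ω))) -
      (D.gR j ω - ((D.FW ω).cN (D.l ω) (D.tW ω) + D.ka' j ω * (D.l ω).w + D.al' j ω * (D.l ω).N (D.s j ω))) +
      ((D.FW ω').cN (D.l ω) (D.tW ω') - (D.FW ω).cN (D.l ω) (D.tW ω)) := by ring
  rw [e]
  refine (abs_add_le _ _).trans ?_
  refine (add_le_add (abs_sub _ _) le_rfl).trans ?_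
  have : 37 * K ^ 2 * q2 (D.rk j) ≤ 37 * K ^ 3 * q2 (D.rk j) := by
    refine mul_le_mul_of_nonneg_right ?_ hq.le
    nlinarith [mul_nonneg (sq_nonneg K) (by linarith : (0 : ℝ) ≤ K - 1)]
  have hp : 0 ≤ K ^ 2 * q2 (D.rk j) := mul_nonneg (sq_nonneg K) hq.le
  linarith

/-- kappa : outside of `bad` -/
theorem kR_pair (H : LS D Q Z kI aI bad K M h q N) {j : ℕ} (hj : j ≤ N) {ω ω' : Ω} (hω : 0 < Q.w ω)
    (hω' : 0 < Q.w ω') (hb : ¬ bad j ω) (hb' : ¬ bad j ω') (hz : Z j ω' = Z j ω) :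
    |D.kR j ω' - D.kR j ω| ≤ 2 * (M + K * M) * q2 (D.rk j) := by
  have key : ∀ ω, 0 < Q.w ω → ¬ bad j ω → |D.kR j ω - kI j ω| ≤ (M + K * M) * q2 (D.rk j) := by
    intro ω hω hb
    have h1 := D.ka_near j ω (A := aI j ω) (k := kI j ω - (D.tW ω - D.s j ω) * aI j ω) (M := M) (M' := M) (c := K)
      (by linarith [(H.hy ω hω).K1]) (H.good j hj ω hω hb) (H.ka j hj ω hω) ((H.hy ω hω).tm j)
    have e : kI j ω - (D.tW ω - D.s j ω) * aI j ω - (D.s j ω - D.tW ω) * aI j ω = kI j ω := by ring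
    rwa [e] at h1
  have h1 := key ω hω hb
  have h2 := key ω' hω' hb'
  have h3 : kI j ω' = kI j ω := H.Zk j hj ω' ω hω' hω hz
  rw [h3] at h2
  have e : D.kR j ω' - D.kR j ω = (D.kR j ω' - kI j ω) - (D.kR j ω - kI j ω) := by ring
  rw [e]
  refine (abs_sub _ _).trans ?_
  linarith

theorem gA_pair (H : LS D Q Z kI aI bad K M h q N) {j : ℕ} (hj : j ≤ N) {ω ω' : Ω} (hω : 0 < Q.w ω)
    (hω' : 0 < Q.w ω') (hb : ¬ bad j ω) (hb' : ¬ bad j ω') (hz : Z j ω' = Z j ω) :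
    |D.gA j ω' * q2 (D.a j) - D.gA j ω * q2 (D.a j)| ≤ 2 * M * q2 (D.rk j) := by
  have h1 := H.good j hj ω hω hb
  have h2 := H.good j hj ω' hω' hb'
  have h3 : aI j ω' = aI j ω := H.Za j hj ω' ω hω' hω hz
  rw [h3] at h2
  have h0 : ∀ x : ℝ, |x| * q2 (D.a j) = |x * q2 (D.a j)| := fun x => by
    rw [abs_mul, abs_of_pos (q2_pos _)]
  rw [h0] at h1 h2
  have e : D.gA j ω' * q2 (D.a j) - D.gA j ω * q2 (D.a j) =
      (D.gA j ω' - aI j ω) * q2 (D.a j) - (D.gA j ω - aI j ω) * q2 (D.a j) := by ring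
  rw [e]
  refine (abs_sub _ _).trans ?_
  linarith

/-- always : the slope given the previous record -/
theorem gA_prev (H : LS D Q Z kI aI bad K M h q N) {i : ℕ} {ω ω' : Ω} (hω : 0 < Q.w ω)
    (hω' : 0 < Q.w ω') (hr : D.rc i ω' = D.rc i ω) :
    |D.gA (i + 1) ω' * q2 (D.a (i + 1)) - D.gA (i + 1) ω * q2 (D.a (i + 1))| ≤ (2 * K + 2) * q2 (D.rk i) := by
  have h1 := (H.hy ω hω).gg i (i + 1) (Nat.le_succ i)
  have h2 := (H.hy ω' hω').gg i (i + 1) (Nat.le_succ i)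
  have h3 := D.al_err i ω
  have h4 := D.al_err i ω'
  have hN : D.aN i ω' = D.aN i ω := (Prod.mk.inj (Prod.mk.inj hr).2).1
  have hal : D.al' i ω' = D.al' i ω := by unfold Inp.al'; rw [hN]
  have ha : q2 (D.a (i + 1)) ≤ q2 (D.a i) := q2_le (D.ha (Nat.le_succ i))
  have hp := q2_pos (D.a (i + 1))
  rw [hal] at h4
  have h5 : |D.al' i ω - D.gA i ω| * q2 (D.a (i + 1)) ≤ q2 (D.rk i) :=
    (mul_le_mul_of_nonneg_left ha (abs_nonneg _)).trans h3
  have h6 : |D.al' i ω - D.gA i ω'| * q2 (D.a (i + 1)) ≤ q2 (D.rk i) :=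
    (mul_le_mul_of_nonneg_left ha (abs_nonneg _)).trans h4
  have e : D.gA (i + 1) ω' * q2 (D.a (i + 1)) - D.gA (i + 1) ω * q2 (D.a (i + 1)) =
      ((D.gA (i + 1) ω' - D.gA i ω') - (D.gA (i + 1) ω - D.gA i ω) - (D.al' i ω - D.gA i ω') +
        (D.al' i ω - D.gA i ω)) * q2 (D.a (i + 1)) := by ring
  rw [e, abs_mul, abs_of_pos hp]
  have h7 : |(D.gA (i + 1) ω' - D.gA i ω') - (D.gA (i + 1) ω - D.gA i ω) - (D.al' i ω - D.gA i ω') +
        (D.al' i ω - D.gA i ω)| ≤ |D.gA (i + 1) ω' - D.gA i ω'| + |D.gA (i + 1) ω - D.gA i ω| +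
        |D.al' i ω - D.gA i ω'| + |D.al' i ω - D.gA i ω| := by
    refine (abs_add_le _ _).trans (add_le_add ?_ le_rfl)
    refine (abs_sub _ _).trans (add_le_add ?_ le_rfl)
    exact abs_sub _ _
  have h8 := mul_le_mul_of_nonneg_right h7 hp.le
  linarith

/-- always : kappa given the previous record -/
theorem kR_prev (H : LS D Q Z kI aI bad K M h q N) {i : ℕ} (hi : i + 1 ≤ N) {ω ω' : Ω} (hω : 0 < Q.w ω)
    (hω' : 0 < Q.w ω') (hr : D.rc i ω' = D.rc i ω) (hz : Z (i + 1) ω' = Z (i + 1) ω) :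
    |D.kR (i + 1) ω' - D.kR (i + 1) ω| ≤ (2 * K ^ 2 + 8 * K + 2) * q2 (D.rk i) := by
  have hN : D.aN i ω' = D.aN i ω := (Prod.mk.inj (Prod.mk.inj hr).2).1
  have hk : D.kN i ω' = D.kN i ω := (Prod.mk.inj (Prod.mk.inj (Prod.mk.inj hr).2).2).1
  have ht : fl1 (D.a i) (D.t ω') = fl1 (D.a i) (D.t ω) := (Prod.mk.inj hr).1
  have hs : D.s i ω' = D.s i ω := s_eq ht
  have hs' : D.s (i + 1) ω' = D.s (i + 1) ω := s_eq (H.Zt (i + 1) hi ω' ω hω' hω hz)
  have hal : D.al' i ω' = D.al' i ω := by unfold Inp.al'; rw [hN]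
  have hka : D.ka' i ω' = D.ka' i ω := by unfold Inp.ka'; rw [hk]
  have hK := (H.hy ω hω).K1
  have hq := q2_pos (D.rk i)
  -- one point against the previous record
  have key : ∀ ω, 0 < Q.w ω → |D.kR (i + 1) ω - (D.ka' i ω - (D.s (i + 1) ω - D.s i ω) * D.al' i ω)| ≤
      (K ^ 2 + 2 * K + 1) * q2 (D.rk i) := by
    intro ω hω
    have h1 := (H.hy ω hω).gg i (i + 1) (Nat.le_succ i)
    have h2 := (H.hy ω hω).tm (i + 1)
    have h3 := (H.hy ω hω).tm i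
    have h4 := D.al_err i ω
    have h5 := D.ka_err i ω
    have ha : q2 (D.a (i + 1)) ≤ q2 (D.a i) := q2_le (D.ha (Nat.le_succ i))
    have e : D.kR (i + 1) ω - (D.ka' i ω - (D.s (i + 1) ω - D.s i ω) * D.al' i ω) =
        -(D.ka' i ω - D.kR i ω) + (D.tW ω - D.s (i + 1) ω) * (D.gA (i + 1) ω - D.gA i ω) +
          ((D.tW ω - D.s i ω) - (D.tW ω - D.s (i + 1) ω)) * (D.al' i ω - D.gA i ω) := by
      unfold Inp.kR
      ring
    rw [e]
    have t1 := abs_add_le (-(D.ka' i ω - D.kR i ω) + (D.tW ω - D.s (i + 1) ω) * (D.gA (i + 1) ω - D.gA i ω))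
      (((D.tW ω - D.s i ω) - (D.tW ω - D.s (i + 1) ω)) * (D.al' i ω - D.gA i ω))
    have t2 := abs_add_le (-(D.ka' i ω - D.kR i ω)) ((D.tW ω - D.s (i + 1) ω) * (D.gA (i + 1) ω - D.gA i ω))
    rw [abs_neg] at t2
    have t3 : |(D.tW ω - D.s (i + 1) ω) * (D.gA (i + 1) ω - D.gA i ω)| ≤ K ^ 2 * q2 (D.rk i) := by
      rw [abs_mul]
      have := mul_le_mul_of_nonneg_right h2 (abs_nonneg (D.gA (i + 1) ω - D.gA i ω))
      nlinarith
    have t4 : |((D.tW ω - D.s i ω) - (D.tW ω - D.s (i + 1) ω)) * (D.al' i ω - D.gA i ω)| ≤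
        2 * K * q2 (D.rk i) := by
      rw [abs_mul]
      have t6 : |(D.tW ω - D.s i ω) - (D.tW ω - D.s (i + 1) ω)| ≤ 2 * K * q2 (D.a i) := by
        refine (abs_sub _ _).trans ?_
        nlinarith
      have := mul_le_mul_of_nonneg_right t6 (abs_nonneg (D.al' i ω - D.gA i ω))
      nlinarith
    linarith
  have h1 := key ω hω
  have h2 := key ω' hω'
  rw [hs, hs', hal, hka] at h2
  set c := D.ka' i ω - (D.s (i + 1) ω - D.s i ω) * D.al' i ω with hc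
  have e : D.kR (i + 1) ω' - D.kR (i + 1) ω = (D.kR (i + 1) ω' - c) - (D.kR (i + 1) ω - c) := by ring
  rw [e]
  refine (abs_sub _ _).trans ?_
  have : 2 * ((K ^ 2 + 2 * K + 1) * q2 (D.rk i)) ≤ (2 * K ^ 2 + 8 * K + 2) * q2 (D.rk i) := by nlinarith
  linarith

/-- constant of the good event -/
noncomputable def C1 (K M : ℝ) : ℕ := ⌈2 * M + 2 * (M + K * M) + 40 * K ^ 3⌉₊

/-- constant of the bad event -/
noncomputable def C2 (K : ℝ) : ℕ := ⌈2 * K ^ 2 + 10 * K + 4 + 40 * K ^ 3⌉₊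

/-- **price of a record** : `Y` contains `Z j` -/
theorem hc_rc (H : LS D Q Z kI aI bad K M h q N) {j : ℕ} (hj : j ≤ N) {S : Type*} (Y : Ω → S) (hY : Fn Q (Z j) Y)
    (bd : Ω → Prop) (hbd : ∀ ω, bad j ω → bd ω) (G : ℕ) (hG : C1 K M ≤ G) (hG2 : C2 K ≤ G)
    (hg : ∀ ω ω', 0 < Q.w ω → 0 < Q.w ω' → Y ω' = Y ω →
      |D.gA j ω' * q2 (D.a j) - D.gA j ω * q2 (D.a j)| ≤ G * q2 (D.rk j))
    (hk : ∀ ω ω', 0 < Q.w ω → 0 < Q.w ω' → Y ω' = Y ω → |D.kR j ω' - D.kR j ω| ≤ G * q2 (D.rk j)) :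
    hc Q (D.rc j) Y ≤ 3 * Real.log (2 * (C1 K M + C2 K + 2 : ℕ) + 1) + 4 * Real.sqrt (prE Q bd) +
      prE Q bd * (3 * Real.log (2 * (G + 2 : ℕ) + 1)) := by
  classical
  rcases isEmpty_or_nonempty {ω : Ω // 0 < Q.w ω} with hemp | hne
  · exfalso
    have : Q.ex (fun _ => (1 : ℝ)) ≤ 0 := by
      unfold Law.ex
      refine Finset.sum_nonpos fun ω _ => ?_
      by_contra hcon
      push Not at hcon
      rw [mul_one] at hcon
      exact hemp.elim ⟨ω, hcon⟩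
    rw [Q.ex_const] at this
    linarith
  obtain ⟨ω0, hω0⟩ := hne
  have hK := (H.hy ω0 hω0).K1
  have hM := H.M0
  have hq := q2_pos (D.rk j)
  have hq' : 0 < q2 (D.rk j) := hq
  have hKM : 0 ≤ K * M := mul_nonneg (by linarith) hM
  have hK3 : 0 ≤ K ^ 3 := by positivity
  have c1 : 2 * M + 2 * (M + K * M) + 40 * K ^ 3 ≤ (C1 K M : ℝ) := Nat.le_ceil _
  have c2 : 2 * K ^ 2 + 10 * K + 4 + 40 * K ^ 3 ≤ (C2 K : ℝ) := Nat.le_ceil _
  have c3 : (C2 K : ℝ) ≤ G := by exact_mod_cast hG2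
  have hfl : ∀ (r : ℕ) (x : ℝ), |x - q2 r * (fl1 r x : ℤ)| ≤ q2 r := by
    intro r x
    have h1 := rd_err r x
    rw [abs_sub_comm] at h1
    have e : rd r x = q2 r * (fl1 r x : ℤ) := by
      have := q2_mul_pow r
      unfold rd
      have h2 : (2 : ℝ) ^ r ≠ 0 := by positivity
      rw [div_eq_iff h2]
      linear_combination (-(fl1 r x : ℝ)) * this
    rwa [e] at h1
  set X : Ω → Fin 2 → ℤ := fun ω => ![D.aN j ω, D.kN j ω] with hX
  set x : Ω → Fin 2 → ℝ := fun ω => ![D.gA j ω * q2 (D.a j), D.kR j ω + D.oK] with hx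
  -- first two numbers
  have e1 := hc_rnd (d := 2) Q X x (fun _ => q2 (D.rk j)) Y bd (C1 K M + C2 K) G (fun _ => hq)
    (fun ω _ i => by
      fin_cases i
      · exact hfl _ _
      · exact hfl _ _)
    (fun ω ω' hω hω' hb hb' hy i => by
      have hz := hY ω' ω hω' hω hy
      have hb1 : ¬ bad j ω := fun h => hb (hbd ω h)
      have hb2 : ¬ bad j ω' := fun h => hb' (hbd ω' h)
      push_cast
      fin_cases i
      · refine (H.gA_pair hj hω hω' hb1 hb2 hz).trans (mul_le_mul_of_nonneg_right ?_ hq.le)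
        linarith [Nat.cast_nonneg (α := ℝ) (C2 K)]
      · show |D.kR j ω' + D.oK - (D.kR j ω + D.oK)| ≤ _
        rw [add_sub_add_right_eq_sub]
        refine (H.kR_pair hj hω hω' hb1 hb2 hz).trans (mul_le_mul_of_nonneg_right ?_ hq.le)
        linarith [Nat.cast_nonneg (α := ℝ) (C2 K)])
    (fun ω ω' hω hω' hy i => by
      fin_cases i
      · exact hg ω ω' hω hω' hy
      · show |D.kR j ω' + D.oK - (D.kR j ω + D.oK)| ≤ _
        rw [add_sub_add_right_eq_sub]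
        exact hk ω ω' hω hω' hy)
  -- gamma
  have e2 := hc_rnd (d := 1) Q (fun ω => ![D.gN j ω]) (fun ω => ![D.gR j ω + D.oG]) (fun _ => q2 (D.rk j))
    (fun ω => (X ω, Y ω)) bd (C1 K M + C2 K) G (fun _ => hq)
    (fun ω _ i => by
      fin_cases i
      exact hfl _ _)
    (fun ω ω' hω hω' _ _ hy i => by
      obtain ⟨hy1, hy2⟩ := Prod.mk.inj hy
      have hz := hY ω' ω hω' hω hy2
      have hN : D.aN j ω' = D.aN j ω := congrFun hy1 0
      have hkN : D.kN j ω' = D.kN j ω := congrFun hy1 1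
      push_cast
      fin_cases i
      show |D.gR j ω' + D.oG - (D.gR j ω + D.oG)| ≤ _
      rw [add_sub_add_right_eq_sub]
      refine (H.gR_pair hj hω hω' hz hN hkN).trans (mul_le_mul_of_nonneg_right ?_ hq.le)
      linarith [Nat.cast_nonneg (α := ℝ) (C2 K)])
    (fun ω ω' hω hω' hy i => by
      obtain ⟨hy1, hy2⟩ := Prod.mk.inj hy
      have hz := hY ω' ω hω' hω hy2
      have hN : D.aN j ω' = D.aN j ω := congrFun hy1 0
      have hkN : D.kN j ω' = D.kN j ω := congrFun hy1 1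
      fin_cases i
      show |D.gR j ω' + D.oG - (D.gR j ω + D.oG)| ≤ _
      rw [add_sub_add_right_eq_sub]
      refine (H.gR_pair hj hω hω' hz hN hkN).trans (mul_le_mul_of_nonneg_right ?_ hq.le)
      have : 0 ≤ K ^ 2 := by positivity
      linarith)
  -- the record
  have e3 : hc Q (D.rc j) Y ≤ hc Q (fun ω => (X ω, (![D.gN j ω] : Fin 1 → ℤ))) Y := by
    refine hc_mono_left Q fun ω ω' hω hω' hh => ?_
    obtain ⟨h3, h4⟩ := Prod.mk.inj hh
    obtain ⟨h5, h6⟩ := Prod.mk.inj h3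
    have h7 : D.aN j ω = D.aN j ω' := congrFun h5 0
    have h8 : D.kN j ω = D.kN j ω' := congrFun h5 1
    have h9 : D.gN j ω = D.gN j ω' := congrFun h6 0
    have h10 := H.Zt j hj ω ω' hω hω' (hY ω ω' hω hω' h4)
    unfold Inp.rc
    beta_reduce at h10
    rw [h7, h8, h9, h10]
  have e4 := hc_pair Q X (fun ω => (![D.gN j ω] : Fin 1 → ℤ)) Y
  push_cast at e1 e2 ⊢
  linarith

/-- the logarithm of the number of values -/
noncomputable def Lg (K M : ℝ) : ℝ := Real.log (2 * (C1 K M + C2 K + 2 : ℕ) + 1)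

theorem Lg_nonneg (K M : ℝ) : 0 ≤ Lg K M := by
  refine Real.log_nonneg ?_
  have : (0 : ℝ) ≤ (C1 K M + C2 K + 2 : ℕ) := Nat.cast_nonneg _
  linarith

theorem logG (K M : ℝ) (e : ℕ) : Real.log (2 * (((C1 K M + C2 K) * 2 ^ e + 2 : ℕ) : ℝ) + 1) ≤
    Lg K M + e * Real.log 2 := by
  unfold Lg
  rw [← Real.log_pow, ← Real.log_mul (by positivity) (by positivity)]
  refine Real.log_le_log (by positivity) ?_
  have h1 : (1 : ℝ) ≤ 2 ^ e := one_le_pow₀ (by norm_num)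
  push_cast
  nlinarith

theorem K1 (H : LS D Q Z kI aI bad K M h q N) : 1 ≤ K := by
  classical
  rcases isEmpty_or_nonempty {ω : Ω // 0 < Q.w ω} with hemp | hne
  · exfalso
    have : Q.ex (fun _ => (1 : ℝ)) ≤ 0 := by
      unfold Law.ex
      refine Finset.sum_nonpos fun ω _ => ?_
      by_contra hcon
      push Not at hcon
      rw [mul_one] at hcon
      exact hemp.elim ⟨ω, hcon⟩
    rw [Q.ex_const] at this
    linarith
  obtain ⟨ω0, hω0⟩ := hne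
  exact (H.hy ω0 hω0).K1

theorem C2_le (K : ℝ) : 2 * K ^ 2 + 10 * K + 4 + 40 * K ^ 3 ≤ (C2 K : ℝ) := Nat.le_ceil _

/-- **price of one step** -/
theorem hc_step (H : LS D Q Z kI aI bad K M h q N) {i e : ℕ} (hi : i + 1 ≤ N) (he : D.rk (i + 1) ≤ D.rk i + e) :
    hc Q (D.T (i + 1)) (fun ω => (D.T i ω, Z (i + 1) ω)) ≤
      3 * Lg K M + 4 * Real.sqrt (prE Q (bad (i + 1))) +
        prE Q (bad (i + 1)) * (3 * (Lg K M + e * Real.log 2)) := by
  have hK := H.K1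
  have hK3 : 0 ≤ K ^ 3 := by positivity
  have hK2 : 0 ≤ K ^ 2 := by positivity
  set Y : Ω → List (ℤ × ℤ × ℤ × ℤ) × Zt := fun ω => (D.T i ω, Z (i + 1) ω) with hYd
  have hc2 := C2_le K
  have hr : ∀ ω ω', Y ω' = Y ω → D.rc i ω' = D.rc i ω := fun ω ω' hy =>
    D.rc_of_T (Prod.mk.inj hy).1
  have hqe : q2 (D.rk i) ≤ 2 ^ e * q2 (D.rk (i + 1)) := by
    have h1 : q2 (D.rk i + e) ≤ q2 (D.rk (i + 1)) := q2_le he
    have h2 : q2 (D.rk i + e) * 2 ^ e = q2 (D.rk i) := by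
      have e1 := q2_mul_pow (D.rk i + e)
      have e2 := q2_mul_pow (D.rk i)
      have h3 : (0 : ℝ) < 2 ^ D.rk i := by positivity
      rw [pow_add] at e1
      have : (q2 (D.rk i + e) * 2 ^ e) * 2 ^ D.rk i = q2 (D.rk i) * 2 ^ D.rk i := by
        linear_combination e1 - e2
      exact mul_right_cancel₀ h3.ne' this
    have h4 : (0 : ℝ) < 2 ^ e := by positivity
    nlinarith
  have hG1 : C1 K M ≤ (C1 K M + C2 K) * 2 ^ e := by
    have : 1 ≤ 2 ^ e := Nat.one_le_two_pow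
    nlinarith [Nat.zero_le (C1 K M), Nat.zero_le (C2 K)]
  have hG2 : C2 K ≤ (C1 K M + C2 K) * 2 ^ e := by
    have : 1 ≤ 2 ^ e := Nat.one_le_two_pow
    nlinarith [Nat.zero_le (C1 K M), Nat.zero_le (C2 K)]
  have hbig : ∀ c : ℝ, c ≤ C2 K → c * q2 (D.rk i) ≤ (((C1 K M + C2 K) * 2 ^ e : ℕ) : ℝ) * q2 (D.rk (i + 1)) := by
    intro c hc
    have h1 : c * q2 (D.rk i) ≤ (C1 K M + C2 K : ℝ) * q2 (D.rk i) := by
      refine mul_le_mul_of_nonneg_right ?_ (q2_pos _).le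
      linarith [Nat.cast_nonneg (α := ℝ) (C1 K M)]
    have h2 : (C1 K M + C2 K : ℝ) * q2 (D.rk i) ≤ (C1 K M + C2 K : ℝ) * (2 ^ e * q2 (D.rk (i + 1))) :=
      mul_le_mul_of_nonneg_left hqe (by positivity)
    push_cast
    linarith
  have h1 := H.hc_rc (j := i + 1) hi Y (fun ω ω' _ _ hy => (Prod.mk.inj hy).2) (bad (i + 1)) (fun _ h => h)
    ((C1 K M + C2 K) * 2 ^ e) hG1 hG2
    (fun ω ω' hω hω' hy => (H.gA_prev hω hω' (hr ω ω' hy)).trans (hbig _ (by nlinarith)))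
    (fun ω ω' hω hω' hy => (H.kR_prev hi hω hω' (hr ω ω' hy) (Prod.mk.inj hy).2).trans (hbig _ (by nlinarith)))
  have h2 : hc Q (D.T (i + 1)) Y ≤ hc Q (D.rc (i + 1)) Y := by
    refine hc_mono_left Q fun ω ω' _ _ hh => ?_
    obtain ⟨h3, h4⟩ := Prod.mk.inj hh
    have h5 : D.T i ω = D.T i ω' := (Prod.mk.inj h4).1
    show D.rc (i + 1) ω :: D.T i ω = D.rc (i + 1) ω' :: D.T i ω'
    rw [h3, h5]
  have h3 := logG K M e
  have h4 : prE Q (bad (i + 1)) * (3 * Real.log (2 * (((C1 K M + C2 K) * 2 ^ e + 2 : ℕ) : ℝ) + 1)) ≤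
      prE Q (bad (i + 1)) * (3 * (Lg K M + e * Real.log 2)) :=
    mul_le_mul_of_nonneg_left (by linarith) (prE_nonneg Q _)
  have h5 : 3 * Real.log (2 * (C1 K M + C2 K + 2 : ℕ) + 1) = 3 * Lg K M := rfl
  linarith

/-- **the start** : no exceptional event -/
theorem hc_start (H : LS D Q Z kI aI bad K M h q N) (h0 : ∀ ω, ¬ bad 0 ω) :
    hc Q (D.T 0) (Z 0) ≤ 3 * Lg K M := by
  classical
  have hbig : ∀ c : ℝ, c ≤ C1 K M → c * q2 (D.rk 0) ≤ ((C1 K M + C2 K : ℕ) : ℝ) * q2 (D.rk 0) := by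
    intro c hc
    refine mul_le_mul_of_nonneg_right ?_ (q2_pos _).le
    push_cast
    linarith [Nat.cast_nonneg (α := ℝ) (C2 K)]
  have hK := H.K1
  have hM := H.M0
  have hKM : 0 ≤ K * M := mul_nonneg (by linarith) hM
  have hK3 : 0 ≤ K ^ 3 := by positivity
  have c1 : 2 * M + 2 * (M + K * M) + 40 * K ^ 3 ≤ (C1 K M : ℝ) := Nat.le_ceil _
  have h1 := H.hc_rc (j := 0) (Nat.zero_le _) (Z 0) (fun _ _ _ _ hy => hy) (fun _ => False) (fun ω h => h0 ω h)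
    (C1 K M + C2 K) (Nat.le_add_right _ _) (Nat.le_add_left _ _)
    (fun ω ω' hω hω' hy => (H.gA_pair (Nat.zero_le _) hω hω' (h0 ω) (h0 ω') hy).trans (hbig _ (by linarith)))
    (fun ω ω' hω hω' hy => (H.kR_pair (Nat.zero_le _) hω hω' (h0 ω) (h0 ω') hy).trans (hbig _ (by linarith)))
  have h2 : prE Q (fun _ => False) = 0 := by
    unfold prE
    simp
  rw [h2, Real.sqrt_zero, mul_zero, add_zero, zero_mul, add_zero] at h1
  have h3 : hc Q (D.T 0) (Z 0) ≤ hc Q (D.rc 0) (Z 0) := by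
    refine hc_mono_left Q fun ω ω' _ _ hh => ?_
    have h4 := (Prod.mk.inj hh).1
    show [D.rc 0 ω] = [D.rc 0 ω']
    rw [h4]
  exact h3.trans h1

/-- **the field `prT`** : `c` bounds the exceptional events, `m` the growth of the precision -/
theorem sum_T (H : LS D Q Z kI aI bad K M h q N) (h0 : ∀ ω, ¬ bad 0 ω) {m : ℕ} {c : ℝ}
    (hb : ∀ j ≤ N, prE Q (bad j) ≤ c) (hm : ∀ i < N, D.rk (i + 1) ≤ D.rk i + m) :
    hc Q (D.T 0) (Z 0) + ∑ i ∈ range N, hc Q (D.T (i + 1)) (fun ω => (D.T i ω, Z (i + 1) ω)) ≤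
      3 * Lg K M + N * (3 * Lg K M + 4 * Real.sqrt c + c * (3 * (Lg K M + m * Real.log 2))) := by
  have hL := Lg_nonneg K M
  have hl2 : 0 ≤ (m : ℝ) * Real.log 2 := mul_nonneg (Nat.cast_nonneg _) (Real.log_nonneg (by norm_num))
  refine add_le_add (H.hc_start h0) ?_
  refine (Finset.sum_le_card_nsmul _ _
    (3 * Lg K M + 4 * Real.sqrt c + c * (3 * (Lg K M + m * Real.log 2))) fun i hi => ?_).trans
    (le_of_eq (by rw [card_range, nsmul_eq_mul]))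
  have hi' := mem_range.1 hi
  refine (H.hc_step (i := i) (by omega) (hm i hi')).trans ?_
  have h1 := hb (i + 1) (by omega)
  have h2 := Real.sqrt_le_sqrt h1
  have h3 : prE Q (bad (i + 1)) * (3 * (Lg K M + m * Real.log 2)) ≤ c * (3 * (Lg K M + m * Real.log 2)) :=
    mul_le_mul_of_nonneg_right h1 (by positivity)
  linarith

/-- **the field `kno`** -/
theorem kno (H : LS D Q Z kI aI bad K M h q N) {i : ℕ} (hi : i ≤ N) {K' : ℝ} (hK' : M + 1 ≤ K') :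
    prE Q (fun ω => K' * q2 (D.rk i) < |(D.pth.F i ω).al - aI i ω| * q2 (D.a i)) ≤ prE Q (bad i) := by
  classical
  unfold prE
  rw [Finset.sum_filter, Finset.sum_filter]
  refine Finset.sum_le_sum fun ω _ => ?_
  rcases (Q.nn ω).eq_or_lt with h0 | hω
  · rw [← h0]
    simp
  · by_cases hb : bad i ω
    · rw [if_pos hb]
      split_ifs
      · exact le_rfl
      · exact Q.nn ω
    · rw [if_neg hb, if_neg]
      rw [not_lt, D.F_al]
      have h1 := D.al_err i ω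
      have h2 := H.good i hi ω hω hb
      have hq := q2_pos (D.rk i)
      have h3 : |D.al' i ω - aI i ω| ≤ |D.al' i ω - D.gA i ω| + |D.gA i ω - aI i ω| := abs_sub_le _ _ _
      have h4 := mul_le_mul_of_nonneg_right h3 (q2_pos (D.a i)).le
      nlinarith

end LS

end Vale.Agent.P106.U.PrT
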