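import Vale.Agent.P106.U.H465.GcR
import Vale.Agent.P106.U.H428.Pfv
import Vale.Agent.P106.U.S3.ExtR

/-!
# P106 / U / H824 : the prefix letter of the run (helper824)

`C2.pX hm i` = helper428's `pfA RC (D.li i)` : letters of the classes of all levels `≤ D.li i` up to the depth `RC - a`.

* `pX_nest` : nested in `i` (the hypothesis of `Run.ext`).
* `pX_Z` : function of the letter `Z i` of the ray side, for every `i`.
* `C1.mk2_pX` : function of the closure `G = W'`, for the data of `C1.mk2`.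
* `runX`, `okX` : the run with the further letter `pX` (helper404 / helper661) and its `Ok`, same prices.
-/

set_option autoImplicit false

namespace Vale.Agent.P106.U.H565

open Finset Vale.Agent.P127 Vale.Agent.P127.Stk Vale.Agent.P127.U Vale.Agent.P106.W
open Vale.Agent.P106.K (Ry RyOk bl Bin)
open Vale.Agent.P127.U.CellD (q2 rd)
open Vale.Agent.P106.U Vale.Agent.P106.U.H449 Vale.Agent.P106.U.StripL Vale.Agent.P106.U.StripE
open Vale.Agent.P106.U.LinkR Vale.Agent.P106.U.LinkW2 Vale.Agent.P106.U.InsL Vale.Agent.P106.U.InpC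
open Vale.Agent.P106.U.H823.NumG Vale.Agent.P106.U.H823.PathNum Vale.Agent.P106.U.H428.Cls

/-- the states are nested -/
theorem T_nest {Ω : Type} [Fintype Ω] {K : ℕ} {δ γ ζ₁ ζ₂ : Type} (e : Rl Ω K δ γ ζ₁ ζ₂) (P : Law Ω) {i j : ℕ}
    (hij : i ≤ j) {ω ω' : Ω} (h : e.T P j ω = e.T P j ω') : e.T P i ω = e.T P i ω' := by
  induction j, hij using Nat.le_induction with
  | base => exact h
  | succ j _ ih => exact ih (List.cons.inj h).2

/-- the classes of the curvature of word 1 -/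
noncomputable def C1.dt {Ω : Type} [Fintype Ω] (c : C1 Ω) (hm : 3 ≤ c.I.m) : Dt Ω :=
  H465.GcK.dC c.I.m c.d0 c.rule c.P c.I.pm.n c.E1 c.I.ha hm (rR_mono c.cn)

namespace C2

variable {Ω : Type} [Fintype Ω] (c : C2 Ω) (hm : 3 ≤ c.I.m)

/-- **the prefix letter of the run** -/
noncomputable def pX (i : ℕ) : Ω → ℕ → ℤ → Option ℤ := (c.dt hm).pfA c.RC (c.D.li i)

theorem pX_nest (i : ℕ) (ω ω' : Ω) (h : c.pX hm (i + 1) ω = c.pX hm (i + 1) ω') : c.pX hm i ω = c.pX hm i ω' := by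
  unfold pX at h ⊢
  have ha := c.D.li_mono (Nat.le_succ i)
  rw [Dt.pfA_res (d := c.dt hm) (RC' := c.RC) ha (fun _ _ => le_rfl) ω,
    Dt.pfA_res (d := c.dt hm) (RC' := c.RC) ha (fun _ _ => le_rfl) ω', h]

/-- **the run with the prefix letter** -/
noncomputable def runX : S3.Run Ω (List (ℤ × ℤ × ℤ × ℤ) × (ℕ → ℤ → Option ℤ)) (ℤ × S1) :=
  c.run.ext (c.pX hm) (c.pX_nest hm)

variable {c hm}

/-- the letters of the classes are functions of the state of word 1 -/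
theorem L_T {Q : Law Ω} {x : ℝ} (cn : Cn c.rule c.P Q c.I.pm.n c.E1 x) {A a : ℕ} (ha : a ≤ A) (y : ℤ) {ω ω' : Ω}
    (hω : 0 < Q.w ω) (hω' : 0 < Q.w ω')
    (h : c.rule.T c.P (ia c.I.pm.n c.E1 A) ω = c.rule.T c.P (ia c.I.pm.n c.E1 A) ω') :
    (c.dt hm).L a y ω = (c.dt hm).L a y ω' := by
  have h1 : (c.dt hm).rep a y ≤ A := ((c.dt hm).rep_le a y).trans ha
  have h2 := T_nest c.rule c.P (ia_mono cn h1) h
  have h3 : LinkR.alR c.I.m c.d0 c.rule c.P c.I.pm.n c.E1 ((c.dt hm).rep a y) ω =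
      LinkR.alR c.I.m c.d0 c.rule c.P c.I.pm.n c.E1 ((c.dt hm).rep a y) ω' := by
    classical
    unfold LinkR.alR
    rw [if_pos (cn.hE ω hω), if_pos (cn.hE ω' hω'), h2]
  unfold Dt.L Dt.z
  show ⌊LinkR.alR c.I.m c.d0 c.rule c.P c.I.pm.n c.E1 ((c.dt hm).rep a y) ω * _⌋ =
    ⌊LinkR.alR c.I.m c.d0 c.rule c.P c.I.pm.n c.E1 ((c.dt hm).rep a y) ω' * _⌋
  rw [h3]

/-- **function of the letter of the ray side** -/
theorem pX_Z {Rm : ℕ} {cc : ℝ} {Ac rc : ℕ} (H : c.Hyp Rm cc Ac rc) (i : ℕ) : Fn c.Q (c.pX hm i) (c.run.Z i) := by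
  intro ω ω' hω hω' e
  have h1 := (hasW H).ZT i ω ω' hω hω' e
  unfold pX
  funext b y
  by_cases hb : b ≤ c.D.li i
  · rw [Dt.pfA_le hb, Dt.pfA_le hb]
    by_cases hy : -((c.dt hm).N : ℤ) ≤ y ∧ y ≤ (c.RC b : ℤ) - b
    · rw [Dt.pfR_some hy.1 hy.2, Dt.pfR_some hy.1 hy.2]
      exact congrArg some (L_T c.cn2 hb y hω hω' h1)
    · rw [Dt.pfR_none hy, Dt.pfR_none hy]
  · rw [Dt.pfA_gt (by omega), Dt.pfA_gt (by omega)]

/-- **`Ok` of the run with the prefix letter**, same prices -/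
theorem okX {Rm : ℕ} {cc : ℝ} {Ac rc : ℕ} (H : c.Hyp Rm cc Ac rc) {K g' gU : ℝ}
    (hX : ∀ i, Fn c.Q (c.pX hm i) c.G) (h : c.run.Ok c.num K cc g' gU) : (c.runX hm).Ok c.num K cc g' gU :=
  S3.Run.Ok.ext h (fun i _ => hX i) (fun i _ => pX_Z H i)

end C2

namespace C1

variable {Ω : Type} [Fintype Ω] {c : C1 Ω} {hm : 3 ≤ c.I.m} {cc : ℝ} {in0 : ∀ ω, c.d0.In (c.tW ω) (c.κ ω)}
  {hc : 0 ≤ cc} {b : ℕ} {V : Type} {w : Ω → V} {z : V} {hz : 0 < c.Q1.pr w z} {ps : ℕ} {o : Fin 7 → ℝ}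
  {oK oG oN : ℝ}

/-- `pfA` at the precisions of the data is a function of the closure -/
theorem mk2_pfA (hw : ∀ ω ω', 0 < c.Q1.w ω → 0 < c.Q1.w ω' → w ω = w ω' → ∀ a ≤ c.I.ha,
      c.RT hm cc c.Q1 b a ω = c.RT hm cc c.Q1 b a ω') {a : ℕ} (ha : a ≤ c.I.ha) :
    Fn (c.mk2 hm cc in0 hc b w z hz ps o oK oG oN).Q
      ((c.dt hm).pfA (c.mk2 hm cc in0 hc b w z hz ps o oK oG oN).RC a)
      (c.mk2 hm cc in0 hc b w z hz ps o oK oG oN).G := by
  have h1 := H465.GcK.kw (A := c.I.ha) (hm := hm) (F := c.Fy) c.cn (C0.isL0 in0) hc b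
  refine h1.fn_A (Q := (c.mk2 hm cc in0 hc b w z hz ps o oK oG oN).Q) (RC := (c.mk2 hm cc in0 hc b w z hz ps o oK oG oN).RC)
    ha (Nat.zero_le _) fun ω hω a' ha' => ?_
  have h2 := C1.rcx_eq hw hz (ha'.trans ha) (mk2_sup hω).1 (mk2_sup hω).2
  have h3 : c.RT hm cc c.Q1 b a' ω = _ := H465.GcK.RTC_eq (A := c.I.ha) (hm := hm) (c := cc) (F := c.Fy) (d0 := c.d0) c.cn b a' ω
  rw [h3] at h2
  exact h2

/-- **the prefix letter is a function of the closure** -/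
theorem mk2_pX (hw : ∀ ω ω', 0 < c.Q1.w ω → 0 < c.Q1.w ω' → w ω = w ω' → ∀ a ≤ c.I.ha,
      c.RT hm cc c.Q1 b a ω = c.RT hm cc c.Q1 b a ω') (hN : 1 ≤ c.N0) (i : ℕ) :
    Fn (c.mk2 hm cc in0 hc b w z hz ps o oK oG oN).Q ((c.mk2 hm cc in0 hc b w z hz ps o oK oG oN).pX hm i)
      (c.mk2 hm cc in0 hc b w z hz ps o oK oG oN).G :=
  mk2_pfA hw (lev_ltG c.good Dt.is (c.mk2 hm cc in0 hc b w z hz ps o oK oG oN).cn2
    (c.mk2 hm cc in0 hc b w z hz ps o oK oG oN).w2 hN i).2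

end C1

end Vale.Agent.P106.U.H565
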